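import Vale.Agent.P148.R2.H609.Row2
import Vale.Agent.P148.R2.H172.Asm

/-!
# Rows sf and cnt, in the literal form of `H172.meu_of_rows4`
-/

namespace Vale.Agent.P148.R2.H609

open Vale.Agent.P148.R2.H184 (Dt Wt)

universe u

theorem rowSf {τ : ℂ} {κ₀ : ℝ} {Θ : Dt → ℂ} (hΘ : Wt τ κ₀ Θ) : H172.RowSf.{u} Θ := row_sf hΘ

theorem rowCnt : H172.RowCnt.{u} := row_cnt

end Vale.Agent.P148.R2.H609
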