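import Vale.Agent.P148.R2.H609.SFA3
import Vale.Agent.P148.R2.H659.Close2

/-!
# The arcs of the frozen boundary from the explored loop

`Loop` (helper659): the closed strand of `o` with its main cycle, in the order of time.  The vertices
of the main cycle seen in the time intervals `[s i, s (i + 1))` are a ring of arcs.
-/

open MeasureTheory Set Metric Filter ProbabilityTheory Topology
open scoped ENNReal NNReal

namespace Vale.Agent.P148.R2.H609

open H592 H184 H203 _root_.P148 _root_.P148.H729 Vale.Agent.P148.R2.H258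
open Vale.Agent.P148.R2.H838 (OutD WalkOff)
open Vale.Agent.P148.R2.H400 (InjOff Facing Start)
open Vale.Agent.P148.R2.H995 (nsup)
open Vale.Agent.P148.R2.H566 (W0 Asq Ev Scene)
open Vale.Agent.P148.R2.H659 (Loop early arcP)
open Vale.Agent.P148.R2.H871 (per idmap_val src0)

universe u

variable {w : W0}

/-- The real triangulation of world 0. -/
noncomputable abbrev TP (w : W0) (x₀ : w.X) : Tri w.X w.D :=
  w.hull.tri258 (idmap w.X x₀) (fib_id w.X x₀)

/-- The contraction of world 0, on the sites. -/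
noncomputable abbrev piX (w : W0) : w.X → w.V := fun x => w.π x.1

theorem apex_TP (x₀ : w.X) (q : w.D) : ((TP w x₀).apex q).1 = vc q.1 q.2 := by
  have h1 : (TP w x₀).apex q = (TP w x₀).src ((TP w x₀).nxt ((TP w x₀).nxt q)) := rfl
  rw [h1, src0]
  show tail ((q.1, q.2 + 1 + 1) : Fc w.X w.b × ZMod 3) = _
  rw [show q.2 + 1 + 1 = q.2 + 2 by ring, HullTri.tail_next2]

theorem tgt_TP (x₀ : w.X) (q : w.D) : ((TP w x₀).tgt q).1 = head q := by
  show ((TP w x₀).src ((TP w x₀).rev q)).1 = head q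
  rw [src0]; exact w.hull.tail_rv q

theorem nbr_apex (q : w.D) : nbr w.X (tail q) (vc q.1 q.2) := by
  have := w.hull.nbr_th ((q.1, q.2 + 2) : Fc w.X w.b × ZMod 3)
  rw [HullTri.tail_next2, HullTri.head_next2] at this
  exact nbr_symm this

/-- The vertices of the main cycle with times in `[a, b)`. -/
def cyP (c : ℕ → w.D) (t : ℕ → ℕ) (n a b : ℕ) : Set ℂ :=
  {x | ∃ k < n, a ≤ t k ∧ t k < b ∧ tail (c k) = x}

section

variable {x₀ : w.X} {col : w.X → Bool} {o : w.D} {n : ℕ} {c : ℕ → w.D} {t : ℕ → ℕ}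
  (hL : Loop (TP w x₀) (piX w) w.O col o n c t)

include hL in
/-- `cyP` is the set of real tails of `arcP (early ..)` of helper659. -/
theorem cyP_eq_early {a b : ℕ} (hb : b ≤ per (TP w x₀) col o) :
    Subtype.val '' early (TP w x₀) col (((TP w x₀).st col)^[a] o) (c 0) (b - a) =
      cyP c t n a b := by
  ext x
  constructor
  · rintro ⟨v, ⟨m, hm, hr, hv⟩, rfl⟩
    rw [← Function.iterate_add_apply] at hr hv
    obtain ⟨k, hk, hkt⟩ := hL.all (m + a) (by omega) hr
    refine ⟨k, hk, by omega, by omega, ?_⟩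
    rw [← hv, ← hkt, hL.hit k hk, src0]
  · rintro ⟨k, hk, h1, h2, rfl⟩
    refine ⟨(TP w x₀).src (c k), ⟨t k - a, by omega, ?_, ?_⟩, src0 w.hull x₀ (c k)⟩
    · rw [← Function.iterate_add_apply, show t k - a + a = t k by omega, hL.hit k hk]
      exact hL.mem k hk
    · rw [← Function.iterate_add_apply, show t k - a + a = t k by omega, hL.hit k hk]

include hL in
theorem bq_eq_arcP {a b : ℕ} (hb : b ≤ per (TP w x₀) col o) :
    Bq w (cyP c t n a b) = arcP (TP w x₀) w.T w.O
      (early (TP w x₀) col (((TP w x₀).st col)^[a] o) (c 0) (b - a)) := by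
  ext e
  constructor
  · rintro ⟨h1, h2⟩
    rw [← cyP_eq_early hL hb] at h2
    obtain ⟨v, hv, hve⟩ := h2
    refine ⟨h1, ?_⟩
    have : (TP w x₀).src e = v := Subtype.ext (by rw [src0]; exact hve.symm)
    rw [this]; exact hv
  · rintro ⟨h1, h2⟩
    refine ⟨h1, ?_⟩
    rw [← cyP_eq_early hL hb]
    exact ⟨_, h2, src0 w.hull x₀ e⟩

include hL in
theorem tail_inj {k l : ℕ} (hk : k < n) (hl : l < n) (h : tail (c k) = tail (c l)) : k = l := by
  apply hL.ring.inj k hk l hl
  apply Subtype.ext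
  rw [src0, src0, h]

include hL in
theorem nbr_next {k : ℕ} (hk : k + 1 < n) : nbr w.X (tail (c k)) (tail (c (k + 1))) := by
  have h1 := congrArg Subtype.val (hL.ring.next k hk)
  rw [src0, apex_TP] at h1
  rw [h1]; exact nbr_apex (c k)

include hL in
theorem nbr_close : nbr w.X (tail (c (n - 1))) (tail (c 0)) := by
  have h1 := congrArg Subtype.val hL.ring.close
  rw [src0, apex_TP] at h1
  rw [h1]; exact nbr_apex _

include hL in
theorem mono_le {i j : ℕ} (hij : i ≤ j) (hj : j < n) : t i ≤ t j := by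
  rcases hij.lt_or_eq with h | h
  · exact (hL.mono i j h hj).le
  · rw [h]

include hL in
theorem connIn_cyP (a b : ℕ) : ConnIn w.X (cyP c t n a b) := by
  refine ⟨?_, ?_⟩
  · rintro x ⟨k, -, -, -, rfl⟩
    exact tail_mem (c k)
  · have key : ∀ k l, k ≤ l → l < n → a ≤ t k → t l < b → Relation.ReflTransGen
        (fun x y => nbr w.X x y ∧ x ∈ cyP c t n a b ∧ y ∈ cyP c t n a b) (tail (c k))
          (tail (c l)) := by
      intro k l hkl
      induction l, hkl using Nat.le_induction with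
      | base => intro _ _ _; exact Relation.ReflTransGen.refl
      | succ l hkl ih =>
        intro h1 h2 h3
        have h4 : t l ≤ t (l + 1) := mono_le hL (Nat.le_succ l) h1
        have h5 := mono_le hL hkl (by omega : l < n)
        refine (ih (by omega) h2 (by omega)).tail ⟨nbr_next hL h1, ?_, ?_⟩
        · exact ⟨l, by omega, by omega, by omega, rfl⟩
        · exact ⟨l + 1, h1, by omega, h3, rfl⟩
    rintro x ⟨k, hk, hk1, hk2, rfl⟩ y ⟨l, hl, hl1, hl2, rfl⟩
    rcases le_total k l with h | h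
    · exact key k l h hl hk1 hl2
    · have h1 := key l k h hk hl1 hk2
      refine Relation.ReflTransGen.mono ?_ _ _ h1.swap
      rintro x y ⟨h2, h3, h4⟩
      exact ⟨nbr_symm h2, h4, h3⟩

include hL in
/-- **The ring of arcs of an explored loop.** -/
theorem ringOK_of_loop {M : ℕ} [NeZero M] {s : ℕ → ℕ} (hs0 : s 0 = 0)
    (hsM : s M = per (TP w x₀) col o) (hs : ∀ i < M, s i ≤ s (i + 1))
    (hfree : ∀ x y, w.Free x → w.Free y →
      Relation.ReflTransGen (fun a b => nbr w.X a b ∧ a ∉ w.B ∧ b ∉ w.B) x y)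
    (hne : ∀ i : ZMod M, (cyP c t n (s i.val) (s (i.val + 1))).Nonempty) {η : ℝ}
    (hdiam : ∀ i : ZMod M, ∀ x ∈ cyP c t n (s i.val) (s (i.val + 1)),
      ∀ y ∈ cyP c t n (s i.val) (s (i.val + 1)) ∪
        cyP c t n (s (i + 1).val) (s ((i + 1).val + 1)), dist x y ≤ η) :
    RingOK w (fun i : ZMod M => cyP c t n (s i.val) (s (i.val + 1))) η := by
  have hsmono : ∀ i j, i ≤ j → j ≤ M → s i ≤ s j := by
    intro i j hij
    induction j, hij using Nat.le_induction with
    | base => intro _; exact le_rfl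
    | succ j hij ih => intro hj; exact (ih (by omega)).trans (hs j (by omega))
  have hMp : 0 < M := NeZero.pos M
  have hval : ∀ i : ZMod M, i.val < M := fun i => ZMod.val_lt i
  have hint : ∀ m < per (TP w x₀) col o, ∃ i : ZMod M, s i.val ≤ m ∧ m < s (i.val + 1) := by
    intro m hm
    have hex : ∃ j, m < s (j + 1) := ⟨M - 1, by rw [Nat.sub_add_cancel hMp, hsM]; exact hm⟩
    classical
    set j := Nat.find hex with hj
    have h1 : m < s (j + 1) := Nat.find_spec hex
    have hjM : j ≤ M - 1 := Nat.find_min' hex (by rw [Nat.sub_add_cancel hMp, hsM]; exact hm)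
    refine ⟨(j : ZMod M), ?_, ?_⟩
    · rw [ZMod.val_cast_of_lt (by omega)]
      rcases Nat.eq_zero_or_pos j with h2 | h2
      · rw [h2, hs0]; exact Nat.zero_le _
      · have h3 := Nat.find_min hex (m := j - 1) (by omega)
        rw [Nat.sub_add_cancel h2] at h3
        omega
    · rw [ZMod.val_cast_of_lt (by omega)]; exact h1
  refine ⟨hfree, ?_, ?_, fun i => connIn_cyP hL _ _, ?_, ?_, hdiam⟩
  · rintro i x ⟨k, hk, -, -, rfl⟩
    have h1 := (hL.ring.fib hk).1
    have h2 : w.π (tail (c k)) = w.O := by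
      rw [← src0 w.hull x₀ (c k)]; exact h1
    exact (pi_B (tail_mem (c k))).1 h2
  · intro i j hij
    rw [Set.disjoint_left]
    rintro x ⟨k, hk, hk1, hk2, rfl⟩ ⟨l, hl, hl1, hl2, hkl⟩
    have := tail_inj hL hk hl hkl.symm
    subst this
    have h1 : i.val ≠ j.val := fun h => hij (ZMod.val_injective M h)
    rcases lt_or_gt_of_ne h1 with h2 | h2
    · have := hsmono (i.val + 1) j.val h2 (hval j).le
      omega
    · have := hsmono (j.val + 1) i.val h2 (hval i).le
      omega
  · -- consecutive arcs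
    intro i
    obtain ⟨x, k, hk, hk1, hk2, rfl⟩ := hne i
    classical
    -- the last index of arc `i`
    set Q : ℕ → Prop := fun l => l < n ∧ t l < s (i.val + 1) with hQ
    have hQk : Q k := ⟨hk, hk2⟩
    set l := Nat.findGreatest Q n with hl
    have l1 : Q l := Nat.findGreatest_spec hk.le hQk
    have l2 : k ≤ l := Nat.le_findGreatest hk.le hQk
    have l3 : ∀ j, l < j → j ≤ n → ¬ Q j := fun j h1 h2 => Nat.findGreatest_is_greatest h1 h2
    have l4 := mono_le hL l2 l1.1
    refine ⟨tail (c l), ⟨l, l1.1, by omega, l1.2, rfl⟩, ?_⟩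
    by_cases hiM : i.val + 1 < M
    · have hv : (i + 1).val = i.val + 1 := by
        have e1 : i + 1 = ((i.val + 1 : ℕ) : ZMod M) := by
          rw [Nat.cast_add, ZMod.natCast_zmod_val, Nat.cast_one]
        rw [e1, ZMod.val_cast_of_lt hiM]
      obtain ⟨y, j, hj, hj1, hj2, rfl⟩ := hne (i + 1)
      have hlj : l < j := by
        by_contra hh
        have := mono_le hL (show j ≤ l by omega) l1.1
        rw [hv] at hj1
        have := l1.2
        omega
      have hln : l + 1 < n := by omega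
      have h2 : ¬ t (l + 1) < s (i.val + 1) := fun hh => l3 (l + 1) (by omega) (by omega) ⟨hln, hh⟩
      have h3 := mono_le hL (show l + 1 ≤ j by omega) hj
      exact ⟨tail (c (l + 1)), ⟨l + 1, hln, by rw [hv]; omega, by omega, rfl⟩, nbr_next hL hln⟩
    · have hiv := hval i
      have hv : i.val + 1 = M := by omega
      have hv0 : i + 1 = 0 := by
        have : ((i.val + 1 : ℕ) : ZMod M) = i + 1 := by
          rw [Nat.cast_add, ZMod.natCast_zmod_val, Nat.cast_one]
        rw [← this, hv, ZMod.natCast_self]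
      have hln : l = n - 1 := by
        by_contra hh
        have h1 := l1.1
        apply l3 (l + 1) (by omega) (by omega)
        refine ⟨by omega, ?_⟩
        rw [hv, hsM]
        exact hL.lt _ (by omega)
      obtain ⟨y, j, hj, hj1, hj2, rfl⟩ := hne 0
      have h3 := mono_le hL (Nat.zero_le j) hj
      refine ⟨tail (c 0), ⟨0, by omega, ?_, ?_, rfl⟩, ?_⟩
      · rw [hv0, ZMod.val_zero, hs0]; exact Nat.zero_le _
      · rw [hv0, ZMod.val_zero]
        rw [ZMod.val_zero] at hj2
        omega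
      · rw [hln]; exact nbr_close hL
  · intro x y hxy hx hy
    obtain ⟨q, hq1, hq2⟩ := w.hull.exists_dart hxy
    obtain ⟨k, hk, hk1⟩ := hL.ring.ring q
      (by
        show w.π ((TP w x₀).src q).1 = w.O
        rw [src0, hq1]; exact (pi_B hxy.1).2 hx)
      (by
        intro hh
        have h1 : w.π ((TP w x₀).tgt q).1 = w.O := hh
        rw [tgt_TP, hq2] at h1
        exact hy ((pi_B hxy.2.1).1 h1))
    obtain ⟨i, hi1, hi2⟩ := hint (t k) (hL.lt k hk)
    refine ⟨i, k, hk, hi1, hi2, ?_⟩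
    have := congrArg Subtype.val hk1
    rw [src0, src0, hq1] at this
    exact this.symm

/-- An empty arc is faced by every excursion. -/
theorem NF_empty {M : ℕ} {P : ZMod M → Set ℂ} {i : ZMod M} (hi : ¬ (P i).Nonempty)
    (σ : w.V → Bool) (e : w.D) : ¬ NF w P σ e := by
  rintro ⟨d, -, -, -, h⟩
  apply h i
  rintro b ⟨-, hb⟩
  exact absurd ⟨_, hb⟩ hi

theorem En_NF_empty {M : ℕ} {P : ZMod M → Set ℂ} {i : ZMod M} (hi : ¬ (P i).Nonempty)
    (Φ : w.D → ℂ) : w.En (NF w P) Φ = 0 := by
  classical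
  have h1 : ∀ σ : w.V → Bool, rs (NF w P σ) Φ = fun _ => 0 := by
    intro σ
    funext e
    unfold rs
    rw [if_neg (NF_empty hi σ e)]
  unfold W0.En
  have h2 : ∀ σ : w.V → Bool, tot w.T σ (rs (NF w P σ) Φ) = 0 := by
    intro σ
    rw [h1, tot_eq]
    apply Finset.sum_eq_zero
    intro e _
    have : w.T.cls σ e (fun _ => (0 : ℂ)) = 0 := by
      unfold Tri.cls
      simp
    rw [this]; simp
  simp only [h2, ENNReal.ofReal_zero, Finset.sum_const_zero, mul_zero]

end

/-- **Row SFA for an explored loop.** -/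
theorem sfa_loop {τ : ℂ} {κ : ℝ} {Θ : Dt → ℂ} (hΘ : Wt τ κ Θ) {ε : ℝ} (hε : 0 < ε) :
    ∃ η > 0, Ev.{u} fun T => ∀ w : W0, SfW w (pts T) → ∀ (x₀ : w.X) (col : w.X → Bool) (o : w.D)
      (n : ℕ) (c : ℕ → w.D) (t : ℕ → ℕ), Loop (TP w x₀) (piX w) w.O col o n c t →
      ∀ (M : ℕ) [NeZero M] (s : ℕ → ℕ), s 0 = 0 → s M = per (TP w x₀) col o →
      (∀ i < M, s i ≤ s (i + 1)) →
      (∀ x y, w.Free x → w.Free y →
        Relation.ReflTransGen (fun a b => nbr w.X a b ∧ a ∉ w.B ∧ b ∉ w.B) x y) →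
      (∀ k < n, 3 / 4 ≤ nsup (tail (c k)) ∧ nsup (tail (c k)) ≤ 3 / 2) →
      (∀ i : ZMod M, ∀ x ∈ cyP c t n (s i.val) (s (i.val + 1)),
        ∀ y ∈ cyP c t n (s i.val) (s (i.val + 1)) ∪
          cyP c t n (s (i + 1).val) (s ((i + 1).val + 1)), dist x y ≤ η) →
      w.En (NF w fun i : ZMod M => cyP c t n (s i.val) (s (i.val + 1)))
        (rs (w.Lo Asq) (w.th Θ)) ≤ ENNReal.ofReal ε := by
  obtain ⟨η, hη, h⟩ := sfa_ev.{u} hΘ hε
  refine ⟨η, hη, h.mono ?_⟩
  intro T hT w hw x₀ col o n c t hL M _ s hs0 hsM hs hfree hns hdiam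
  by_cases hne : ∀ i : ZMod M, (cyP c t n (s i.val) (s (i.val + 1))).Nonempty
  · refine hT w hw M _ (ringOK_of_loop hL hs0 hsM hs hfree hne hdiam) ?_
    rintro i x ⟨k, hk, -, -, rfl⟩
    exact hns k hk
  · push Not at hne
    obtain ⟨i, hi⟩ := hne
    rw [En_NF_empty (P := fun i : ZMod M => cyP c t n (s i.val) (s (i.val + 1))) (i := i)
      (by rw [hi]; exact Set.not_nonempty_empty)]
    exact zero_le

end Vale.Agent.P148.R2.H609
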