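import Vale.Agent.P148.R2.H609.DB2
import Vale.Agent.P148.R2.H203.T1

/-!
# Small footprints: energy of a union of classes, net of boxes
-/

open Set Metric Topology Filter

namespace Vale.Agent.P148.R2.H609

open Vale.Agent.P148.R2.H258 Vale.Agent.P148.R2.H592 Vale.Agent.P148.R2.H532
open Vale.Agent.P148.R2.H838
open Vale.Agent.P148.R2.H203 (tot rs Sat tot_eq)
open Vale.Agent.P148.R2.H847 (qpr UArm qpr_mono)

theorem sum_biUnion_le' {α κ : Type*} [DecidableEq α] (I : Finset κ) (t : κ → Finset α) (f : α → ℝ)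
    (hf : ∀ a, 0 ≤ f a) : ∑ a ∈ I.biUnion t, f a ≤ ∑ i ∈ I, ∑ a ∈ t i, f a := by
  classical
  induction I using Finset.induction_on with
  | empty => simp
  | insert i I hi ih =>
    rw [Finset.biUnion_insert, Finset.sum_insert hi]
    have h1 := Finset.sum_union_inter (s₁ := t i) (s₂ := I.biUnion t) (f := f)
    have h2 : 0 ≤ ∑ a ∈ t i ∩ I.biUnion t, f a := Finset.sum_nonneg fun a _ => hf a
    linarith

section

variable {V D : Type*} (T : Tri V D)

open Classical in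
/-- The energy of a union of classes is at most the sum over a set of representatives. -/
theorem tot_rs_le [Fintype D] {σ : V → Bool} {S : D → Prop} (hS : Sat T σ S) (F : Finset D)
    (hF : ∀ e, T.Mi σ e → S e → ∃ d ∈ F, T.Rel σ e d) (Θ : D → ℂ) :
    tot T σ (rs S Θ) ≤ ∑ d ∈ F, ‖T.cls σ d Θ‖ ^ 2 := by
  rw [tot_eq]
  -- every class is counted at one of its representatives
  have h1 : ∀ e, ‖T.cls σ e (rs S Θ)‖ ^ 2 / H203.ncl T σ e ≤
      ∑ d ∈ F, if T.Rel σ e d then ‖T.cls σ d Θ‖ ^ 2 / H203.ncl T σ d else 0 := by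
    intro e
    have hnn : ∀ d ∈ F, 0 ≤ (if T.Rel σ e d then ‖T.cls σ d Θ‖ ^ 2 / H203.ncl T σ d else 0) := by
      intro d _
      split_ifs
      · exact div_nonneg (by positivity) (H203.ncl_nonneg T σ d)
      · exact le_rfl
    by_cases hz : T.cls σ e (rs S Θ) = 0
    · rw [hz, norm_zero, zero_pow two_ne_zero, zero_div]
      exact Finset.sum_nonneg hnn
    · -- the class meets `S`
      obtain ⟨f, hf1, hf2⟩ : ∃ f, T.Rel σ f e ∧ S f := by
        by_contra hcon
        push Not at hcon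
        apply hz
        unfold Tri.cls
        apply Finset.sum_eq_zero
        intro f _
        split_ifs with hh
        · unfold rs
          rw [if_neg (hcon f hh)]
        · rfl
      have hSe : S e := hS f e hf1 hf2
      obtain ⟨d, hd, hed⟩ := hF e hf1.2.1 hSe
      have h2 : T.cls σ e (rs S Θ) = T.cls σ d Θ := by
        rw [← H203.cls_congr T σ hed Θ]
        unfold Tri.cls
        apply Finset.sum_congr rfl
        intro g _
        split_ifs with hh
        · unfold rs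
          rw [if_pos (hS e g (T.rel_symm hh) hSe)]
        · rfl
      have h3 := Finset.single_le_sum hnn hd
      rw [if_pos hed] at h3
      refine le_trans (le_of_eq ?_) h3
      rw [h2, H203.ncl_congr T σ hed]
  refine (Finset.sum_le_sum fun e _ => h1 e).trans ?_
  rw [Finset.sum_comm]
  apply Finset.sum_le_sum
  intro d _
  have h2 : ∀ e, (if T.Rel σ e d then ‖T.cls σ d Θ‖ ^ 2 / H203.ncl T σ d else 0) =
      (if T.Rel σ e d then (1 : ℝ) else 0) * (‖T.cls σ d Θ‖ ^ 2 / H203.ncl T σ d) := by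
    intro e
    split_ifs <;> ring
  rw [Finset.sum_congr rfl (fun e _ => h2 e), ← Finset.sum_mul]
  change H203.ncl T σ d * _ ≤ _
  by_cases hz : H203.ncl T σ d = 0
  · rw [hz]; simp
  · rw [mul_div_assoc', mul_comm, mul_div_assoc, div_self hz, mul_one]

end

variable {X : Set ℂ} {b : ZMod 3 → ℂ} (h : HullTri X b) {ι : Type*} [Inhabited ι]
  {O : ι → Set ℂ} (hd : Pairwise fun i j => Disjoint (O i) (O j)) (hc : ∀ j, ConnIn X (O j))
  (hne : ∀ j, (O j).Nonempty)

open Classical in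
/-- **Small footprints carry no energy**: one world, a finite net of boxes. `S σ` is a union of
classes, each of which leaves `O j₀` in one of the half boxes and has a small footprint. -/
theorem sf_net [Finite ι] [Fintype (CV X O)] [Fintype (Fc X b × ZMod 3)] {j₀ : ι}
    {κ : Type*} (I : Finset κ) (p : κ → ℂ) {r μ η ω : ℝ}
    (hB : ∀ i ∈ I, BoxOK X O j₀ (p i) r μ) (hη : 0 ≤ η) (hηr : 4 * (η + μ) ≤ r)
    {ζ : ℂ} (hζ : ζ ^ 2 + ζ + 1 = 0) {Θ : Fc X b × ZMod 3 → ℂ}
    (hrot : ∀ d, Θ ((TC h hd hc hne).nxt d) = ζ ^ 2 * Θ d)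
    (hg : ∀ d, ¬ (TC h hd hc hne).Good d → Θ d = 0)
    (hΘ : ∀ e, Θ e ≠ 0 → ∀ z ∈ ({tail e, head e, vc e.1 e.2} : Set ℂ),
      (∀ i ∈ I, z ∉ Sq (p i) r) ∧ z ∉ O j₀)
    (hω : ∀ i ∈ I, ∀ z ∈ Sq (p i) (r / 2), qpr (Gs X O) (fun W => UArm X W
      (closedBall z (η + μ)) (ball z (r / 4))ᶜ) ≤ ω)
    {S : (CV X O → Bool) → Fc X b × ZMod 3 → Prop} (hS : ∀ σ, Sat (TC h hd hc hne) σ (S σ))
    (hS' : ∀ σ e, (TC h hd hc hne).Mi σ e → S σ e → ∃ d, (TC h hd hc hne).Rel σ e d ∧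
      tail d ∈ O j₀ ∧ (∃ i ∈ I, tail d ∈ Sq (p i) (r / 2)) ∧
      Small (TC h hd hc hne) σ (Sum.inl j₀) η d) :
    ∑ σ : CV X O → Bool, tot (TC h hd hc hne) σ (rs (S σ) Θ) ≤
      2 ^ Fintype.card (CV X O) * (ω * (∑ e, ‖Θ e‖ ^ 2) *
        ∑ i ∈ I, (2 / r ^ 2 * edE X b (p i) r)) := by
  set T := TC h hd hc hne with hT
  have h1 : ∀ σ : CV X O → Bool, tot T σ (rs (S σ) Θ) ≤
      ∑ i ∈ I, ∑ d ∈ nearB X b O j₀ (p i) r,
        (if Small T σ (Sum.inl j₀) η d then ‖T.cls σ d Θ‖ ^ 2 else 0) := by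
    intro σ
    have h2 := tot_rs_le T (hS σ) ((I.biUnion fun i => nearB X b O j₀ (p i) r).filter
      (fun d => Small T σ (Sum.inl j₀) η d)) (by
        intro e hm he
        obtain ⟨d, h3, h4, ⟨i, hi, h5⟩, h6⟩ := hS' σ e hm he
        refine ⟨d, ?_, h3⟩
        rw [Finset.mem_filter, Finset.mem_biUnion]
        refine ⟨⟨i, hi, ?_⟩, h6⟩
        unfold nearB
        rw [Finset.mem_filter]
        exact ⟨Finset.mem_univ _, h4, h5⟩) Θ
    refine h2.trans ?_
    rw [Finset.sum_filter]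
    refine sum_biUnion_le' I (fun i => nearB X b O j₀ (p i) r)
      (fun d => if Small T σ (Sum.inl j₀) η d then ‖T.cls σ d Θ‖ ^ 2 else 0) (fun d => ?_)
    split_ifs <;> positivity
  calc ∑ σ : CV X O → Bool, tot T σ (rs (S σ) Θ)
      ≤ ∑ σ : CV X O → Bool, ∑ i ∈ I, ∑ d ∈ nearB X b O j₀ (p i) r,
        (if Small T σ (Sum.inl j₀) η d then ‖T.cls σ d Θ‖ ^ 2 else 0) :=
        Finset.sum_le_sum fun σ _ => h1 σ
    _ = ∑ i ∈ I, ∑ σ : CV X O → Bool, ∑ d ∈ nearB X b O j₀ (p i) r,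
        (if Small T σ (Sum.inl j₀) η d then ‖T.cls σ d Θ‖ ^ 2 else 0) := Finset.sum_comm
    _ ≤ ∑ i ∈ I, 2 ^ Fintype.card (CV X O) * (ω * (∑ e, ‖Θ e‖ ^ 2) *
        (2 / r ^ 2 * edE X b (p i) r)) := by
        apply Finset.sum_le_sum
        intro i hi
        exact sf_sq h hd hc hne (hB i hi) hη hηr hζ hrot hg
          (fun e he z hz => ⟨((hΘ e he z hz).1 i hi), (hΘ e he z hz).2⟩) (hω i hi)
    _ = _ := by
        rw [← Finset.mul_sum, ← Finset.mul_sum]

/-- Mean number of excursions from `O j₀` which leave the box of their start: net version. -/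
theorem cnt_net [Fintype (CV X O)] [Fintype (Fc X b × ZMod 3)] {j₀ : ι}
    {κ : Type*} (I : Finset κ) (p : κ → ℂ) {r μ : ℝ}
    (hB : ∀ i ∈ I, BoxOK X O j₀ (p i) r μ) (E : (CV X O → Bool) → Finset (Fc X b × ZMod 3))
    (hE : ∀ σ, ∀ d ∈ E σ, ∃ i ∈ I, d ∈ nearB X b O j₀ (p i) r ∧
      Out (TC h hd hc hne) σ (Sum.inl j₀) (Far X O j₀ (Sq (p i) r)) d) :
    open Classical in ∑ σ : CV X O → Bool, ((E σ).card : ℝ) ≤
      2 ^ Fintype.card (CV X O) * ∑ i ∈ I, (2 / r ^ 2 * edE X b (p i) r) := by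
  classical
  calc ∑ σ : CV X O → Bool, ((E σ).card : ℝ)
      ≤ ∑ σ : CV X O → Bool, ∑ i ∈ I, (((nearB X b O j₀ (p i) r).filter (fun d =>
        Out (TC h hd hc hne) σ (Sum.inl j₀) (Far X O j₀ (Sq (p i) r)) d)).card : ℝ) := by
        apply Finset.sum_le_sum
        intro σ _
        have h1 : E σ ⊆ I.biUnion (fun i => (nearB X b O j₀ (p i) r).filter (fun d =>
          Out (TC h hd hc hne) σ (Sum.inl j₀) (Far X O j₀ (Sq (p i) r)) d)) := by
          intro d hdE
          obtain ⟨i, hi, h2, h3⟩ := hE σ d hdE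
          rw [Finset.mem_biUnion]
          exact ⟨i, hi, Finset.mem_filter.2 ⟨h2, h3⟩⟩
        exact_mod_cast (Finset.card_le_card h1).trans Finset.card_biUnion_le
    _ = ∑ i ∈ I, ∑ σ : CV X O → Bool, (((nearB X b O j₀ (p i) r).filter (fun d =>
        Out (TC h hd hc hne) σ (Sum.inl j₀) (Far X O j₀ (Sq (p i) r)) d)).card : ℝ) :=
        Finset.sum_comm
    _ ≤ ∑ i ∈ I, 2 ^ Fintype.card (CV X O) * (2 / r ^ 2 * edE X b (p i) r) := by
        apply Finset.sum_le_sum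
        intro i hi
        refine le_trans (le_of_eq ?_) (cnt_sq h hd hc hne (hB i hi))
        refine sum_inst _ _ fun σ => ?_
        exact congrArg (fun s : Finset (Fc X b × ZMod 3) => (s.card : ℝ)) (filter_inst _ _ _)
    _ = _ := by rw [← Finset.mul_sum]

/-- A class through `O j₀` with a far member leaves the box of its start. -/
theorem out_of_far {V : Type*} {T : Tri V (Fc X b × ZMod 3)} [Finite (Fc X b × ZMod 3)]
    {σ : V → Bool} {v₀ : V} {Λ : Set V}
    {d e : Fc X b × ZMod 3} (hs : T.src d = v₀) (hv : v₀ ∉ Λ) (ht : T.tgt d ∉ Λ)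
    (hr : T.Rel σ d e) (he : T.src e ∈ Λ ∨ T.tgt e ∈ Λ ∨ T.apex e ∈ Λ) : Out T σ v₀ Λ d := by
  classical
  obtain ⟨hm, hme, m, hmL, rfl, hdis⟩ := hr
  have hsΛ : T.src d ∉ Λ := by rw [hs]; exact hv
  have hex : ∃ k, T.apex ((T.st σ)^[k] d) ∈ Λ := by
    by_contra hcon
    push Not at hcon
    have h3 := not_far hm.bi hsΛ ht (t := m) (fun k _ => hcon k) m le_rfl
    rcases he with h4 | h4 | h4
    · exact h3.1 h4
    · exact h3.2 h4
    · exact hcon _ h4
  have t1 : T.apex ((T.st σ)^[Nat.find hex] d) ∈ Λ := Nat.find_spec hex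
  have t2 : ∀ k < Nat.find hex, T.apex ((T.st σ)^[k] d) ∉ Λ := fun k hk => Nat.find_min hex hk
  set t := Nat.find hex with htdef
  have htm : t ≤ m := by
    by_contra hcon
    push Not at hcon
    have h3 := not_far hm.bi hsΛ ht t2 m hcon.le
    rcases he with h4 | h4 | h4
    · exact h3.1 h4
    · exact h3.2 h4
    · exact t2 m hcon h4
  refine ⟨t, hm, hs, t2, t1, ?_⟩
  intro k hk1 hk2 hkb
  apply hdis k (Function.minimalPeriod (T.st σ) d) hk1 (by omega) hmL le_rfl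
  rw [hkb, Function.iterate_minimalPeriod, hs]

end Vale.Agent.P148.R2.H609
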