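import Vale.Agent.P148.R2.H609.SF2

/-!
# Small footprint, part 3: the main abstract theorem

`K_d` = class of the dart `d`, `src d = b`.  If the strand of `d`, followed backward from `d` until it
looks at the far set `Λ`, meets `b` only at darts of `Ad` (small footprint), then the far part of the
class of `d` carries, in the mean, at most
`P(strand of d looks at Λ before it comes back to b) * (one-arm bound) * (energy of the weight)`.
-/

namespace Vale.Agent.P148.R2.H609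

open Function ComplexConjugate
open Vale.Agent.P148.R2.H258 Vale.Agent.P148.R2.H258.Tri Vale.Agent.P148.R2.H532
open Vale.Agent.P148.R2.H838

variable {V D : Type*} (T : Tri V D)

/-- Small footprint: until it looks at `Λ`, the strand followed backward from `d` meets `b` only at
darts of `Ad`. -/
def SFoot (σ : V → Bool) (b : V) (Λ : Set V) (Ad : Set D) (d : D) : Prop :=
  ∀ j, (∀ i < j, T.apex ((T.st σ)^[i] (T.rev d)) ∉ Λ) →
    T.tgt ((T.st σ)^[j] (T.rev d)) = b → T.rev ((T.st σ)^[j] (T.rev d)) ∈ Ad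

/-- The event seen by both explorations. -/
def Both (σ : V → Bool) (b : V) (Λ : Set V) (Ad : Set D) (d : D) : Prop :=
  ∃ t s, Looks T σ Λ d t s ∧ OutAt T σ b Λ d t ∧
    (∀ j ≤ s, T.tgt ((T.st σ)^[j] (T.rev d)) = b → T.rev ((T.st σ)^[j] (T.rev d)) ∈ Ad) ∧
    (∀ j ≤ s, T.tgt ((T.st σ)^[j] (T.rev d)) ≠ b → T.tgt ((T.st σ)^[j] (T.rev d)) ∉ Old T σ d t)

variable {T}

theorem stopSet_eq {σ : V → Bool} {Λ : Set V} {d : D} {t : ℕ}
    (h1 : ∀ k < t, T.apex ((T.st σ)^[k] d) ∉ Λ) (h2 : T.apex ((T.st σ)^[t] d) ∈ Λ) :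
    StopSet T Λ d σ = Old T σ d t := by
  classical
  have hex : ∃ t, T.apex ((T.st σ)^[t] d) ∈ Λ := ⟨t, h2⟩
  have ht : Nat.find hex = t := by
    rw [Nat.find_eq_iff]
    exact ⟨h2, fun k hk => h1 k hk⟩
  unfold StopSet
  rw [dif_pos hex, ht]

theorem src_mem_stopSet {σ : V → Bool} {Λ : Set V} {d : D} : T.src d ∈ StopSet T Λ d σ := by
  classical
  unfold StopSet
  split_ifs
  · exact ⟨0, Nat.zero_le _, Or.inl rfl⟩
  · exact Set.mem_univ _

/-- The vertex looked at before the last time is explored. -/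
theorem apex_mem_old {σ : V → Bool} {d : D} (hb : T.Bi σ d) {t k : ℕ} (hk : k < t) :
    T.apex ((T.st σ)^[k] d) ∈ Old T σ d t := by
  rcases apex_hugged hb k with h | h
  · exact ⟨k + 1, hk, Or.inl h⟩
  · exact ⟨k + 1, hk, Or.inr h⟩

theorem OutAt.congr {σ σ' : V → Bool} {b : V} {Λ : Set V} {d : D} {t : ℕ}
    (hap : T.apex d ∉ Λ) (h : OutAt T σ b Λ d t) (hag : ∀ v ∈ Old T σ d t, σ' v = σ v) :
    OutAt T σ' b Λ d t := by
  obtain ⟨hm, hs, ha, hat, hr⟩ := h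
  have hit := iter_congr T hag
  have ht : 1 ≤ t := by
    by_contra hc
    have : t = 0 := by omega
    subst this
    exact hap hat
  have e1 := hag (T.src d) ⟨0, Nat.zero_le _, Or.inl rfl⟩
  have e2 := hag (T.tgt d) ⟨0, Nat.zero_le _, Or.inr rfl⟩
  have e3 := hag (T.apex d) (apex_mem_old hm.bi (k := 0) ht)
  refine ⟨⟨?_, ?_⟩, hs, ?_, ?_, ?_⟩
  · rw [e1, e2]; exact hm.1
  · rw [e1, e3]; exact hm.2
  · intro k hk; rw [hit k hk.le]; exact ha k hk
  · rw [hit t le_rfl]; exact hat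
  · intro k hk1 hk2; rw [hit k hk2]; exact hr k hk1 hk2

theorem Out.congr {σ σ' : V → Bool} {b : V} {Λ : Set V} {d : D}
    (hap : T.apex d ∉ Λ) (h : Out T σ b Λ d) (hag : ∀ v ∈ StopSet T Λ d σ, σ' v = σ v) :
    Out T σ' b Λ d := by
  obtain ⟨t, h⟩ := h
  rw [stopSet_eq h.2.2.1 h.2.2.2.1] at hag
  exact ⟨t, h.congr hap hag⟩

theorem Both.congr {σ σ' : V → Bool} {b : V} {Λ : Set V} {Ad : Set D} {d : D}
    (hap : T.apex d ∉ Λ) (h : Both T σ b Λ Ad d)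
    (hag : ∀ v ∈ StopSet T Λ d σ ∪ StopSet T Λ (T.rev d) σ, σ' v = σ v) :
    Both T σ' b Λ Ad d := by
  obtain ⟨t, s, hl, ho, h1, h2⟩ := h
  rw [stopSet_eq hl.fwd hl.fwd', stopSet_eq hl.bwd hl.bwd'] at hag
  have hit := iter_congr T (σ := σ) (σ' := σ') (d := T.rev d) (t := s)
    (fun v hv => hag v (Or.inr hv))
  refine ⟨t, s, hl.congr hag, ho.congr hap (fun v hv => hag v (Or.inl hv)), ?_, ?_⟩
  · intro j hj; rw [hit j hj]; exact h1 j hj
  · intro j hj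
    rw [hit j hj, old_congr T (fun v hv => hag v (Or.inl hv))]
    exact h2 j hj

/-- If the far part of the class of `d` is charged, both explorations see the event. -/
theorem both_of_cls [Fintype D] {σ : V → Bool} {b : V} {Λ : Set V} {Ad : Set D} {d : D}
    (hs : T.src d = b) (hbΛ : b ∉ Λ) (ht : T.tgt d ∉ Λ) {Θ : D → ℂ}
    (hΘ : ∀ e, Θ e ≠ 0 → T.src e ∈ Λ ∧ T.tgt e ∈ Λ ∧ T.apex e ∈ Λ)
    (hF : SFoot T σ b Λ Ad d) (hc : T.cls σ d Θ ≠ 0) : Both T σ b Λ Ad d := by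
  classical
  obtain ⟨e, he1, he2⟩ : ∃ e, T.Rel σ e d ∧ Θ e ≠ 0 := by
    by_contra hcon
    push Not at hcon
    apply hc
    unfold Tri.cls
    apply Finset.sum_eq_zero
    intro e _
    split_ifs with hh
    · exact hcon e hh
    · rfl
  obtain ⟨hm, hme, m, hmL, rfl, hdis⟩ := T.rel_symm he1
  obtain ⟨c1, c2, c3⟩ := hΘ _ he2
  have hb : T.Bi σ d := hm.bi
  have hb' : T.Bi σ (T.rev d) := T.bi_rev.2 hb
  set L := minimalPeriod (T.st σ) d with hL
  have hsΛ : T.src d ∉ Λ := by rw [hs]; exact hbΛ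
  -- the forward look
  have hex : ∃ k, T.apex ((T.st σ)^[k] d) ∈ Λ := ⟨m, c3⟩
  set t := Nat.find hex with htdef
  have t1 : T.apex ((T.st σ)^[t] d) ∈ Λ := Nat.find_spec hex
  have t2 : ∀ k < t, T.apex ((T.st σ)^[k] d) ∉ Λ := fun k hk => Nat.find_min hex hk
  -- the backward look
  have hex' : ∃ k, T.apex ((T.st σ)^[k] (T.rev d)) ∈ Λ := by
    by_contra hcon
    push Not at hcon
    have hbm : T.Bi σ ((T.st σ)^[m] d) := (T.bi_iter m).2 hb
    have h1 := corners_step hbm (P := fun v => v ∈ Λ) (Or.inl c1)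
    have h2 := rev_iter (T := T) σ d (j := L - (m + 1)) (by omega)
    rw [← hL, show L - (L - (m + 1)) = m + 1 by omega, iterate_succ', comp_apply] at h2
    rw [← h2] at h1
    have h3 := not_far hb' (Λ := Λ) (by rw [T.src_rev]; exact ht) (by rw [T.tgt_rev]; exact hsΛ)
      (t := L - (m + 1)) (fun k _ => hcon k) (L - (m + 1)) le_rfl
    rcases h1 with h4 | h4 | h4
    · exact h3.1 h4
    · exact h3.2 h4
    · exact hcon _ h4
  set s := Nat.find hex' with hsdef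
  have s1 : T.apex ((T.st σ)^[s] (T.rev d)) ∈ Λ := Nat.find_spec hex'
  have s2 : ∀ k < s, T.apex ((T.st σ)^[k] (T.rev d)) ∉ Λ := fun k hk => Nat.find_min hex' hk
  have hl : Looks T σ Λ d t s := ⟨hsΛ, ht, t2, t1, s2, s1⟩
  have htm := hl.t_le hb (m := m) (Or.inl c1)
  have hms := hl.le_s hb hmL (Or.inl c1)
  rw [← hL] at hms
  refine ⟨t, s, hl, ⟨hm, hs, t2, t1, ?_⟩, ?_, ?_⟩
  · intro k hk1 hk2 hkb
    apply hdis k L hk1 (by omega) hmL le_rfl
    rw [hkb, hL, iterate_minimalPeriod, hs]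
  · intro j hj hjb
    exact hF j (fun i hi => s2 i (by omega)) hjb
  · intro j hj hjb hold
    rw [rev_iter σ d (by omega), T.tgt_rev, ← hL] at hjb hold
    obtain ⟨i, hi, h1 | h1⟩ := hold
    · rcases Nat.eq_zero_or_pos i with rfl | hi0
      · exact hjb (by rw [← h1]; exact hs)
      · exact hdis i (L - j) hi0 (by omega) (by omega) (by omega) h1
    · have e1 := T.col_tgt_iter σ d i
      have e2 := T.col_src_iter σ d (L - j)
      rw [h1, e2] at e1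
      exact hb e1

/-- The backward exploration contains a fresh arm, given the forward one. -/
theorem Both.arm {σ : V → Bool} {b : V} {Λ : Set V} {Ad : Set D} {d : D}
    (hs : T.src d = b) (hAd : ∀ g, T.rev g ∈ Ad → T.apex g ∉ Λ) (h : Both T σ b Λ Ad d) :
    Arm T (σ b) ((StopSet T Λ d σ)ᶜ ∩ Λᶜ) {v | ∃ g, T.rev g ∈ Ad ∧ T.apex g = v}
      {v | ∃ e, T.src e = v ∧ T.tgt e ∈ Λ} σ := by
  classical
  obtain ⟨t, s, hl, ho, h1, h2⟩ := h
  have hb : T.Bi σ d := ho.1.bi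
  have hb' : T.Bi σ (T.rev d) := T.bi_rev.2 hb
  rw [stopSet_eq hl.fwd hl.fwd']
  -- the last visit of `b`
  set P : ℕ → Prop := fun j => T.tgt ((T.st σ)^[j] (T.rev d)) = b with hP
  have hP0 : P 0 := by
    change T.tgt (T.rev d) = b
    rw [T.tgt_rev, hs]
  have j1 : P (Nat.findGreatest P s) := Nat.findGreatest_spec (P := P) (Nat.zero_le s) hP0
  have j2 : Nat.findGreatest P s ≤ s := Nat.findGreatest_le s
  have j3 : ∀ j, Nat.findGreatest P s < j → j ≤ s → ¬ P j := fun j hj hjs =>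
    Nat.findGreatest_is_greatest hj hjs
  set j₀ := Nat.findGreatest P s with hj₀
  have j4 : j₀ < s := by
    rcases j2.lt_or_eq with h3 | h3
    · exact h3
    · exfalso
      apply hAd _ (h1 j₀ j2 j1)
      rw [h3]; exact hl.bwd'
  have hfirst : T.tgt ((T.st σ)^[j₀ + 1] (T.rev d)) = T.apex ((T.st σ)^[j₀] (T.rev d)) := by
    have h3 := j3 (j₀ + 1) (by omega) (by omega)
    have hbj : T.Bi σ ((T.st σ)^[j₀] (T.rev d)) := (T.bi_iter j₀).2 hb'
    by_cases hm : T.Mi σ ((T.st σ)^[j₀] (T.rev d))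
    · exfalso
      apply h3
      change T.tgt _ = b
      rw [iterate_succ', comp_apply, T.tgt_st_mi hm]
      exact j1
    · rw [iterate_succ', comp_apply, T.tgt_st_nmi hbj hm]
  refine ⟨_, ⟨_, h1 j₀ j2 j1, hfirst.symm⟩, T.tgt ((T.st σ)^[s] (T.rev d)),
    ⟨T.nxt ((T.st σ)^[s] (T.rev d)), T.src_nxt' _, by rw [T.tgt_nxt]; exact hl.bwd'⟩, ?_⟩
  have hadj : ∀ k, T.tgt ((T.st σ)^[k + 1 + (j₀ + 1)] (T.rev d)) =
      T.tgt ((T.st σ)^[k + (j₀ + 1)] (T.rev d)) ∨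
      ∃ g, T.src g = T.tgt ((T.st σ)^[k + 1 + (j₀ + 1)] (T.rev d)) ∧
        T.tgt g = T.tgt ((T.st σ)^[k + (j₀ + 1)] (T.rev d)) := by
    intro k
    have := right_adj hb' (k + (j₀ + 1))
    rwa [show k + (j₀ + 1) + 1 = k + 1 + (j₀ + 1) by omega] at this
  have hnf := not_far hb' (Λ := Λ) (by rw [T.src_rev]; exact hl.tgt)
    (by rw [T.tgt_rev]; exact hl.src) hl.bwd
  have hj := seq_joined (σ := σ) (x := fun k => T.tgt ((T.st σ)^[k + (j₀ + 1)] (T.rev d)))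
    (c := σ b) (F := (Old T σ d t)ᶜ ∩ Λᶜ) hadj
    (fun k => by rw [T.col_tgt_iter σ, T.tgt_rev, hs]) (t := s - (j₀ + 1))
    (fun k hk => ⟨h2 (k + (j₀ + 1)) (by omega) (j3 _ (by omega) (by omega)),
      (hnf (k + (j₀ + 1)) (by omega)).2⟩) (s - (j₀ + 1)) le_rfl
  simp only [Nat.sub_add_cancel (show j₀ + 1 ≤ s from j4), zero_add] at hj
  exact hj.symm

open Classical in
/-- **Small footprints carry no energy.** -/
theorem sf_bound [Fintype V] [Fintype D] (hP : T.Planar) {ζ : ℂ} (hζ : ζ ^ 2 + ζ + 1 = 0)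
    {b : V} {Λ : Set V} {d : D} (hs : T.src d = b) (hbΛ : b ∉ Λ) (ht : T.tgt d ∉ Λ)
    (hap : T.apex d ∉ Λ) {Θ : D → ℂ} (hrot : ∀ d, Θ (T.nxt d) = ζ ^ 2 * Θ d)
    (hg : ∀ d, ¬ T.Good d → Θ d = 0)
    (hΘ : ∀ e, Θ e ≠ 0 → T.src e ∈ Λ ∧ T.tgt e ∈ Λ ∧ T.apex e ∈ Λ)
    {Ad : Set D} (hAd : ∀ g, T.rev g ∈ Ad → T.apex g ∉ Λ) {ω : ℝ}
    (hω : ∀ c, pr (Arm T c {v | v ≠ b ∧ v ∉ Λ} {v | ∃ g, T.rev g ∈ Ad ∧ T.apex g = v}
      {v | ∃ e, T.src e = v ∧ T.tgt e ∈ Λ}) ≤ ω) :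
    ∑ σ : V → Bool, (if SFoot T σ b Λ Ad d then ‖T.cls σ d Θ‖ ^ 2 else 0) ≤
      (ω * ∑ e, ‖Θ e‖ ^ 2) * ∑ σ : V → Bool, (if Out T σ b Λ d then (1 : ℝ) else 0) := by
  set A1 : (V → Bool) → Set V := StopSet T Λ d with hA1
  set A2 : (V → Bool) → Set V := fun σ => StopSet T Λ d σ ∪ StopSet T Λ (T.rev d) σ with hA2
  have hA1s : ∀ σ σ', (∀ v ∈ A1 σ, σ' v = σ v) → A1 σ' = A1 σ := stopSet_congr T Λ d
  have hA2s : ∀ σ σ', (∀ v ∈ A2 σ, σ' v = σ v) → A2 σ' = A2 σ := by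
    intro σ σ' h
    simp only [hA2]
    rw [stopSet_congr T Λ d σ σ' (fun v hv => h v (Or.inl hv)),
      stopSet_congr T Λ (T.rev d) σ σ' (fun v hv => h v (Or.inr hv))]
  -- first step: from the class to the event seen by both explorations
  have h1 : ∑ σ : V → Bool, (if SFoot T σ b Λ Ad d then ‖T.cls σ d Θ‖ ^ 2 else 0) ≤
      ∑ σ : V → Bool, (if Both T σ b Λ Ad d then (1 : ℝ) else 0) * ‖T.cls σ d Θ‖ ^ 2 := by
    apply Finset.sum_le_sum
    intro σ _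
    by_cases hF : SFoot T σ b Λ Ad d
    · rw [if_pos hF]
      by_cases hc : T.cls σ d Θ = 0
      · rw [hc]; simp
      · rw [if_pos (both_of_cls hs hbΛ ht hΘ hF hc), one_mul]
    · rw [if_neg hF]
      split_ifs <;> positivity
  -- second step: the conditional energy bound
  have h2 := stop_mix (V := V) hA2s (f := fun σ => if Both T σ b Λ Ad d then (1 : ℝ) else 0)
    (fun σ => by split_ifs <;> norm_num)
    (by
      intro σ σ' h
      have e1 : Both T σ b Λ Ad d → Both T σ' b Λ Ad d := fun hb => hb.congr hap h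
      have e2 : Both T σ' b Λ Ad d → Both T σ b Λ Ad d := fun hb => hb.congr hap (by
        intro v hv
        have h3 := hA2s σ σ' h
        have h4 : v ∈ A2 σ := by rw [← h3]; exact hv
        exact (h v h4).symm)
      have : Both T σ' b Λ Ad d ↔ Both T σ b Λ Ad d := ⟨e2, e1⟩
      simp only [this])
    (h := fun σ => ‖T.cls σ d Θ‖ ^ 2) (K := ∑ e, ‖Θ e‖ ^ 2)
    (by
      intro σ hσ
      have hB : Both T σ b Λ Ad d := by
        by_contra hcon
        simp only [hcon, if_false] at hσ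
        exact hσ rfl
      obtain ⟨t, s, hl, ho, -, -⟩ := hB
      have e1 : A2 σ = Old T σ d t ∪ Old T σ (T.rev d) s := by
        simp only [hA2]
        rw [stopSet_eq hl.fwd hl.fwd', stopSet_eq hl.bwd hl.bwd']
      rw [e1]
      exact cond_energy hP hζ hl ho.1.bi hrot hg hΘ)
  -- third step: the fresh arm
  have h3 := stop_upper (V := V) hA1s (f := fun σ => if Out T σ b Λ d then (1 : ℝ) else 0)
    (fun σ => by split_ifs <;> norm_num)
    (by
      intro σ σ' h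
      have e1 : Out T σ b Λ d → Out T σ' b Λ d := fun hb => hb.congr hap h
      have e2 : Out T σ' b Λ d → Out T σ b Λ d := fun hb => hb.congr hap (by
        intro v hv
        have h3 := hA1s σ σ' h
        have h4 : v ∈ A1 σ := by rw [← h3]; exact hv
        exact (h v h4).symm)
      have : Out T σ' b Λ d ↔ Out T σ b Λ d := ⟨e2, e1⟩
      simp only [this])
    (g := fun σ τ => if Arm T (σ b) ((A1 σ)ᶜ ∩ Λᶜ) {v | ∃ g, T.rev g ∈ Ad ∧ T.apex g = v}
      {v | ∃ e, T.src e = v ∧ T.tgt e ∈ Λ} τ then (1 : ℝ) else 0) (K := ω)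
    (by
      intro σ σ' τ h
      have e1 := hA1s σ σ' h
      have e2 : σ' b = σ b := h b (by rw [← hs]; exact src_mem_stopSet)
      simp only [e1, e2])
    (by
      intro σ τ τ' h
      have e1 : ∀ τ τ' : V → Bool, (∀ v ∉ A1 σ, τ' v = τ v) →
          Arm T (σ b) ((A1 σ)ᶜ ∩ Λᶜ) {v | ∃ g, T.rev g ∈ Ad ∧ T.apex g = v}
            {v | ∃ e, T.src e = v ∧ T.tgt e ∈ Λ} τ →
          Arm T (σ b) ((A1 σ)ᶜ ∩ Λᶜ) {v | ∃ g, T.rev g ∈ Ad ∧ T.apex g = v}
            {v | ∃ e, T.src e = v ∧ T.tgt e ∈ Λ} τ' := by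
        rintro τ τ' h ⟨x, hx, y, hy, hj⟩
        exact ⟨x, hx, y, hy, hj.congr (fun v hv => h v hv.1)⟩
      have e2 : Arm T (σ b) ((A1 σ)ᶜ ∩ Λᶜ) {v | ∃ g, T.rev g ∈ Ad ∧ T.apex g = v}
            {v | ∃ e, T.src e = v ∧ T.tgt e ∈ Λ} τ' ↔
          Arm T (σ b) ((A1 σ)ᶜ ∩ Λᶜ) {v | ∃ g, T.rev g ∈ Ad ∧ T.apex g = v}
            {v | ∃ e, T.src e = v ∧ T.tgt e ∈ Λ} τ :=
        ⟨e1 τ' τ (fun v hv => (h v hv).symm), e1 τ τ' h⟩
      simp only [e2])
    (by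
      intro σ _
      have e1 : pr (Arm T (σ b) ((A1 σ)ᶜ ∩ Λᶜ) {v | ∃ g, T.rev g ∈ Ad ∧ T.apex g = v}
            {v | ∃ e, T.src e = v ∧ T.tgt e ∈ Λ}) ≤ ω := by
        refine le_trans (pr_mono ?_) (hω (σ b))
        intro τ hτ
        refine hτ.mono ?_ (Set.Subset.refl _) (Set.Subset.refl _)
        rintro v ⟨hv, hvΛ⟩
        refine ⟨?_, hvΛ⟩
        rintro rfl
        apply hv
        rw [← hs]
        exact src_mem_stopSet
      rw [pr_eq_sum, div_le_iff₀ (by positivity)] at e1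
      exact e1)
  have h4 : ∑ σ : V → Bool, (if Both T σ b Λ Ad d then (1 : ℝ) else 0) ≤
      ∑ σ : V → Bool, (if Out T σ b Λ d then (1 : ℝ) else 0) *
        (if Arm T (σ b) ((A1 σ)ᶜ ∩ Λᶜ) {v | ∃ g, T.rev g ∈ Ad ∧ T.apex g = v}
      {v | ∃ e, T.src e = v ∧ T.tgt e ∈ Λ} σ then (1 : ℝ) else 0) := by
    apply Finset.sum_le_sum
    intro σ _
    by_cases hB : Both T σ b Λ Ad d
    · have ho : Out T σ b Λ d := by
        obtain ⟨t, s, -, ho, -, -⟩ := hB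
        exact ⟨t, ho⟩
      rw [if_pos hB, if_pos ho, if_pos (hB.arm hs hAd), one_mul]
    · rw [if_neg hB]
      split_ifs <;> norm_num
  have hE : 0 ≤ ∑ e, ‖Θ e‖ ^ 2 := Finset.sum_nonneg (fun e _ => by positivity)
  calc _ ≤ _ := h1
    _ ≤ (∑ e, ‖Θ e‖ ^ 2) * ∑ σ : V → Bool, (if Both T σ b Λ Ad d then (1 : ℝ) else 0) := h2
    _ ≤ (∑ e, ‖Θ e‖ ^ 2) * (ω * ∑ σ : V → Bool, (if Out T σ b Λ d then (1 : ℝ) else 0)) :=
        mul_le_mul_of_nonneg_left (h4.trans h3) hE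
    _ = _ := by ring

end Vale.Agent.P148.R2.H609
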