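import Vale.Agent.P148.R2.H609.DB1
import Vale.Agent.P148.R2.H609.SF3
import Vale.Agent.P148.R2.H847.Qpr
import Vale.Agent.P148.R2.H847.Osc

/-!
# Delaunay form of the small footprint bound
-/

open Set Metric Topology Filter

namespace Vale.Agent.P148.R2.H609

open Vale.Agent.P148.R2.H258 Vale.Agent.P148.R2.H592 Vale.Agent.P148.R2.H532
open Vale.Agent.P148.R2.H838
open Vale.Agent.P148.R2.H847 (qpr UArm qpr_mono)

/-! ### small footprints in terms of real positions -/

section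

variable {V D : Type*} {T : Tri V D}

/-- Every dart of the reversed strand is the reverse of a dart of the strand. -/
theorem rev_iter_exists [Finite D] (σ : V → Bool) (d : D) (j : ℕ) :
    ∃ k, (T.st σ)^[j] (T.rev d) = T.rev ((T.st σ)^[k] d) := by
  induction j with
  | zero => exact ⟨0, rfl⟩
  | succ j ih =>
    obtain ⟨k, hk⟩ := ih
    have hL := T.pos_period σ d
    set L := Function.minimalPeriod (T.st σ) d with hLd
    refine ⟨k + L - 1, ?_⟩
    have e1 : (T.st σ)^[k] d = (T.st σ)^[k + L - 1 + 1] d := by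
      rw [show k + L - 1 + 1 = k + L by omega, Function.iterate_add_apply, hLd,
        Function.iterate_minimalPeriod]
    rw [Function.iterate_succ', Function.comp_apply, hk, e1, Function.iterate_succ',
      Function.comp_apply, T.st_rev_st]

theorem sfoot_of_small [Finite D] {σ : V → Bool} {b : V} {Λ : Set V} {Ad : Set D} {d : D}
    (h : ∀ k, T.src ((T.st σ)^[k] d) = b → (T.st σ)^[k] d ∈ Ad) : SFoot T σ b Λ Ad d := by
  intro j _ hj
  obtain ⟨k, hk⟩ := rev_iter_exists (T := T) σ d j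
  rw [hk, T.rev_rev]
  apply h
  rw [hk, T.tgt_rev] at hj
  exact hj

end

/-! ### probabilities -/

section prob

variable {X : Set ℂ} {ι : Type*} {O : ι → Set ℂ}

/-- The free sites. -/
def Gs (X : Set ℂ) (O : ι → Set ℂ) : Set ℂ := {x | x ∈ X ∧ ∀ j, x ∉ O j}

/-- The free sites of colour `c`. -/
def colSet (X : Set ℂ) (O : ι → Set ℂ) (c : Bool) (σ : CV X O → Bool) : Set ℂ :=
  {x | ∃ hx : x ∈ Gs X O, σ (Sum.inr ⟨x, hx⟩) = c}

theorem colSet_subset (c : Bool) (σ : CV X O → Bool) : colSet X O c σ ⊆ Gs X O :=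
  fun _ h => h.1

theorem count_col [Finite (Free X O)] (c : Bool) (Q : Set ℂ → Prop) :
    {W | W ⊆ Gs X O ∧ Q W}.ncard = Nat.card {τ : Free X O → Bool // Q {x | ∃ hx : x ∈ Gs X O,
      τ ⟨x, hx⟩ = c}} := by
  classical
  rw [← Nat.card_coe_set_eq]
  symm
  refine Nat.card_eq_of_bijective (fun τ : {τ : Free X O → Bool // Q {x | ∃ hx : x ∈ Gs X O,
      τ ⟨x, hx⟩ = c}} => (⟨{x | ∃ hx : x ∈ Gs X O, τ.1 ⟨x, hx⟩ = c}, fun x hx => hx.1, τ.2⟩ :
      {W | W ⊆ Gs X O ∧ Q W})) ⟨?_, ?_⟩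
  · intro τ τ' hτ
    have h1 : {x | ∃ hx : x ∈ Gs X O, τ.1 ⟨x, hx⟩ = c} =
        {x | ∃ hx : x ∈ Gs X O, τ'.1 ⟨x, hx⟩ = c} := congrArg Subtype.val hτ
    apply Subtype.ext
    funext x
    have h2 : τ.1 x = c ↔ τ'.1 x = c := by
      constructor
      · intro hx
        have h2 : x.1 ∈ {x | ∃ hx : x ∈ Gs X O, τ.1 ⟨x, hx⟩ = c} := ⟨x.2, hx⟩
        rw [h1] at h2
        exact h2.2
      · intro hx
        have h2 : x.1 ∈ {x | ∃ hx : x ∈ Gs X O, τ'.1 ⟨x, hx⟩ = c} := ⟨x.2, hx⟩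
        rw [← h1] at h2
        exact h2.2
    revert h2
    generalize τ.1 x = a
    generalize τ'.1 x = b'
    cases a <;> cases b' <;> cases c <;> simp
  · rintro ⟨W, hW1, hW2⟩
    have h1 : {x | ∃ hx : x ∈ Gs X O,
        (fun y : Free X O => if y.1 ∈ W then c else !c) ⟨x, hx⟩ = c} = W := by
      ext x
      constructor
      · rintro ⟨hx, h1⟩
        by_contra hxW
        simp only [if_neg hxW] at h1
        revert h1
        cases c <;> decide
      · intro hx
        exact ⟨hW1 hx, by simp only [if_pos hx]⟩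
    refine ⟨⟨fun x => if x.1 ∈ W then c else !c, ?_⟩, ?_⟩
    · rw [h1]; exact hW2
    · apply Subtype.ext
      exact h1

theorem pr_eq_qpr [Finite ι] [Fintype (CV X O)] (c : Bool) (Q : Set ℂ → Prop) :
    pr (fun σ : CV X O → Bool => Q (colSet X O c σ)) = qpr (Gs X O) Q := by
  classical
  have hfin : Finite (Free X O) := Finite.of_injective (Sum.inr : Free X O → CV X O)
    Sum.inr_injective
  have := Fintype.ofFinite (Free X O)
  have := Fintype.ofFinite ι
  have e1 : Nat.card {σ : CV X O → Bool // Q (colSet X O c σ)} =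
      Nat.card ((ι → Bool) × {τ : Free X O → Bool // Q {x | ∃ hx : x ∈ Gs X O, τ ⟨x, hx⟩ = c}}) := by
    refine Nat.card_congr ?_
    exact
      { toFun := fun σ => (fun m => σ.1 (Sum.inl m), ⟨fun y => σ.1 (Sum.inr y), σ.2⟩)
        invFun := fun p => ⟨Sum.elim p.1 p.2.1, p.2.2⟩
        left_inv := fun σ => by
          apply Subtype.ext
          funext v
          cases v <;> rfl
        right_inv := fun p => by rfl }
  have e2 : Fintype.card (CV X O) = Fintype.card ι + (Gs X O).ncard := by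
    rw [← Nat.card_eq_fintype_card, Nat.card_sum, Nat.card_eq_fintype_card]
    rfl
  unfold pr qpr
  rw [e1, Nat.card_prod, ← count_col c Q, e2, pow_add]
  have e3 : (Nat.card (ι → Bool) : ℝ) = 2 ^ Fintype.card ι := by
    rw [Nat.card_eq_fintype_card, Fintype.card_fun, Fintype.card_bool]; push_cast; rfl
  push_cast
  rw [e3]
  field_simp

end prob

/-! ### the small footprint bound -/

section

theorem sq_mono {p : ℂ} {r r' : ℝ} (h : r ≤ r') : Sq p r ⊆ Sq p r' :=
  fun _ hz => ⟨hz.1.trans h, hz.2.trans h⟩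

theorem sq_of_dist {p x y : ℂ} {r s : ℝ} (hx : x ∈ Sq p r) (h : dist x y ≤ s) :
    y ∈ Sq p (r + s) := by
  rw [Complex.dist_eq] at h
  have h1 := (Complex.abs_re_le_norm (x - y)).trans h
  have h2 := (Complex.abs_im_le_norm (x - y)).trans h
  rw [Complex.sub_re] at h1
  rw [Complex.sub_im] at h2
  have h3 := hx.1
  have h4 := hx.2
  rw [abs_le] at *
  refine ⟨abs_le.2 ⟨by linarith [h1.1, h1.2, h3.1, h3.2], by linarith [h1.1, h1.2, h3.1, h3.2]⟩,
    abs_le.2 ⟨by linarith [h2.1, h2.2, h4.1, h4.2], by linarith [h2.1, h2.2, h4.1, h4.2]⟩⟩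

variable {X : Set ℂ} {b : ZMod 3 → ℂ} (h : HullTri X b) {ι : Type*} [Inhabited ι]
  {O : ι → Set ℂ} (hd : Pairwise fun i j => Disjoint (O i) (O j)) (hc : ∀ j, ConnIn X (O j))
  (hne : ∀ j, (O j).Nonempty)

/-- A free arm of the contracted triangulation as a path of free sites. -/
theorem uarm_of_arm {j₀ : ι} {K : Set ℂ} {c : Bool}
    {A B : Set (CV X O)} {σ : CV X O → Bool}
    (ha : Arm (TC h hd hc hne) c {v | v ≠ Sum.inl j₀ ∧ v ∉ Far X O j₀ K} A B σ) :
    ∃ x y : Free X O, Sum.inr x ∈ A ∧ Sum.inr y ∈ B ∧ x.1 ∈ K ∧ y.1 ∈ K ∧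
      x.1 ∈ colSet X O c σ ∧ Relation.ReflTransGen (fun a b => nbr X a b ∧
        a ∈ colSet X O c σ ∧ b ∈ colSet X O c σ) x.1 y.1 := by
  have hfree : ∀ v : CV X O, v ∈ {v : CV X O | v ≠ Sum.inl j₀ ∧ v ∉ Far X O j₀ K} →
      ∃ x : Free X O, v = Sum.inr x ∧ x.1 ∈ K := by
    rintro v ⟨h1, h2⟩
    cases v with
    | inl j =>
      exfalso
      have hj : j ≠ j₀ := fun hh => h1 (by rw [hh])
      exact h2 (Or.inr ⟨j, hj, rfl⟩)
    | inr x =>
      refine ⟨x, rfl, ?_⟩
      by_contra hh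
      exact h2 (Or.inl ⟨x, rfl, hh⟩)
  obtain ⟨u, hu, v, hv, h1, h2, l, h3, h4⟩ := ha
  obtain ⟨x, rfl, hxK⟩ := hfree u h1
  have hend := (Joined.right (T := TC h hd hc hne) (c := c) (σ := σ) ⟨h1, h2, l, h3, h4⟩)
  obtain ⟨y, rfl, hyK⟩ := hfree v hend.1
  refine ⟨x, y, hu, hv, hxK, hyK, ⟨x.2, h2⟩, ?_⟩
  have key : ∀ (u v : CV X O) (l : List (Fc X b × ZMod 3)), (TC h hd hc hne).Walk u v l →
      (∀ g ∈ l, (σ ((TC h hd hc hne).src g) = c ∧ (TC h hd hc hne).src g ∈
        {v : CV X O | v ≠ Sum.inl j₀ ∧ v ∉ Far X O j₀ K}) ∧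
        (σ ((TC h hd hc hne).tgt g) = c ∧ (TC h hd hc hne).tgt g ∈
        {v : CV X O | v ≠ Sum.inl j₀ ∧ v ∉ Far X O j₀ K})) →
      ∀ x y : Free X O, u = Sum.inr x → v = Sum.inr y →
      Relation.ReflTransGen (fun a b => nbr X a b ∧
        a ∈ colSet X O c σ ∧ b ∈ colSet X O c σ) x.1 y.1 := by
    intro u v l hw
    induction hw with
    | nil v =>
      intro _ x y hx hy
      rw [hx] at hy
      rw [Sum.inr_injective hy]
    | cons d w l hw ih =>
      intro hl x y hx hy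
      obtain ⟨⟨a1, a2⟩, a3, a4⟩ := hl d (by simp)
      obtain ⟨z, hz, -⟩ := hfree _ a4
      refine Relation.ReflTransGen.head ?_ (ih (fun g hg => hl g (List.mem_cons_of_mem _ hg)) z y
        hz hy)
      have e1 : tail d = x.1 := eq_of_cmap hx
      have e2 : head d = z.1 := by
        rw [tgt_TC] at hz
        exact eq_of_cmap hz
      refine ⟨by rw [← e1, ← e2]; exact h.nbr_th d, ⟨x.2, ?_⟩, ⟨z.2, ?_⟩⟩
      · rw [hx] at a1; exact a1
      · rw [hz] at a3; exact a3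
  exact key _ _ l h3 h4 x y rfl rfl

/-- The linear cut-off of a square. -/
noncomputable def cutS (p : ℂ) (r : ℝ) (z : ℂ) : ℝ :=
  min 1 (max 0 (2 / r * max |z.re - p.re| |z.im - p.im| - 1))

theorem cutS_zero {p : ℂ} {r : ℝ} (hr : 0 < r) {z : ℂ} (hz : z ∈ Sq p (r / 2)) :
    cutS p r z = 0 := by
  have h1 : max |z.re - p.re| |z.im - p.im| ≤ r / 2 := max_le hz.1 hz.2
  have h2 : 2 / r * max |z.re - p.re| |z.im - p.im| ≤ 1 := by
    rw [div_mul_eq_mul_div, div_le_one hr]; linarith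
  unfold cutS
  rw [max_eq_left (by linarith), min_eq_right zero_le_one]

theorem cutS_one {p : ℂ} {r : ℝ} (hr : 0 < r) {z : ℂ} (hz : z ∉ Sq p r) : cutS p r z = 1 := by
  have h1 : r ≤ max |z.re - p.re| |z.im - p.im| := by
    by_contra hcon
    push Not at hcon
    exact hz ⟨(le_max_left _ _).trans hcon.le, (le_max_right _ _).trans hcon.le⟩
  have h2 : 2 ≤ 2 / r * max |z.re - p.re| |z.im - p.im| := by
    rw [div_mul_eq_mul_div, le_div_iff₀ hr]; linarith
  unfold cutS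
  rw [max_eq_right (by linarith), min_eq_left (by linarith)]

theorem cutS_lip {p : ℂ} {r : ℝ} (hr : 0 < r) (z w : ℂ) :
    |cutS p r z - cutS p r w| ≤ 2 / r * dist z w := by
  unfold cutS
  have h0 : ∀ a b : ℝ, |min 1 (max 0 a) - min 1 (max 0 b)| ≤ |a - b| := by
    intro a b
    refine (abs_min_sub_min_le_max 1 _ 1 _).trans ?_
    rw [sub_self, abs_zero]
    refine max_le (abs_nonneg _) ((abs_max_sub_max_le_max 0 _ 0 _).trans ?_)
    rw [sub_self, abs_zero]
    exact max_le (abs_nonneg _) le_rfl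
  refine (h0 _ _).trans ?_
  have h1 : 2 / r * max |z.re - p.re| |z.im - p.im| - 1 -
      (2 / r * max |w.re - p.re| |w.im - p.im| - 1) =
      2 / r * (max |z.re - p.re| |z.im - p.im| - max |w.re - p.re| |w.im - p.im|) := by ring
  rw [h1, abs_mul, abs_of_pos (by positivity)]
  gcongr
  refine (abs_max_sub_max_le_max _ _ _ _).trans (max_le ?_ ?_)
  · refine (abs_abs_sub_abs_le_abs_sub _ _).trans ?_
    rw [sub_sub_sub_cancel_right, ← Complex.sub_re, Complex.dist_eq]
    exact Complex.abs_re_le_norm _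
  · refine (abs_abs_sub_abs_le_abs_sub _ _).trans ?_
    rw [sub_sub_sub_cancel_right, ← Complex.sub_im, Complex.dist_eq]
    exact Complex.abs_im_le_norm _

open Classical in
/-- The energy of the edges which meet the square. -/
noncomputable def edE (X : Set ℂ) (b : ZMod 3 → ℂ) [Fintype (Fc X b × ZMod 3)] (p : ℂ) (r : ℝ) : ℝ :=
  ∑ d : Fc X b × ZMod 3, if tail d ∈ Sq p r ∨ head d ∈ Sq p r then dist (tail d) (head d) ^ 2 else 0

theorem cutS_energy [Fintype (Fc X b × ZMod 3)] {p : ℂ} {r : ℝ} (hr : 0 < r) :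
    ∑ d : Fc X b × ZMod 3, (cutS p r (head d) - cutS p r (tail d)) ^ 2 ≤
      4 / r ^ 2 * edE X b p r := by
  classical
  unfold edE
  rw [Finset.mul_sum]
  apply Finset.sum_le_sum
  intro d _
  split_ifs with hh
  · have h1 := cutS_lip (p := p) hr (head d) (tail d)
    rw [dist_comm] at h1
    have h2 := pow_le_pow_left₀ (abs_nonneg _) h1 2
    rw [sq_abs] at h2
    refine h2.trans (le_of_eq ?_)
    ring
  · push Not at hh
    rw [cutS_one hr hh.1, cutS_one hr hh.2]
    simp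

/-- Standing assumptions on one box: `p`, `r` (box), `μ` (bound of the edges which meet the box). -/
structure BoxOK (X : Set ℂ) {ι : Type*} (O : ι → Set ℂ) (j₀ : ι) (p : ℂ) (r μ : ℝ) : Prop where
  rpos : 0 < r
  mu_nonneg : 0 ≤ μ
  mu_le : 4 * μ ≤ r
  quad : ∀ i : Fin 4, (X ∩ hpl p r i ∩ hpl p r (i + 1)).Nonempty
  other : ∀ j ≠ j₀, O j ⊆ (Sq p r)ᶜ
  out : (O j₀ \ Sq p r).Nonempty
  mesh : ∀ x y, nbr X x y → x ∈ Sq p r → dist x y ≤ μ

open Classical in
/-- The starts of the excursions which begin in the half box. -/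
noncomputable def nearB (X : Set ℂ) (b : ZMod 3 → ℂ) [Fintype (Fc X b × ZMod 3)] {ι : Type*}
    (O : ι → Set ℂ) (j₀ : ι) (p : ℂ) (r : ℝ) : Finset (Fc X b × ZMod 3) :=
  Finset.univ.filter (fun d => tail d ∈ O j₀ ∧ tail d ∈ Sq p (r / 2))

omit [Inhabited ι] in
include h in
theorem BoxOK.near {j₀ : ι} {p : ℂ} {r μ : ℝ} (hB : BoxOK X O j₀ p r μ) {d : Fc X b × ZMod 3}
    (hd : tail d ∈ Sq p (r / 2)) : head d ∈ Sq p r ∧ vc d.1 d.2 ∈ Sq p r := by
  have hr := hB.rpos
  have hm := hB.mu_nonneg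
  have hm2 := hB.mu_le
  have h0 : tail d ∈ Sq p r := sq_mono (by linarith) hd
  have h1 : nbr X (tail d) (head d) := h.nbr_th d
  have h2 : nbr X (tail d) (vc d.1 d.2) := by
    have := h.nbr_th (d.1, d.2 + 2)
    rw [HullTri.tail_next2, HullTri.head_next2] at this
    exact nbr_symm this
  exact ⟨sq_mono (by linarith) (sq_of_dist hd (hB.mesh _ _ h1 h0)),
    sq_mono (by linarith) (sq_of_dist hd (hB.mesh _ _ h2 h0))⟩

open Classical in
/-- **Crossing count in a box**: the mean number of strands which leave `O j₀` in the half box and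
look outside the box before they come back to `O j₀`. -/
theorem cnt_sq [Fintype (CV X O)] [Fintype (Fc X b × ZMod 3)] {j₀ : ι} {p : ℂ} {r μ : ℝ}
    (hB : BoxOK X O j₀ p r μ) :
    ∑ σ : CV X O → Bool, (((nearB X b O j₀ p r).filter (fun d =>
        Out (TC h hd hc hne) σ (Sum.inl j₀) (Far X O j₀ (Sq p r)) d)).card : ℝ) ≤
      2 ^ Fintype.card (CV X O) * (2 / r ^ 2 * edE X b p r) := by
  have h1 := cnt_box h hd hc hne (connIn_sq_compl h.fin p r hB.quad) hB.other hB.out (cutS p r)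
    (fun z hz => (cutS_one hB.rpos hz).ge) (nearB X b O j₀ p r) (by
      intro d hd'
      unfold nearB at hd'
      rw [Finset.mem_filter] at hd'
      have h2 := hB.near h hd'.2.2
      exact ⟨cutS_zero hB.rpos hd'.2.2, Or.inl h2.1, Or.inl h2.2⟩)
  refine h1.trans ?_
  have h2 := cutS_energy (X := X) (b := b) (p := p) hB.rpos
  have h3 : 1 / 2 * ∑ d : Fc X b × ZMod 3, (cutS p r (head d) - cutS p r (tail d)) ^ 2 ≤
      2 / r ^ 2 * edE X b p r := by
    have e : 2 / r ^ 2 * edE X b p r = 1 / 2 * (4 / r ^ 2 * edE X b p r) := by ring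
    rw [e]
    linarith
  gcongr

/-- Small footprint, real form: the strand of `d` meets `O j₀` only within `η` of its start. -/
def Small {V : Type*} (T : Tri V (Fc X b × ZMod 3)) (σ : V → Bool) (v₀ : V) (η : ℝ)
    (d : Fc X b × ZMod 3) : Prop :=
  ∀ k, T.src ((T.st σ)^[k] d) = v₀ → dist (tail ((T.st σ)^[k] d)) (tail d) ≤ η

open Classical in
/-- **Small footprints in a box carry no energy outside the box.** -/
theorem sf_sq [Finite ι] [Fintype (CV X O)] [Fintype (Fc X b × ZMod 3)] {j₀ : ι} {p : ℂ}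
    {r μ η ω : ℝ} (hB : BoxOK X O j₀ p r μ) (hη : 0 ≤ η) (hηr : 4 * (η + μ) ≤ r)
    {ζ : ℂ} (hζ : ζ ^ 2 + ζ + 1 = 0) {Θ : Fc X b × ZMod 3 → ℂ}
    (hrot : ∀ d, Θ ((TC h hd hc hne).nxt d) = ζ ^ 2 * Θ d)
    (hg : ∀ d, ¬ (TC h hd hc hne).Good d → Θ d = 0)
    (hΘ : ∀ e, Θ e ≠ 0 → ∀ z ∈ ({tail e, head e, vc e.1 e.2} : Set ℂ), z ∉ Sq p r ∧ z ∉ O j₀)
    (hω : ∀ z ∈ Sq p (r / 2), qpr (Gs X O) (fun W => UArm X W (closedBall z (η + μ))
      (ball z (r / 4))ᶜ) ≤ ω) :
    ∑ σ : CV X O → Bool, ∑ d ∈ nearB X b O j₀ p r,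
      (if Small (TC h hd hc hne) σ (Sum.inl j₀) η d then ‖(TC h hd hc hne).cls σ d Θ‖ ^ 2 else 0) ≤
      2 ^ Fintype.card (CV X O) * (ω * (∑ e, ‖Θ e‖ ^ 2) * (2 / r ^ 2 * edE X b p r)) := by
  set T := TC h hd hc hne with hT
  set Λ : Set (CV X O) := Far X O j₀ (Sq p r) with hΛ
  have hr := hB.rpos
  have hm := hB.mu_nonneg
  have hm2 := hB.mu_le
  have hfin : Finite (Fc X b × ZMod 3) := inferInstance
  have hfarz : ∀ z ∈ X, z ∉ Sq p r → z ∉ O j₀ → cmap X O z ∈ Λ := fun z hz h1 h2 =>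
    (far_iff hd hz hB.other).2 ⟨h1, h2⟩
  have hvcX : ∀ e : Fc X b × ZMod 3, vc e.1 e.2 ∈ X := by
    intro e
    have := (h.nbr_th (e.1, e.2 + 1)).2.1
    rwa [HullTri.head_next] at this
  have hωE : 0 ≤ ∑ e, ‖Θ e‖ ^ 2 := Finset.sum_nonneg (fun e _ => by positivity)
  have hω0 : 0 ≤ ω := by
    have hp : p ∈ Sq p (r / 2) := by
      constructor <;> simp <;> linarith
    exact (H847.qpr_nonneg _ _).trans (hω p hp)
  -- one start
  have key : ∀ d ∈ nearB X b O j₀ p r,
      ∑ σ : CV X O → Bool, (if Small T σ (Sum.inl j₀) η d then ‖T.cls σ d Θ‖ ^ 2 else 0) ≤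
        (ω * ∑ e, ‖Θ e‖ ^ 2) * ∑ σ : CV X O → Bool,
          (if Out T σ (Sum.inl j₀) Λ d then (1 : ℝ) else 0) := by
    intro d hdn
    unfold nearB at hdn
    rw [Finset.mem_filter] at hdn
    obtain ⟨-, hdO, hdS⟩ := hdn
    have hnear := hB.near h hdS
    have hsrc : T.src d = Sum.inl j₀ := cmap_of_mem hd hdO
    have hnot : ∀ z ∈ X, z ∈ Sq p r → cmap X O z ∉ Λ := by
      intro z hz hzS hh
      rw [hΛ, far_iff hd hz hB.other] at hh
      exact hh.1 hzS
    set Ad : Set (Fc X b × ZMod 3) := {e | tail e ∈ O j₀ ∧ dist (tail e) (tail d) ≤ η} with hAd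
    have hAdv : ∀ g : Fc X b × ZMod 3, T.rev g ∈ Ad →
        vc g.1 g.2 ∈ Sq p r ∧ dist (vc g.1 g.2) (tail d) ≤ η + μ := by
      rintro g ⟨g1, g2⟩
      have e1 : tail (T.rev g) = head g := h.tail_rv g
      rw [e1] at g1 g2
      have h3 : head g ∈ Sq p r := by
        have := sq_of_dist (y := head g) (s := η) hdS (by rw [dist_comm]; exact g2)
        exact sq_mono (by linarith) this
      have h4 : nbr X (head g) (vc g.1 g.2) := by
        have := h.nbr_th (g.1, g.2 + 1)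
        rwa [HullTri.tail_next, HullTri.head_next] at this
      have h5 := hB.mesh _ _ h4 h3
      have h6 : dist (vc g.1 g.2) (tail d) ≤ η + μ := by
        calc dist (vc g.1 g.2) (tail d) ≤ dist (vc g.1 g.2) (head g) + dist (head g) (tail d) :=
              dist_triangle _ _ _
          _ ≤ μ + η := by rw [dist_comm (vc g.1 g.2)]; linarith
          _ = η + μ := by ring
      refine ⟨?_, h6⟩
      have := sq_of_dist (y := vc g.1 g.2) (s := η + μ) hdS (by rw [dist_comm]; exact h6)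
      exact sq_mono (by linarith) this
    have h1 := sf_bound (T := T) (h.planar258 _ _) hζ (b := Sum.inl j₀) (Λ := Λ) (d := d) hsrc
      not_far_j₀ (by rw [hT, tgt_TC]; exact hnot _ (h.nbr_th d).2.1 hnear.1)
      (by rw [hT, apex_TC]; exact hnot _ (hvcX d) hnear.2) hrot hg
      (by
        intro e he
        have h2 := hΘ e he
        have t1 := h2 (tail e) (by simp)
        have t2 := h2 (head e) (by simp)
        have t3 := h2 (vc e.1 e.2) (by simp)
        refine ⟨?_, ?_, ?_⟩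
        · exact hfarz _ (h.nbr_th e).1 t1.1 t1.2
        · rw [hT, tgt_TC]; exact hfarz _ (h.nbr_th e).2.1 t2.1 t2.2
        · rw [hT, apex_TC]; exact hfarz _ (hvcX e) t3.1 t3.2)
      (Ad := Ad) (by
        intro g hgA
        rw [hT, apex_TC]
        exact hnot _ (hvcX g) (hAdv g hgA).1)
      (ω := ω) (by
        intro c
        refine le_trans (pr_mono ?_) (le_trans (le_of_eq (pr_eq_qpr c (fun W =>
          UArm X W (closedBall (tail d) (η + μ)) (ball (tail d) (r / 4))ᶜ)))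
          (hω (tail d) hdS))
        intro σ hA
        obtain ⟨x, y, hx, hy, hxK, hyK, hxc, hpath⟩ := uarm_of_arm h hd hc hne hA
        obtain ⟨g, hgA, hgx⟩ := hx
        obtain ⟨e, he1, he2⟩ := hy
        rw [hT, apex_TC] at hgx
        rw [hT, src_TC] at he1
        rw [hT, tgt_TC, hΛ, far_iff hd (h.nbr_th e).2.1 hB.other] at he2
        have e1 := eq_of_cmap hgx
        have e2 := eq_of_cmap he1
        refine ⟨x.1, ?_, hxc, y.1, ?_, hpath⟩
        · rw [← e1]; exact (hAdv g hgA).2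
        · intro hyb
          rw [← e2] at hyb hyK
          have h3 := hB.mesh _ _ (h.nbr_th e) hyK
          have h4 : dist (tail d) (tail e) ≤ r / 4 := by
            rw [dist_comm]; exact (mem_ball.1 hyb).le
          have h5 := sq_of_dist hdS h4
          have h6 := sq_of_dist h5 h3
          exact he2.1 (sq_mono (by linarith) h6))
    have h1c : ∑ σ : CV X O → Bool,
        (if SFoot T σ (Sum.inl j₀) Λ Ad d then ‖T.cls σ d Θ‖ ^ 2 else 0) ≤
        (ω * ∑ e, ‖Θ e‖ ^ 2) * ∑ σ : CV X O → Bool,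
          (if Out T σ (Sum.inl j₀) Λ d then (1 : ℝ) else 0) := by
      refine le_trans (le_of_eq ?_) (le_trans h1 (le_of_eq ?_))
      · exact sum_inst _ _ fun σ => ite_inst _ _ _ _ _
      · exact congrArg (fun x : ℝ => (ω * ∑ e, ‖Θ e‖ ^ 2) * x)
          (sum_inst _ _ fun σ => ite_inst _ _ _ _ _)
    refine le_trans (Finset.sum_le_sum fun σ _ => ?_) h1c
    by_cases hS : Small T σ (Sum.inl j₀) η d
    · rw [if_pos hS, if_pos]
      apply sfoot_of_small
      intro k hk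
      exact ⟨mem_of_cmap (h.nbr_th _).1 hk, hS k hk⟩
    · rw [if_neg hS]
      split_ifs <;> positivity
  have h2 := cnt_sq h hd hc hne hB
  have h3 : ∑ d ∈ nearB X b O j₀ p r, ∑ σ : CV X O → Bool,
      (if Out T σ (Sum.inl j₀) Λ d then (1 : ℝ) else 0) ≤
      2 ^ Fintype.card (CV X O) * (2 / r ^ 2 * edE X b p r) := by
    refine le_trans (le_of_eq ?_) h2
    rw [Finset.sum_comm]
    apply Finset.sum_congr rfl
    intro σ _
    rw [← Finset.sum_filter, Finset.sum_const, nsmul_eq_mul, mul_one]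
  rw [Finset.sum_comm]
  calc _ ≤ ∑ d ∈ nearB X b O j₀ p r, (ω * ∑ e, ‖Θ e‖ ^ 2) * ∑ σ : CV X O → Bool,
          (if Out T σ (Sum.inl j₀) Λ d then (1 : ℝ) else 0) := Finset.sum_le_sum key
    _ = (ω * ∑ e, ‖Θ e‖ ^ 2) * ∑ d ∈ nearB X b O j₀ p r, ∑ σ : CV X O → Bool,
          (if Out T σ (Sum.inl j₀) Λ d then (1 : ℝ) else 0) := by
        rw [← Finset.mul_sum]
    _ ≤ (ω * ∑ e, ‖Θ e‖ ^ 2) * (2 ^ Fintype.card (CV X O) * (2 / r ^ 2 * edE X b p r)) :=
        mul_le_mul_of_nonneg_left h3 (by positivity)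
    _ = _ := by ring

end

end Vale.Agent.P148.R2.H609
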