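import Vale.Agent.P148.R2.H609.SFA1
import Vale.Agent.P148.R2.H609.DB3
import Vale.Agent.P148.R2.H566.World
import Vale.Agent.P148.R2.H871.CW3

/-!
# Small footprints in world 0 (row SFA, one world)

`w` world 0, `P i` (`i : ZMod M`) the arcs of the frozen boundary.  The classes through the frozen
vertex which face no arc carry little energy in a square `A` off the boxes.
-/

open Set Metric Function
open scoped ENNReal

namespace Vale.Agent.P148.R2.H609

open H592 H184 H203 Vale.Agent.P148.R2.H258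
open Vale.Agent.P148.R2.H838 (OutD WalkOff)
open Vale.Agent.P148.R2.H400 (InjOff Facing Start)
open Vale.Agent.P148.R2.H847 (qpr UArm)
open Vale.Agent.P148.R2.H566 (W0)
open Vale.Agent.P148.R2.H871 (contr_tri258 idmap_val src0)

/-- The ring of the arcs around the free sites of world 0. -/
structure RingOK (w : W0) {M : ℕ} (P : ZMod M → Set ℂ) (η : ℝ) : Prop where
  free : ∀ x y, w.Free x → w.Free y →
    Relation.ReflTransGen (fun a b => nbr w.X a b ∧ a ∉ w.B ∧ b ∉ w.B) x y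
  sub : ∀ i, P i ⊆ w.B
  disj : ∀ i j, i ≠ j → Disjoint (P i) (P j)
  conn : ∀ i, ConnIn w.X (P i)
  next : ∀ i, ∃ x ∈ P i, ∃ y ∈ P (i + 1), nbr w.X x y
  ring : ∀ x y, nbr w.X x y → x ∈ w.B → y ∉ w.B → ∃ i, x ∈ P i
  diam : ∀ i, ∀ x ∈ P i, ∀ y ∈ P i ∪ P (i + 1), dist x y ≤ η

variable (w : W0)

/-- The darts from the frozen vertex into the free region with tail in the set `Q`. -/
def Bq (Q : Set ℂ) : Set w.D := {f | OutD w.T w.O f ∧ tail f ∈ Q}

/-- The classes through the frozen vertex which face no arc. -/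
def NF {M : ℕ} (P : ZMod M → Set ℂ) (σ : w.V → Bool) (e : w.D) : Prop :=
  ∃ d, w.T.Rel σ e d ∧ w.T.src d = w.O ∧ Start w.T σ d ∧ ∀ i, ¬ Facing w.T (Bq w (P i)) σ d

variable {w}

theorem sat_NF {M : ℕ} (P : ZMod M → Set ℂ) (σ : w.V → Bool) : Sat w.T σ (NF w P σ) := by
  rintro d e hde ⟨f, h1, h2⟩
  exact ⟨f, w.T.rel_trans (w.T.rel_symm hde) h1, h2⟩

theorem pi_B {x : ℂ} (hx : x ∈ w.X) : w.π x = w.O ↔ x ∈ w.B := by
  constructor
  · intro h; exact mem_of_cmap (O := fun _ : Unit => w.B) hx h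
  · intro h
    exact cmap_of_mem (O := fun _ : Unit => w.B)
      (fun i j hij => absurd (Subsingleton.elim i j) hij) h

theorem src_w (q : w.D) : w.T.src q = w.π (tail q) := rfl

theorem tgt_w (q : w.D) : w.T.tgt q = w.π (head q) := by
  show w.π (tail (w.hull.rv q)) = _
  rw [w.hull.tail_rv]

theorem tail_mem (q : w.D) : tail q ∈ w.X := (w.hull.nbr_th q).1

theorem head_mem (q : w.D) : head q ∈ w.X := (w.hull.nbr_th q).2.1

/-- **The footprint of a class which faces no arc is small.** -/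
theorem small_of_NF {M : ℕ} [NeZero M] {P : ZMod M → Set ℂ} {η : ℝ} (hR : RingOK w P η)
    {σ : w.V → Bool} {d : w.D} (hs : w.T.src d = w.O) (hd : Start w.T σ d)
    (hF : ∀ i, ¬ Facing w.T (Bq w (P i)) σ d) :
    (∃ i, tail d ∈ P i) ∧ Small w.T σ w.O η d := by
  classical
  have hdO : OutD w.T w.O d := ⟨hs, fun hh => hd.1.1 (by rw [hh, hs])⟩
  have hring : ∀ e, OutD w.T w.O e → ∃ i, tail e ∈ P i := by
    intro e he
    refine hR.ring (tail e) (head e) (w.hull.nbr_th e) ((pi_B (tail_mem e)).1 he.1) ?_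
    intro hh
    apply he.2
    rw [tgt_w]
    exact (pi_B (head_mem e)).2 hh
  obtain ⟨i₀, hi₀⟩ := hring d hdO
  refine ⟨⟨i₀, hi₀⟩, ?_⟩
  have x₀ : w.X := ⟨tail d, tail_mem d⟩
  have hpi : ∀ x ∈ w.X, w.π x = (fun x : w.X => w.π x.1) (idmap w.X x₀ x) := by
    intro x hx
    show w.π x = w.π (idmap w.X x₀ x).1
    rw [idmap_val hx]
  have hC := contr_tri258 w.hull (fib_id w.X x₀) w.fib (ρ := fun x : w.X => w.π x.1) hpi
  have hinj : InjOff (fun x : w.X => w.π x.1) w.O := by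
    intro u v huv hu
    have hu' : u.1 ∉ w.B := fun hh => hu ((pi_B u.2).2 hh)
    have h1 : w.π u.1 = Sum.inr ⟨u.1, u.2, fun _ => hu'⟩ := cmap_of_free u.2 fun _ => hu'
    have h2 : w.π v.1 = Sum.inr ⟨u.1, u.2, fun _ => hu'⟩ := by rw [← h1]; exact huv.symm
    exact Subtype.ext (eq_of_cmap h2).symm
  set T0 := w.hull.tri258 (idmap w.X x₀) (fib_id w.X x₀) with hT0
  set P' : ZMod M → Set w.X := fun i => {x | x.1 ∈ P i} with hP'
  have hsrc : ∀ q : w.D, (T0.src q).1 = tail q := fun q => src0 w.hull x₀ q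
  have hidm : ∀ x : w.X, idmap w.X x₀ x.1 = x := fun x => Subtype.ext (idmap_val x.2)
  have hA : Arcs T0 P' := by
    refine ⟨?_, ?_, ?_⟩
    · intro i j hij
      rw [Set.disjoint_left]
      intro x hx hx'
      exact Set.disjoint_left.1 (hR.disj i j hij) hx hx'
    · intro i x hx y hy
      obtain ⟨l, h1, h2⟩ := walk_of_path w.hull (fib_id w.X x₀) ((hR.conn i).2 x.1 hx y.1 hy)
      rw [hidm, hidm] at h1
      refine ⟨l, h1, fun e he => ⟨?_, ?_⟩⟩
      · show (T0.src e).1 ∈ P i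
        rw [hsrc]; exact (h2 e he).1
      · show (T0.tgt e).1 ∈ P i
        have : (T0.tgt e).1 = head e := by
          show (T0.src (T0.rev e)).1 = head e
          rw [hsrc]; exact w.hull.tail_rv e
        rw [this]; exact (h2 e he).2
    · intro i
      obtain ⟨x, hx, y, hy, hxy⟩ := hR.next i
      obtain ⟨q, hq1, hq2⟩ := w.hull.exists_dart hxy
      refine ⟨q, ?_, ?_⟩
      · show (T0.src q).1 ∈ P i
        rw [hsrc, hq1]; exact hx
      · show (T0.src (T0.rev q)).1 ∈ P (i + 1)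
        rw [hsrc]
        have : tail (T0.rev q) = head q := w.hull.tail_rv q
        rw [this, hq2]; exact hy
  have hPO : ∀ i, ∀ v ∈ P' i, (fun x : w.X => w.π x.1) v = w.O := fun i v hv =>
    (pi_B v.2).2 (hR.sub i hv)
  have hfree : ∀ e f, OutD w.T w.O e → OutD w.T w.O f →
      WalkOff w.T w.O (w.T.tgt e) (w.T.tgt f) := by
    intro e f he hf
    have he' : head e ∉ w.B := fun hh => he.2 (by rw [tgt_w]; exact (pi_B (head_mem e)).2 hh)
    have hf' : head f ∉ w.B := fun hh => hf.2 (by rw [tgt_w]; exact (pi_B (head_mem f)).2 hh)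
    have h1 := hR.free _ _ ⟨head_mem e, he'⟩ ⟨head_mem f, hf'⟩
    obtain ⟨l, h2, h3⟩ := walk_of_path w.hull w.fib (R := w.Bᶜ) h1
    rw [tgt_w, tgt_w]
    refine ⟨fun hh => he' ((pi_B (head_mem e)).1 hh), l, h2, ?_⟩
    intro g hg
    refine ⟨fun hh => (h3 g hg).1 ((pi_B (tail_mem g)).1 hh), fun hh => (h3 g hg).2 ?_⟩
    rw [tgt_w] at hh
    exact (pi_B (head_mem g)).1 hh
  have hbq : ∀ i, Bq w (P i) = {e | OutD w.T w.O e ∧ T0.src e ∈ P' i} := by
    intro i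
    ext e
    constructor
    · rintro ⟨h1, h2⟩
      refine ⟨h1, ?_⟩
      show (T0.src e).1 ∈ P i
      rw [hsrc]; exact h2
    · rintro ⟨h1, h2⟩
      refine ⟨h1, ?_⟩
      have h3 : (T0.src e).1 ∈ P i := h2
      rwa [hsrc] at h3
  intro k hk
  obtain ⟨i, hi, hi'⟩ := nonfacing (T := T0) (T1 := w.T) (w.hull.planar258 _ _) w.planar hC hinj hA
    hPO hfree (fun e he => by
      obtain ⟨i, hi⟩ := hring e he
      refine ⟨i, ?_⟩
      show (T0.src e).1 ∈ P i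
      rw [hsrc]; exact hi) hs hd (fun i => by rw [← hbq]; exact hF i) (i₀ := i₀) (by
      show (T0.src d).1 ∈ P i₀
      rw [hsrc]; exact hi₀) hk
  have hi2 : tail ((w.T.st σ)^[k] d) ∈ P i := by
    have h3 : (T0.src ((w.T.st σ)^[k] d)).1 ∈ P i := hi'
    rwa [hsrc] at h3
  rcases hi with rfl | rfl | rfl
  · rw [dist_comm]; exact hR.diam i _ hi₀ _ (Or.inl hi2)
  · rw [dist_comm]; exact hR.diam i₀ _ hi₀ _ (Or.inr hi2)
  · exact hR.diam i _ hi2 _ (Or.inr hi₀)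

/-- A class through the frozen vertex with a free member. -/
theorem start_of_rel {σ : w.V → Bool} {e d : w.D} (hr : w.T.Rel σ e d) (hs : w.T.src d = w.O)
    (he : w.T.src e ≠ w.O) : Start w.T σ d := by
  refine ⟨hr.2.1, fun hap => ?_⟩
  obtain ⟨hm, hme, m, hmL, rfl, hdis⟩ := w.T.rel_symm hr
  rcases Nat.eq_zero_or_pos m with rfl | h0
  · exact he hs
  · apply hdis 1 (minimalPeriod (w.T.st σ) d) le_rfl h0 hmL le_rfl
    rw [iterate_one, w.T.src_st_mi hm, hap, iterate_minimalPeriod]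

/-- The trichotomy of the classes with a free member. -/
theorem cover_cases {M : ℕ} (P : ZMod M → Set ℂ) {σ : w.V → Bool} {e : w.D}
    (he : w.T.src e ≠ w.O) :
    (∀ f, w.T.Rel σ e f → w.T.src f ≠ w.O) ∨ NF w P σ e ∨
      ∃ i d, w.T.Rel σ e d ∧ w.T.src d = w.O ∧ Start w.T σ d ∧ Facing w.T (Bq w (P i)) σ d := by
  by_cases h1 : ∃ f, w.T.Rel σ e f ∧ w.T.src f = w.O
  · obtain ⟨d, h2, h3⟩ := h1
    have h4 := start_of_rel h2 h3 he
    by_cases h5 : ∃ i, Facing w.T (Bq w (P i)) σ d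
    · obtain ⟨i, hi⟩ := h5
      exact Or.inr (Or.inr ⟨i, d, h2, h3, h4, hi⟩)
    · push Not at h5
      exact Or.inr (Or.inl ⟨d, h2, h3, h4, h5⟩)
  · push Not at h1
    exact Or.inl h1

/-- **SFA in one world.** -/
theorem sfa_world {M : ℕ} [NeZero M] {P : ZMod M → Set ℂ} {η : ℝ} (hR : RingOK w P η)
    {ι : Type*} (I : Finset ι) (p : ι → ℂ) {r μ ω : ℝ}
    (hB : ∀ i ∈ I, BoxOK w.X (fun _ : Unit => w.B) () (p i) r μ)
    (hcov : ∀ j, ∀ x ∈ P j, ∃ i ∈ I, x ∈ Sq (p i) (r / 2)) (hη : 0 ≤ η) (hηr : 4 * (η + μ) ≤ r)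
    (hω : ∀ i ∈ I, ∀ z ∈ Sq (p i) (r / 2), qpr (Gs w.X (fun _ : Unit => w.B)) (fun W =>
      UArm w.X W (closedBall z (η + μ)) (ball z (r / 4))ᶜ) ≤ ω)
    {A : Set ℂ} (hA : ∀ i ∈ I, Disjoint A (Sq (p i) r)) (hAB : ∀ x ∈ w.X, x ∈ A → x ∉ w.B)
    {τ : ℂ} {κ : ℝ} {Θ : Dt → ℂ} (hΘ : Wt τ κ Θ) :
    w.En (NF w P) (rs (w.Lo A) (w.th Θ)) ≤
      ENNReal.ofReal (4 * ω * ∑ i ∈ I, (2 / r ^ 2 * edE w.X w.b (p i) r)) *
        w.Qt (rs (w.Lo A) (w.th Θ)) := by
  classical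
  have hd : Pairwise fun i j : Unit => Disjoint ((fun _ : Unit => w.B) i) ((fun _ : Unit => w.B) j) :=
    fun i j hij => absurd (Subsingleton.elim i j) hij
  set Φ : w.D → ℂ := rs (w.Lo A) (w.th Θ) with hΦ
  have hLo : ∀ d : w.D, w.Lo A (w.T.nxt d) ↔ w.Lo A d := by
    intro d
    show LF w.X A (dt (d.1, d.2 + 1)) ↔ _
    rw [dt_next, LF_rt]
    rfl
  have hrot : ∀ d, Φ (w.T.nxt d) = τ ^ 2 * Φ d := by
    intro d
    simp only [hΦ, rs, hLo]
    split_ifs
    · exact wt_rot w.hull w.π w.fib hΘ.rot d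
    · simp
  have hg : ∀ d, ¬ w.T.Good d → Φ d = 0 := by
    intro d hd'
    simp only [hΦ, rs]
    split_ifs
    · exact wt_good w.hull w.π w.fib Θ d hd'
    · rfl
  have hsupp : ∀ e, Φ e ≠ 0 → ∀ z ∈ ({tail e, head e, vc e.1 e.2} : Set ℂ),
      (∀ i ∈ I, z ∉ Sq (p i) r) ∧ z ∉ w.B := by
    intro e he z hz
    have hL : LF w.X A (dt e) := by
      by_contra hcon
      apply he
      simp only [hΦ, rs]
      rw [if_neg]
      exact hcon
    obtain ⟨b1, b2, b3⟩ := hL.mem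
    obtain ⟨⟨a1, a2, a3⟩, -⟩ := hL
    have hz' : z ∈ w.X ∧ z ∈ A := by
      rcases hz with rfl | rfl | rfl
      · exact ⟨a1, b1⟩
      · exact ⟨a2, b2⟩
      · exact ⟨a3, b3⟩
    exact ⟨fun i hi hzi => Set.disjoint_left.1 (hA i hi) hz'.2 hzi, hAB z hz'.1 hz'.2⟩
  have key := sf_net (X := w.X) (b := w.b) w.hull (O := fun _ : Unit => w.B) hd (fun _ => w.conn)
    (fun _ => w.ne) (j₀ := ()) I p hB hη hηr hΘ.tau (Θ := Φ) hrot hg hsupp hω
    (S := NF w P) (fun σ => sat_NF P σ) (by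
      rintro σ e - ⟨d, h1, h2, h3, h4⟩
      obtain ⟨⟨j, hj⟩, h5⟩ := small_of_NF hR h2 h3 h4
      exact ⟨d, h1, hR.sub j hj, hcov j _ hj, h5⟩)
  set C : ℝ := ∑ i ∈ I, (2 / r ^ 2 * edE w.X w.b (p i) r) with hCdef
  set E : ℝ := ∑ e, ‖Φ e‖ ^ 2 with hE
  have hC0 : 0 ≤ C := Finset.sum_nonneg fun i _ => by
    unfold edE
    positivity
  have hE0 : 0 ≤ E := Finset.sum_nonneg fun e _ => by positivity
  have hωC : 0 ≤ 4 * ω * C := by
    rcases I.eq_empty_or_nonempty with h0 | ⟨i, hi⟩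
    · have : C = 0 := by rw [hCdef, h0]; simp
      rw [this]; simp
    · have hp : p i ∈ Sq (p i) (r / 2) := by
        have := (hB i hi).rpos
        constructor <;> simp <;> linarith
      have : 0 ≤ ω := (H847.qpr_nonneg _ _).trans (hω i hi _ hp)
      positivity
  rw [← W0.sum_real, W0.Qt, ← hE, ← ENNReal.ofReal_mul hωC]
  apply ENNReal.ofReal_le_ofReal
  have hc : (0 : ℝ) < 2 ^ Fintype.card w.V := by positivity
  rw [div_le_iff₀ hc]
  refine le_trans (le_of_eq ?_) (key.trans (le_of_eq ?_))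
  · exact sum_inst _ _ fun σ => rfl
  · ring

end Vale.Agent.P148.R2.H609
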