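import Vale.Agent.P148.R2.H609.SFA2
import Vale.Agent.P148.R2.H291.Ring
import Vale.Agent.P148.R2.H291.MomEQ
import Vale.Agent.P148.R2.H291.WhpU
import Vale.Agent.P148.R2.H566.Omega
import Vale.Agent.P148.R2.H995.Loc
import Vale.Agent.P148.R2.F.Arm

/-!
# Row SFA

The classes of world 0 which leave the frozen vertex and face no arc of the frozen boundary carry
energy at most `ε` in the unit square, if the arcs are short; quenched, with high probability, for
all worlds and all rings of arcs at once.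
-/

open MeasureTheory Set Metric Filter ProbabilityTheory Topology
open scoped ENNReal NNReal

namespace Vale.Agent.P148.R2.H609

open H592 H184 H203 _root_.P148 _root_.P148.H729
open Vale.Agent.P148.R2.H995 (nsup)
open Vale.Agent.P148.R2.H566 (W0 Asq Asq_subset Ev Scene)
open Vale.Agent.P148.R2.H291 (RingEnv exists_ringEnv whp_EQ whp_unif' C0 C0_nonneg CD)
open Vale.Agent.P148.R2.F (whp)

universe u

/-- The centres of the fixed net. -/
noncomputable def netP (k : ℤ × ℤ) : ℂ := ⟨(k.1 : ℝ) / 16, (k.2 : ℝ) / 16⟩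

open Classical in
/-- The fixed net. -/
noncomputable def netI : Finset (ℤ × ℤ) :=
  (Finset.Icc (-25) 25 ×ˢ Finset.Icc (-25) 25).filter fun k => 11 / 16 ≤ nsup (netP k)

theorem net_cover {x : ℂ} (h1 : 3 / 4 ≤ nsup x) (h2 : nsup x ≤ 3 / 2) :
    ∃ k ∈ netI, x ∈ Sq (netP k) (1 / 8 / 2) := by
  classical
  have hre : |x.re| ≤ 3 / 2 := (le_max_left _ _).trans h2
  have him : |x.im| ≤ 3 / 2 := (le_max_right _ _).trans h2
  have key : ∀ t : ℝ, |t| ≤ 3 / 2 → |t - (round (16 * t) : ℝ) / 16| ≤ 1 / 32 ∧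
      round (16 * t) ∈ Finset.Icc (-25 : ℤ) 25 := by
    intro t ht
    have h3 := abs_sub_round (16 * t)
    have h4 : |t - (round (16 * t) : ℝ) / 16| ≤ 1 / 32 := by
      rw [abs_le] at h3 ⊢
      constructor <;> linarith [h3.1, h3.2]
    refine ⟨h4, ?_⟩
    rw [Finset.mem_Icc]
    rw [abs_le] at h4 ht
    constructor
    · have : (-26 : ℝ) < (round (16 * t) : ℤ) := by linarith [h4.1, h4.2, ht.1, ht.2]
      have : (-26 : ℤ) < round (16 * t) := by exact_mod_cast this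
      omega
    · have : ((round (16 * t) : ℤ) : ℝ) < 26 := by linarith [h4.1, h4.2, ht.1, ht.2]
      have : round (16 * t) < (26 : ℤ) := by exact_mod_cast this
      omega
  obtain ⟨a1, a2⟩ := key _ hre
  obtain ⟨b1, b2⟩ := key _ him
  refine ⟨(round (16 * x.re), round (16 * x.im)), ?_, ?_, ?_⟩
  · unfold netI
    rw [Finset.mem_filter, Finset.mem_product]
    refine ⟨⟨a2, b2⟩, ?_⟩
    unfold nsup netP at *
    simp only
    rcases le_max_iff.1 h1 with h | h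
    · refine le_trans ?_ (le_max_left _ _)
      have := abs_sub_abs_le_abs_sub x.re ((round (16 * x.re) : ℝ) / 16)
      linarith
    · refine le_trans ?_ (le_max_right _ _)
      have := abs_sub_abs_le_abs_sub x.im ((round (16 * x.im) : ℝ) / 16)
      linarith
  · show |x.re - (round (16 * x.re) : ℝ) / 16| ≤ _
    linarith
  · show |x.im - (round (16 * x.im) : ℝ) / 16| ≤ _
    linarith

theorem net_mem {k : ℤ × ℤ} (hk : k ∈ netI) : 11 / 16 ≤ nsup (netP k) ∧ nsup (netP k) ≤ 25 / 16 := by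
  classical
  unfold netI at hk
  rw [Finset.mem_filter, Finset.mem_product, Finset.mem_Icc, Finset.mem_Icc] at hk
  obtain ⟨⟨⟨h1, h2⟩, h3, h4⟩, h5⟩ := hk
  refine ⟨h5, ?_⟩
  unfold nsup netP
  simp only
  have e1 : (-25 : ℝ) ≤ k.1 := by exact_mod_cast h1
  have e2 : (k.1 : ℝ) ≤ 25 := by exact_mod_cast h2
  have e3 : (-25 : ℝ) ≤ k.2 := by exact_mod_cast h3
  have e4 : (k.2 : ℝ) ≤ 25 := by exact_mod_cast h4
  refine max_le (abs_le.2 ⟨by linarith, by linarith⟩) (abs_le.2 ⟨by linarith, by linarith⟩)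

attribute [irreducible] netI

theorem nsup_of_sq {p z : ℂ} {r : ℝ} (h : z ∈ Sq p r) : nsup p ≤ nsup z + r ∧ nsup z ≤ nsup p + r := by
  obtain ⟨h1, h2⟩ := h
  have e1 := abs_sub_abs_le_abs_sub p.re z.re
  have e2 := abs_sub_abs_le_abs_sub p.im z.im
  rw [abs_sub_comm] at e1 e2
  have e3 := abs_sub_abs_le_abs_sub z.re p.re
  have e4 := abs_sub_abs_le_abs_sub z.im p.im
  unfold nsup
  constructor
  · refine max_le ?_ ?_
    · have := le_max_left |z.re| |z.im|; linarith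
    · have := le_max_right |z.re| |z.im|; linarith
  · refine max_le ?_ ?_
    · have := le_max_left |p.re| |p.im|; linarith
    · have := le_max_right |p.re| |p.im|; linarith

theorem nsup_Asq {z : ℂ} (hz : z ∈ Asq) : nsup z ≤ 1 / 2 := by
  have h1 : ((-(1 / 2) : ℝ) < z.re ∧ z.re < -(1 / 2) + 1) ∧
    ((-(1 / 2) : ℝ) < z.im ∧ z.im < -(1 / 2) + 1) := hz
  exact max_le (abs_le.2 ⟨by linarith [h1.1.1], by linarith [h1.1.2]⟩)
    (abs_le.2 ⟨by linarith [h1.2.1], by linarith [h1.2.2]⟩)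

theorem net_ball {k : ℤ × ℤ} (hk : k ∈ netI) :
    closedBall (netP k) (3 * (1 / 8)) ⊆ closedBall (0 : ℂ) 4 := by
  refine closedBall_subset_closedBall' ?_
  rw [dist_zero_right]
  have h1 := (net_mem hk).2
  have h2 := Complex.norm_le_abs_re_add_abs_im (netP k)
  have h3 := le_max_left |(netP k).re| |(netP k).im|
  have h4 := le_max_right |(netP k).re| |(netP k).im|
  unfold nsup at h1
  linarith

/-- The geometric facts about world 0 used by the row SFA. -/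
structure SfW (w : W0) (Y : Set ℂ) : Prop where
  agree : Y ∩ closedBall 0 4 = w.X ∩ closedBall 0 4
  inner : ∀ x ∈ w.X, x ∈ Asq → x ∉ w.B
  far : ∃ x ∈ w.B, 2 ≤ nsup x

/-- The energy in the square of world 0. -/
theorem Qt_Lo {w : W0} {Y A : Set ℂ} (hXA : Y ∩ A = w.X ∩ A) (hA : ∀ x ∈ w.X, x ∈ A → x ∉ w.B)
    (Θ : Dt → ℂ) : w.Qt (rs (w.Lo A) (w.th Θ)) ≤ EQ Y A Θ := by
  classical
  have hF := w.faith hA
  rw [EQ_congr hXA Θ, EQ_eq w.hull w.π w.fib A hF Θ]
  unfold W0.Qt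
  refine ENNReal.ofReal_le_ofReal ?_
  have h0 : 0 ≤ ∑ d, ‖rs (w.Lo A) (w.th Θ) d‖ ^ 2 := Finset.sum_nonneg fun _ _ => by positivity
  change _ ≤ ∑ d, ‖rs (w.Lo A) (w.th Θ) d‖ ^ 2
  linarith

/-- **Row SFA**, with high probability for all worlds at once. -/
theorem sfa_whp {τ : ℂ} {κ : ℝ} {Θ : Dt → ℂ} (hΘ : Wt τ κ Θ) {ε : ℝ} (hε : 0 < ε) :
    ∃ η > 0, ∀ᶠ m in whp.{u}, ∀ w : W0, SfW w (pts m.2) → ∀ (M : ℕ) [NeZero M]
      (P : ZMod M → Set ℂ), RingOK w P η →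
      (∀ i, ∀ x ∈ P i, 3 / 4 ≤ nsup x ∧ nsup x ≤ 3 / 2) →
      w.En (NF w P) (rs (w.Lo Asq) (w.th Θ)) ≤ ENNReal.ofReal ε := by
  classical
  set E : ℝ := max 0 (675 * κ ^ 2 * CD 2 3 * 1 ^ 2) with hE
  have hE0 : 0 ≤ E := le_max_left _ _
  set C : ℝ := 8 * C0 * (netI.card : ℝ) with hC
  have hC0 : 0 ≤ C := by
    have := C0_nonneg
    positivity
  set ω : ℝ := ε / (4 * (C + 1) * (E + 1)) with hω
  have hω0 : 0 < ω := by positivity
  obtain ⟨η, hη, μ, hμ, hημ, hR⟩ := exists_ringEnv.{u} F.armStmt (r := 1 / 8) (by norm_num) hω0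
  refine ⟨η, hη, ?_⟩
  filter_upwards [hR netI netP, whp_EQ hΘ 0 (r := 1) one_pos (Q := Asq) Asq_subset] with m h1 h2
  intro w hw M _ P hP hPn
  have hX : ∀ i ∈ netI, pts m.2 ∩ closedBall (netP i) (3 * (1 / 8)) =
      w.X ∩ closedBall (netP i) (3 * (1 / 8)) := by
    intro i hi
    have hs := net_ball hi
    ext z
    constructor
    · rintro ⟨a, b⟩
      have : z ∈ w.X ∩ closedBall 0 4 := by rw [← hw.agree]; exact ⟨a, hs b⟩
      exact ⟨this.1, b⟩
    · rintro ⟨a, b⟩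
      have : z ∈ pts m.2 ∩ closedBall 0 4 := by rw [hw.agree]; exact ⟨a, hs b⟩
      exact ⟨this.1, b⟩
  have hbox : ∀ i ∈ netI, BoxOK w.X (fun _ : Unit => w.B) () (netP i) (1 / 8) μ := by
    intro i hi
    refine h1.boxOK (by norm_num) hμ.le hημ hη.le hX hi
      (fun j hj => absurd (Subsingleton.elim j ()) hj) ?_
    obtain ⟨x, hx, hx2⟩ := hw.far
    refine ⟨x, hx, fun hxs => ?_⟩
    have h3 := (nsup_of_sq hxs).2
    have h4 := (net_mem hi).2
    linarith
  have hsum := h1.sum_edE w.hull (by norm_num) hX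
  have key := sfa_world hP netI netP (ω := ω) hbox
    (fun j x hx => net_cover (hPn j x hx).1 (hPn j x hx).2) hη.le hημ
    (fun i hi z hz => (h1 w.X hX).2 _ (fun x hx => hx.1)
      (w.hull.fin.subset fun x hx => hx.1) i hi z hz)
    (A := Asq) (fun i hi => by
      rw [Set.disjoint_left]
      intro z hz hz'
      have h3 := (nsup_of_sq hz').1
      have h4 := nsup_Asq hz
      have h5 := (net_mem hi).1
      linarith) hw.inner hΘ
  have hAs : Asq ⊆ closedBall (0 : ℂ) 4 :=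
    Asq_subset.trans (closedBall_subset_closedBall (by norm_num))
  have hQt : w.Qt (rs (w.Lo Asq) (w.th Θ)) ≤ ENNReal.ofReal E := by
    refine (Qt_Lo (Y := pts m.2) ?_ hw.inner Θ).trans (h2.trans
      (ENNReal.ofReal_le_ofReal (le_max_right _ _)))
    ext z
    constructor
    · rintro ⟨a, b⟩
      have : z ∈ w.X ∩ closedBall 0 4 := by rw [← hw.agree]; exact ⟨a, hAs b⟩
      exact ⟨this.1, b⟩
    · rintro ⟨a, b⟩
      have : z ∈ pts m.2 ∩ closedBall 0 4 := by rw [hw.agree]; exact ⟨a, hAs b⟩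
      exact ⟨this.1, b⟩
  refine key.trans ?_
  calc _ ≤ ENNReal.ofReal (4 * ω * C) * ENNReal.ofReal E := by
        refine mul_le_mul' (ENNReal.ofReal_le_ofReal ?_) hQt
        exact mul_le_mul_of_nonneg_left hsum (by positivity)
    _ = ENNReal.ofReal (4 * ω * C * E) := (ENNReal.ofReal_mul (by positivity)).symm
    _ ≤ ENNReal.ofReal ε := by
        apply ENNReal.ofReal_le_ofReal
        have e1 : 4 * ω * C * E ≤ 4 * ω * (C + 1) * (E + 1) := by
          have : C * E ≤ (C + 1) * (E + 1) := by nlinarith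
          calc 4 * ω * C * E = 4 * ω * (C * E) := by ring
            _ ≤ 4 * ω * ((C + 1) * (E + 1)) := mul_le_mul_of_nonneg_left this (by positivity)
            _ = _ := by ring
        refine e1.trans (le_of_eq ?_)
        rw [hω]
        field_simp

/-- **Row SFA**, in the form of `Ev`. -/
theorem sfa_ev {τ : ℂ} {κ : ℝ} {Θ : Dt → ℂ} (hΘ : Wt τ κ Θ) {ε : ℝ} (hε : 0 < ε) :
    ∃ η > 0, Ev.{u} fun T => ∀ w : W0, SfW w (pts T) → ∀ (M : ℕ) [NeZero M]
      (P : ZMod M → Set ℂ), RingOK w P η →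
      (∀ i, ∀ x ∈ P i, 3 / 4 ≤ nsup x ∧ nsup x ≤ 3 / 2) →
      w.En (NF w P) (rs (w.Lo Asq) (w.th Θ)) ≤ ENNReal.ofReal ε := by
  obtain ⟨η, hη, h⟩ := sfa_whp.{u} hΘ hε
  refine ⟨η, hη, fun δ hδ => ?_⟩
  obtain ⟨K, -, hK⟩ := whp_unif' (A := fun T => ∀ w : W0, SfW w (pts T) → ∀ (M : ℕ) [NeZero M]
      (P : ZMod M → Set ℂ), RingOK w P η →
      (∀ i, ∀ x ∈ P i, 3 / 4 ≤ nsup x ∧ nsup x ≤ 3 / 2) →
      w.En (NF w P) (rs (w.Lo Asq) (w.th Θ)) ≤ ENNReal.ofReal ε) h (ENNReal.ofReal_pos.2 hδ)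
  exact ⟨K, hK⟩

/-- The bound for a scene. -/
theorem mnA_le {s : Scene} (hp : ∑ i, s.p i = 1) (S : s.Cls) {Θ : Dt → ℂ} {ε : ℝ≥0∞}
    (h : ∀ i, (s.w i).En (S.S i) (rs ((s.w i).Lo Asq) ((s.w i).th Θ)) ≤ ε) : s.mnA S Θ ≤ ε := by
  unfold Scene.mnA
  calc _ ≤ ∑ i, s.p i * ε := Finset.sum_le_sum fun i _ => mul_le_mul' le_rfl (h i)
    _ = ε := by rw [← Finset.sum_mul, hp, one_mul]

end Vale.Agent.P148.R2.H609
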