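import Vale.Agent.P148.R2.H291.SfW2
import Vale.Agent.P148.R2.H566.Omega3
import Vale.Agent.P148.R2.H609.SFA3
import Vale.Agent.P148.R2.F.Arm

/-!
# Row cnt

The mean number of excursions of world 0 which leave the frozen vertex near the ring and whose class
meets the unit square is at most an absolute constant, quenched, for all worlds at once.
-/

set_option linter.unusedSectionVars false

open MeasureTheory Set Metric Filter ProbabilityTheory Topology
open scoped ENNReal NNReal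

namespace Vale.Agent.P148.R2.H609

open H592 H184 H203 _root_.P148 _root_.P148.H729 Vale.Agent.P148.R2.H258
open Vale.Agent.P148.R2.H995 (nsup)
open Vale.Agent.P148.R2.H400 (Facing Start)
open Vale.Agent.P148.R2.H566 (W0 Asq Ev Scene AScene)
open Vale.Agent.P148.R2.H291
open Vale.Agent.P148.R2.F (whp ArmStmt)

universe u

/-- The facts about world 0 used by the row cnt. -/
structure CnW (w : W0) (T : Set Pt) : Prop where
  agree : w.X ∩ ball 0 4 = pts T ∩ ball 0 4
  free : ∀ x ∈ w.X, x ∈ Asq → x ∉ w.B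
  out : (w.B \ ball 0 4).Nonempty
  ring : ∀ x y, nbr w.X x y → x ∈ w.B → y ∉ w.B → 3 / 4 ≤ nsup x ∧ nsup x ≤ 3 / 2

theorem _root_.Vale.Agent.P148.R2.H291.RingW.cnW {w : W0} {κ' : Type*} {Arc : κ' → Set w.D}
    {T : Set Pt} {η : ℝ} (h : RingW w Arc T η) : CnW w T := by
  refine ⟨h.agree, h.free, h.out, fun x y hxy hx hy => ?_⟩
  obtain ⟨M, _, P, h1, h2, -⟩ := h.ring
  obtain ⟨i, hi⟩ := h1.ring x y hxy hx hy
  exact ⟨by linarith [(h2 i x hi).1], (h2 i x hi).2⟩

open Classical in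
/-- The excursions whose class meets the unit square. -/
noncomputable def excS (w : W0) (σ : w.V → Bool) : Finset w.D :=
  Finset.univ.filter fun d => w.T.src d = w.O ∧ Start w.T σ d ∧ w.Mt Asq σ d

/-- The constant. -/
noncomputable def CN : ℝ := 8 * C0 * (netI.card : ℝ)

theorem CN_nonneg : 0 ≤ CN := by
  have := C0_nonneg
  unfold CN
  positivity

open Classical in
/-- **Count**, one world, on the environment event. -/
theorem cnt_w {Y : Set ℂ} {μ η ω : ℝ} (h1 : RingEnv Y netI netP (1 / 8) μ η ω) (hμ : 0 ≤ μ)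
    (hη : 0 ≤ η) (hημ : 4 * (η + μ) ≤ 1 / 8) {w : W0}
    (hX : w.X ∩ ball 0 4 = Y ∩ ball 0 4) (hA : ∀ x ∈ w.X, x ∈ Asq → x ∉ w.B)
    (hBn : (w.B \ ball 0 4).Nonempty)
    (hring : ∀ x y, nbr w.X x y → x ∈ w.B → y ∉ w.B → 3 / 4 ≤ nsup x ∧ nsup x ≤ 3 / 2) :
    ∑ σ : w.V → Bool, ((excS w σ).card : ℝ) ≤ 2 ^ Fintype.card w.V * CN := by
  have hsub : ∀ i ∈ netI, closedBall (netP i) (3 * (1 / 8)) ⊆ ball 0 4 := by
    intro i hi z hz
    rw [mem_closedBall] at hz
    rw [mem_ball]
    have h3 := dist_triangle z (netP i) 0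
    rw [dist_zero_right (netP i)] at h3
    have h1 := (net_mem hi).2
    have h2 := Complex.norm_le_abs_re_add_abs_im (netP i)
    have h4 := le_max_left |(netP i).re| |(netP i).im|
    have h5 := le_max_right |(netP i).re| |(netP i).im|
    unfold nsup at h1
    linarith
  have hXb : ∀ i ∈ netI, Y ∩ closedBall (netP i) (3 * (1 / 8)) =
      w.X ∩ closedBall (netP i) (3 * (1 / 8)) := fun i hi => inter_sub (hsub i hi) hX.symm
  have hout : ∀ i ∈ netI, ((fun _ : Unit => w.B) () \ Sq (netP i) (1 / 8)).Nonempty := by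
    intro i hi
    obtain ⟨x, hx1, hx2⟩ := hBn
    refine ⟨x, hx1, fun hx3 => hx2 (hsub i hi ?_)⟩
    rw [mem_closedBall]
    have := norm_le_of_sq hx3
    linarith
  have hd : Pairwise fun i j : Unit =>
      Disjoint ((fun _ : Unit => w.B) i) ((fun _ : Unit => w.B) j) :=
    fun i j hij => absurd (Subsingleton.elim i j) hij
  have hE : ∀ σ : w.V → Bool, ∀ d ∈ excS w σ, ∃ i ∈ netI,
      d ∈ nearB w.X w.b (fun _ : Unit => w.B) () (netP i) (1 / 8) ∧
      Out (TC w.hull hd (fun _ => w.conn) (fun _ => w.ne)) σ (Sum.inl ())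
        (Far w.X (fun _ : Unit => w.B) () (Sq (netP i) (1 / 8))) d := by
    intro σ d hdE
    unfold excS at hdE
    rw [Finset.mem_filter] at hdE
    obtain ⟨-, h2, h3, e, h4, h5⟩ := hdE
    have htB : tail d ∈ w.B := (pi_B (tail_mem d)).1 h2
    have hhB : head d ∉ w.B := by
      intro hh
      have h6 : w.T.tgt d = w.O := by rw [tgt_w]; exact (pi_B (head_mem d)).2 hh
      apply h3.1.1
      rw [h2, h6]
    have h6 := hring _ _ (w.hull.nbr_th d) htB hhB
    obtain ⟨i, hi, hi2⟩ := net_cover h6.1 h6.2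
    have hB := h1.boxOK (O := fun _ : Unit => w.B) (by norm_num) hμ hημ hη hXb (j₀ := ()) hi
      (fun j hj => absurd (Subsingleton.elim j ()) hj) (hout i hi)
    refine ⟨i, hi, ?_, ?_⟩
    · unfold nearB
      rw [Finset.mem_filter]
      exact ⟨Finset.mem_univ _, htB, hi2⟩
    · have hoth : ∀ j : Unit, j ≠ () → (fun _ : Unit => w.B) j ⊆ (Sq (netP i) (1 / 8))ᶜ :=
        fun j hj => absurd (Subsingleton.elim j ()) hj
      have hnear := hB.near w.hull hi2
      refine out_of_far (e := e) h2 not_far_j₀ ?_ h4 (Or.inl ?_)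
      · intro hh
        have h7 : (TC w.hull hd (fun _ => w.conn) (fun _ => w.ne)).tgt d =
            cmap w.X (fun _ : Unit => w.B) (head d) := tgt_TC w.hull hd _ _ d
        rw [h7, far_iff hd (head_mem d) hoth] at hh
        exact hh.1 hnear.1
      · have h8 : tail e ∈ w.X ∧ tail e ∈ Asq := ⟨tail_mem e, h5.mem.1⟩
        have h7 : (TC w.hull hd (fun _ => w.conn) (fun _ => w.ne)).src e =
            cmap w.X (fun _ : Unit => w.B) (tail e) := rfl
        rw [h7, far_iff hd h8.1 hoth]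
        refine ⟨fun hh => ?_, hA _ h8.1 h8.2⟩
        have a1 := (nsup_of_sq hh).1
        have a2 := nsup_Asq h8.2
        have a3 := (net_mem hi).1
        linarith
  have key := h1.cnt w.hull hd (fun _ => w.conn) (fun _ => w.ne) (by norm_num) hμ hημ hη hXb
    (j₀ := ()) (fun i _ j hj => absurd (Subsingleton.elim j ()) hj) hout (excS w) hE
  refine le_trans (le_of_eq ?_) (key.trans ?_)
  · exact sum_inst _ _ fun σ => rfl
  · unfold CN
    exact le_rfl

open Classical in
/-- The mean over captured excursions of the constant function `1`. -/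
theorem msum_one_le {w : W0} (J : Set w.D)
    (h : ∑ σ : w.V → Bool, ((excS w σ).card : ℝ) ≤ 2 ^ Fintype.card w.V * CN) :
    w.msum J (fun _ _ => 1) ≤ ENNReal.ofReal CN := by
  unfold W0.msum
  have h1 : (∑ σ : w.V → Bool, ∑ d, if w.cap J σ d then (1 : ℝ≥0∞) else 0) ≤
      ENNReal.ofReal (∑ σ : w.V → Bool, ((excS w σ).card : ℝ)) := by
    rw [ENNReal.ofReal_sum_of_nonneg (fun σ _ => by positivity)]
    refine Finset.sum_le_sum fun σ _ => ?_
    rw [ENNReal.ofReal_natCast, ← Finset.sum_filter, Finset.sum_const, nsmul_eq_mul, mul_one]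
    have h2 : (Finset.univ.filter fun d => w.cap J σ d) ⊆ excS w σ := by
      intro d hd
      rw [Finset.mem_filter] at hd
      unfold excS
      rw [Finset.mem_filter]
      exact ⟨Finset.mem_univ _, hd.2.1, hd.2.2.1, hd.2.2.2.2.2⟩
    exact_mod_cast Finset.card_le_card h2
  have h3 : (2 : ℝ≥0∞) ^ Fintype.card w.V = ENNReal.ofReal (2 ^ Fintype.card w.V) := by
    rw [ENNReal.ofReal_pow (by norm_num)]
    norm_num
  calc (2 ^ Fintype.card w.V : ℝ≥0∞)⁻¹ * ∑ σ : w.V → Bool, ∑ d, (if w.cap J σ d then 1 else 0)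
      ≤ (2 ^ Fintype.card w.V : ℝ≥0∞)⁻¹ *
        ENNReal.ofReal (∑ σ : w.V → Bool, ((excS w σ).card : ℝ)) := by
        refine mul_le_mul' le_rfl (le_trans (le_of_eq ?_) h1)
        exact sum_inst _ _ fun σ => sum_inst _ _ fun d => ite_inst _ _ _ _ _
    _ ≤ (2 ^ Fintype.card w.V : ℝ≥0∞)⁻¹ *
        ENNReal.ofReal (2 ^ Fintype.card w.V * CN) := by
        refine mul_le_mul' le_rfl (ENNReal.ofReal_le_ofReal (le_trans (le_of_eq ?_) h))
        exact sum_inst _ _ fun σ => rfl
    _ = ENNReal.ofReal CN := by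
        rw [ENNReal.ofReal_mul (by positivity), ← h3, ← mul_assoc, ENNReal.inv_mul_cancel,
          one_mul]
        · simp
        · simp

open Classical in
/-- **Count**, with high probability, for all worlds. -/
theorem cnt_ev : Ev.{u} fun T => ∀ w : W0, CnW w T →
    ∑ σ : w.V → Bool, ((excS w σ).card : ℝ) ≤ 2 ^ Fintype.card w.V * CN := by
  obtain ⟨η, hη, μ, hμ, hημ, hE⟩ := exists_ringEnv F.armStmt.{u} (r := 1 / 8) (by norm_num)
    one_pos
  have h : Ev.{u} fun T => RingEnv (pts T) netI netP (1 / 8) μ η 1 := ev_of_whp (hE netI netP)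
  refine h.mono fun T hT w hw => ?_
  exact cnt_w hT hμ.le hη.le hημ hw.agree hw.free hw.out hw.ring

/-- **Row cnt** of `H566.meu_of_rows3`. -/
theorem cnt_row (κ : ℕ → Type) (sc : ∀ N : ℕ, ℕ → Set Pt → AScene (κ N))
    (hring : ∀ N, ∀ᶠ M in atTop, Ev.{u} fun T =>
      ∀ i, (sc N M T).p i ≠ 0 → CnW ((sc N M T).w i) T) :
    ∀ N, ∃ C : ℝ≥0, ∀ᶠ M in atTop, Ev.{u} fun T => ∀ i, (sc N M T).p i ≠ 0 → ∀ J,
      ((sc N M T).w i).msum ((sc N M T).Arc i J) (fun _ _ => 1) ≤ C := by
  intro N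
  refine ⟨CN.toNNReal, ?_⟩
  filter_upwards [hring N] with M hM
  refine (hM.and cnt_ev).mono ?_
  rintro T ⟨h1, h2⟩ i hi J
  exact msum_one_le _ (h2 _ (h1 i hi))

end Vale.Agent.P148.R2.H609
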