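import Mathlib

/-!
# Instance mismatches

Explicit replacements for `congr!` / `convert` (which leave a constant `Lean.Meta.…` in the proof).
-/

namespace Vale.Agent.P148.R2.H609

theorem sum_inst {α β : Type*} [AddCommMonoid β] (i j : Fintype α) {f g : α → β}
    (h : ∀ a, f a = g a) :
    @Finset.sum α β _ (@Finset.univ α i) f = @Finset.sum α β _ (@Finset.univ α j) g := by
  obtain rfl : i = j := Subsingleton.elim _ _
  exact Finset.sum_congr rfl fun a _ => h a

theorem univ_inst {α : Type*} (i j : Fintype α) : @Finset.univ α i = @Finset.univ α j := by
  obtain rfl : i = j := Subsingleton.elim _ _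
  rfl

theorem filter_inst {α : Type*} {p : α → Prop} (i j : DecidablePred p) (s : Finset α) :
    @Finset.filter α p i s = @Finset.filter α p j s := by
  obtain rfl : i = j := Subsingleton.elim _ _
  rfl

theorem ite_inst {α : Sort*} (p : Prop) (i j : Decidable p) (a b : α) :
    @ite α p i a b = @ite α p j a b := by
  obtain rfl : i = j := Subsingleton.elim _ _
  rfl

theorem card_inst {α : Type*} (i j : Fintype α) : @Fintype.card α i = @Fintype.card α j := by
  obtain rfl : i = j := Subsingleton.elim _ _
  rfl

end Vale.Agent.P148.R2.H609
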