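import Vale.Agent.P148.R2.H609.NB2
import Vale.Agent.P148.R2.H532.Map

/-!
Two worlds: the mean number of strands leaving `b` in `near` which look at the far set `Λ` before
coming back to `b` is bounded by the Dirichlet energy of a function which is `0` at `near` and at
least `1` on `Λ` (the far set is glued to `b`).
-/

namespace Vale.Agent.P148.R2.H609

open Function ComplexConjugate
open Vale.Agent.P148.R2.H258 Vale.Agent.P148.R2.H258.Tri Vale.Agent.P148.R2.H532

variable {V D : Type*} (T : Tri V D)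

/-- The strand leaving `b` at `d` looks at `Λ` (at time `t`) before it comes back to `b`. -/
def OutAt (σ : V → Bool) (b : V) (Λ : Set V) (d : D) (t : ℕ) : Prop :=
  T.Mi σ d ∧ T.src d = b ∧ (∀ k < t, T.apex ((T.st σ)^[k] d) ∉ Λ) ∧
    T.apex ((T.st σ)^[t] d) ∈ Λ ∧ ∀ k, 1 ≤ k → k ≤ t → T.src ((T.st σ)^[k] d) ≠ b

/-- The strand leaving `b` at `d` looks at `Λ` before it comes back to `b`. -/
def Out (σ : V → Bool) (b : V) (Λ : Set V) (d : D) : Prop := ∃ t, OutAt T σ b Λ d t

open Classical in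
/-- The far set glued to `b`. -/
noncomputable def glue (b : V) (Λ : Set V) (v : V) : V := if v ∈ Λ then b else v

theorem glue_mem {b : V} {Λ : Set V} {v : V} (h : v ∈ Λ) : glue b Λ v = b := by simp [glue, h]

theorem glue_not {b : V} {Λ : Set V} {v : V} (h : v ∉ Λ) : glue b Λ v = v := by simp [glue, h]

variable {T}

/-- Vertices hugged before the strand looks at `Λ` are not in `Λ`. -/
theorem not_far {σ : V → Bool} {Λ : Set V} {d : D} (hb : T.Bi σ d) (h1 : T.src d ∉ Λ)
    (h2 : T.tgt d ∉ Λ) {t : ℕ} (h : ∀ k < t, T.apex ((T.st σ)^[k] d) ∉ Λ) :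
    ∀ k ≤ t, T.src ((T.st σ)^[k] d) ∉ Λ ∧ T.tgt ((T.st σ)^[k] d) ∉ Λ := by
  intro k
  induction k with
  | zero => intro _; exact ⟨h1, h2⟩
  | succ k ih =>
    intro hk
    have h3 := ih (by omega)
    have h4 := h k (by omega)
    have hb' : T.Bi σ ((T.st σ)^[k] d) := (T.bi_iter k).2 hb
    rw [iterate_succ', comp_apply]
    by_cases hm : T.Mi σ ((T.st σ)^[k] d)
    · rw [T.src_st_mi hm, T.tgt_st_mi hm]; exact ⟨h4, h3.2⟩
    · rw [T.src_st_nmi hb' hm, T.tgt_st_nmi hb' hm]; exact ⟨h3.1, h4⟩

/-- Strands agree in the two worlds as long as `Λ` is not looked at. -/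
theorem iter_glue {b : V} {Λ : Set V} (hF : FibConn T (glue b Λ)) {σ : V → Bool} {d : D}
    (hb : T.Bi σ d) (h1 : T.src d ∉ Λ) (h2 : T.tgt d ∉ Λ) {t : ℕ}
    (h : ∀ k < t, T.apex ((T.st σ)^[k] d) ∉ Λ) :
    ∀ k ≤ t, ((tmap T (glue b Λ) hF).st σ)^[k] d = (T.st σ)^[k] d := by
  intro k
  induction k with
  | zero => intro _; rfl
  | succ k ih =>
    intro hk
    have h3 := not_far hb h1 h2 h k (by omega)
    have h4 := h k (by omega)
    rw [iterate_succ', comp_apply, ih (by omega), iterate_succ', comp_apply, tmap_st]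
    apply T.st_congr
    · rw [comp_apply, glue_not h3.1]
    · rw [comp_apply, glue_not h3.2]
    · rw [comp_apply, glue_not h4]

open Classical in
theorem out_count [Fintype D] [Fintype V] (hP : T.Planar) {τ : ℂ} (hτ : τ ^ 2 + τ + 1 = 0)
    {b : V} {Λ : Set V} (hbΛ : b ∉ Λ) (hF : FibConn T (glue b Λ)) (q : D → ℝ)
    (hq1 : ∀ d, q (T.rev d) = q (T.nxt d))
    (hq2 : ∀ d e, T.src d = T.src e → T.src d ≠ b → T.src d ∉ Λ → q d = q e)
    (hq3 : ∀ d, T.src d ∈ Λ → 1 ≤ q d) (near : Finset D)
    (hn : ∀ d ∈ near, q d = 0 ∧ T.tgt d ∉ Λ ∧ T.apex d ∉ Λ) :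
    3 * ∑ σ : V → Bool, ((near.filter (fun d => Out T σ b Λ d)).card : ℝ) ≤
      2 ^ Fintype.card V * ∑ d, ‖QG (tmap T (glue b Λ) hF) τ q d‖ ^ 2 := by
  set T' := tmap T (glue b Λ) hF with hT'
  have hP' : T'.Planar := planar_tmap hP
  refine le_trans ?_ (excursion_energy T' hP' hτ b q)
  apply mul_le_mul_of_nonneg_left _ (by norm_num)
  apply Finset.sum_le_sum
  intro σ _
  rw [Finset.card_eq_sum_ones, Nat.cast_sum]
  have hkey : ∀ d ∈ near.filter (fun d => Out T σ b Λ d),
      (T'.Mi σ d ∧ T'.src d = b ∧ T'.apex d ≠ b) ∧ 1 ≤ disp T' σ q d ^ 2 := by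
    intro d hd
    rw [Finset.mem_filter] at hd
    obtain ⟨hdn, t, hm, hs, ha, hat, hr⟩ := hd
    obtain ⟨hq0, htg, hap⟩ := hn d hdn
    have hsΛ : T.src d ∉ Λ := by rw [hs]; exact hbΛ
    have ht : 1 ≤ t := by
      by_contra hc
      have : t = 0 := by omega
      subst this
      exact hap hat
    have hapb : T.apex d ≠ b := by
      have := hr 1 le_rfl ht
      rwa [iterate_one, T.src_st_mi hm] at this
    have hit := iter_glue hF hm.bi hsΛ htg ha
    have hnf := not_far hm.bi hsΛ htg ha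
    -- `d` is a minority dart of the second world
    have hm' : T'.Mi σ d := by
      rw [hT', tmap_mi]
      refine ⟨?_, ?_⟩
      · simp only [comp_apply, glue_not hsΛ, glue_not htg]; exact hm.1
      · simp only [comp_apply, glue_not hsΛ, glue_not hap]; exact hm.2
    have hs' : T'.src d = b := by
      change glue b Λ (T.src d) = b
      rw [glue_not hsΛ, hs]
    have hap' : T'.apex d ≠ b := by
      change glue b Λ (T.apex d) ≠ b
      rw [glue_not hap]; exact hapb
    refine ⟨⟨hm', hs', hap'⟩, ?_⟩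
    -- the last step
    set g := (T.st σ)^[t] d with hg
    have hgb : T.Bi σ g := (T.bi_iter t).2 hm.bi
    have hgs : T.src g ∉ Λ ∧ T.tgt g ∉ Λ := hnf t le_rfl
    have hgcol : σ (T.src g) = σ b := by rw [hg, T.col_src_iter σ, hs]
    have hgm : T'.Mi σ g := by
      rw [hT', tmap_mi]
      refine ⟨?_, ?_⟩
      · simp only [comp_apply, glue_not hgs.1, glue_not hgs.2]; exact hgb
      · simp only [comp_apply, glue_not hgs.1, glue_mem hat]; exact hgcol.symm
    have hstep : (T'.st σ)^[t + 1] d = T.rev (T.nxt g) := by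
      rw [iterate_succ', comp_apply, hit t le_rfl, ← hg, T'.st_mi hgm]; rfl
    have hlast : T'.src ((T'.st σ)^[t + 1] d) = b := by
      rw [iterate_succ', comp_apply, hit t le_rfl, ← hg, T'.src_st_mi hgm]
      change glue b Λ (T.apex g) = b
      rw [glue_mem hat]
    have hmin : ∀ k, 1 ≤ k → k < t + 1 → T'.src ((T'.st σ)^[k] d) ≠ b := by
      intro k hk1 hk2
      rw [hit k (by omega)]
      change glue b Λ (T.src _) ≠ b
      rw [glue_not (hnf k (by omega)).1]
      exact hr k hk1 (by omega)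
    have hdisp := disp_excursion T' hP' (b := b) (q := q) (by intro e; exact hq1 e)
      (by
        intro e f hef heb
        have h1 : T.src e ∉ Λ := fun hh => heb (glue_mem hh)
        change glue b Λ (T.src e) = glue b Λ (T.src f) at hef
        change glue b Λ (T.src e) ≠ b at heb
        have h2 : T.src f ∉ Λ := fun hh => by rw [glue_mem hh] at hef; exact heb hef
        rw [glue_not h1] at hef heb
        rw [glue_not h2] at hef
        exact hq2 e f hef heb h1)
      hm' hs' hap' (n := t + 1) (by omega) hlast hmin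
    rw [hdisp, hstep, hq1, hq0, sub_zero]
    have : 1 ≤ q (T.nxt (T.nxt g)) := hq3 _ hat
    nlinarith
  calc ((∑ x ∈ near.filter (fun d => Out T σ b Λ d), ((1 : ℕ) : ℝ)))
      ≤ ∑ d ∈ near.filter (fun d => Out T σ b Λ d), disp T' σ q d ^ 2 := by
        apply Finset.sum_le_sum
        intro d hd
        have := (hkey d hd).2
        push_cast
        exact this
    _ ≤ _ := by
        apply Finset.sum_le_sum_of_subset_of_nonneg
        · intro d hd
          rw [Finset.mem_filter]
          exact ⟨Finset.mem_univ d, (hkey d hd).1⟩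
        · intro d _ _; positivity

end Vale.Agent.P148.R2.H609
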