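import Vale.Agent.P148.R2.H592.Contr
import Vale.Agent.P148.R2.H609.NB3
import Vale.Agent.P148.R2.H609.Inst

/-!
# Delaunay form of the crossing count

`X` has a triangular hull, the sets `O j` are contracted; `K` is a region (a square) with connected
complement, which meets no other contracted set than `O j₀`.  The mean number of strands leaving
`O j₀` at a dart of `near` which look outside `K` before they come back to `O j₀` is at most half the
Dirichlet energy of any function which is `0` at the tails of `near` and at least `1` off `K`.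
-/

open Set Metric Topology Filter

namespace Vale.Agent.P148.R2.H609

open Vale.Agent.P148.R2.H258 Vale.Agent.P148.R2.H592 Vale.Agent.P148.R2.H532

/-! ### real weights -/

section weights

variable {V D : Type*} (T : Tri V D)

theorem norm_QW_sq {ζ : ℂ} (hζ : ζ ^ 2 + ζ + 1 = 0) (q : D → ℝ) (d : D) :
    ‖QW T ζ q d‖ ^ 2 = ((q (T.nxt d) - q (T.nxt (T.nxt d))) ^ 2 +
      (q (T.nxt (T.nxt d)) - q d) ^ 2 + (q d - q (T.nxt d)) ^ 2) / 2 := by
  have hc := Tri.conj_tau hζ
  have h3 := Tri.tau_pow_three hζ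
  have h : ((‖QW T ζ q d‖ ^ 2 : ℝ) : ℂ) = QW T ζ q d * (starRingEnd ℂ) (QW T ζ q d) := by
    rw [Complex.mul_conj, Complex.normSq_eq_norm_sq]
  have h2 : ((‖QW T ζ q d‖ ^ 2 : ℝ) : ℂ) = ((((q (T.nxt d) - q (T.nxt (T.nxt d))) ^ 2 +
      (q (T.nxt (T.nxt d)) - q d) ^ 2 + (q d - q (T.nxt d)) ^ 2) / 2 : ℝ) : ℂ) := by
    rw [h]
    unfold QW
    simp only [map_add, map_mul, map_pow, hc, Complex.conj_ofReal]
    push_cast
    generalize (q (T.nxt d) : ℂ) = a
    generalize (q (T.nxt (T.nxt d)) : ℂ) = b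
    generalize (q d : ℂ) = c
    have h4 : ζ ^ 4 = ζ := by linear_combination ζ * h3
    have h5 : ζ ^ 5 = ζ ^ 2 := by linear_combination ζ ^ 2 * h3
    have h6 : ζ ^ 6 = 1 := by linear_combination (ζ ^ 3 + 1) * h3
    have e : (a + ζ * b + ζ ^ 2 * c) * (a + ζ ^ 2 * b + (ζ ^ 2) ^ 2 * c) =
        a ^ 2 + ζ ^ 3 * b ^ 2 + ζ ^ 6 * c ^ 2 + (ζ + ζ ^ 2) * (a * b) + (ζ ^ 4 + ζ ^ 2) * (a * c) +
          (ζ ^ 5 + ζ ^ 4) * (b * c) := by ring
    rw [e, h3, h4, h5, h6]
    have h7 : ζ + ζ ^ 2 = -1 := by linear_combination hζ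
    have h8 : ζ ^ 2 + ζ = -1 := by linear_combination hζ
    rw [h7, h8]
    ring
  exact_mod_cast h2

theorem sum_nxt [Fintype D] (f : D → ℝ) : ∑ d, f (T.nxt d) = ∑ d, f d :=
  Equiv.sum_comp (T.nxtEquiv) f

open Classical in
theorem sum_QG_le [Fintype D] {ζ : ℂ} (hζ : ζ ^ 2 + ζ + 1 = 0) (q : D → ℝ) :
    ∑ d, ‖QG T ζ q d‖ ^ 2 ≤ 3 / 2 * ∑ d, (q (T.nxt d) - q d) ^ 2 := by
  have h1 : ∑ d, ‖QG T ζ q d‖ ^ 2 ≤ ∑ d, ‖QW T ζ q d‖ ^ 2 := by
    apply Finset.sum_le_sum
    intro d _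
    unfold QG
    split_ifs
    · exact le_rfl
    · rw [norm_zero, zero_pow two_ne_zero]; positivity
  refine h1.trans (le_of_eq ?_)
  have h2 : ∀ d, ‖QW T ζ q d‖ ^ 2 = ((q (T.nxt (T.nxt d)) - q (T.nxt d)) ^ 2 +
      (q (T.nxt (T.nxt (T.nxt d))) - q (T.nxt (T.nxt d))) ^ 2 + (q (T.nxt d) - q d) ^ 2) / 2 := by
    intro d
    rw [norm_QW_sq T hζ, T.nxt3]
    ring
  rw [Finset.sum_congr rfl (fun d _ => h2 d), ← Finset.sum_div, Finset.sum_add_distrib,
    Finset.sum_add_distrib, sum_nxt T (fun d => (q (T.nxt d) - q d) ^ 2)]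
  have h3 : ∑ d, (q (T.nxt (T.nxt (T.nxt d))) - q (T.nxt (T.nxt d))) ^ 2 =
      ∑ d, (q (T.nxt d) - q d) ^ 2 := by
    rw [sum_nxt T (fun d => (q (T.nxt (T.nxt d)) - q (T.nxt d)) ^ 2),
      sum_nxt T (fun d => (q (T.nxt d) - q d) ^ 2)]
  rw [h3]
  ring

end weights

theorem exists_zeta : ∃ ζ : ℂ, ζ ^ 2 + ζ + 1 = 0 := by
  refine ⟨⟨-(1 / 2), √3 / 2⟩, ?_⟩
  have h3 : √3 * √3 = 3 := Real.mul_self_sqrt (by norm_num)
  apply Complex.ext
  · simp only [pow_two, Complex.add_re, Complex.mul_re, Complex.one_re, Complex.zero_re]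
    nlinarith
  · simp only [pow_two, Complex.add_im, Complex.mul_im, Complex.one_im, Complex.zero_im]
    ring

/-! ### the complement of a square is connected -/

/-- The closed square with centre `p` and half side `r`. -/
def Sq (p : ℂ) (r : ℝ) : Set ℂ := {z | |z.re - p.re| ≤ r ∧ |z.im - p.im| ≤ r}

/-- The four half planes of the complement of the square. -/
def hpl (p : ℂ) (r : ℝ) : Fin 4 → Set ℂ
  | 0 => {z | p.re + r < (1 : ℂ).re * z.re + (1 : ℂ).im * z.im}
  | 1 => {z | p.im + r < Complex.I.re * z.re + Complex.I.im * z.im}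
  | 2 => {z | -p.re + r < (-1 : ℂ).re * z.re + (-1 : ℂ).im * z.im}
  | 3 => {z | -p.im + r < (-Complex.I).re * z.re + (-Complex.I).im * z.im}

theorem sq_compl (p : ℂ) (r : ℝ) : (Sq p r)ᶜ = ⋃ i, hpl p r i := by
  ext z
  simp only [Sq, mem_compl_iff, mem_iUnion]
  constructor
  · intro h
    have h' : ¬ (|z.re - p.re| ≤ r ∧ |z.im - p.im| ≤ r) := h
    rw [not_and_or, not_le, not_le, lt_abs, lt_abs] at h'
    rcases h' with (h1 | h1) | (h1 | h1)
    · refine ⟨0, ?_⟩
      show p.re + r < (1 : ℂ).re * z.re + (1 : ℂ).im * z.im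
      simp only [Complex.one_re, Complex.one_im]; linarith
    · refine ⟨2, ?_⟩
      show -p.re + r < (-1 : ℂ).re * z.re + (-1 : ℂ).im * z.im
      simp only [Complex.neg_re, Complex.neg_im, Complex.one_re, Complex.one_im]; linarith
    · refine ⟨1, ?_⟩
      show p.im + r < Complex.I.re * z.re + Complex.I.im * z.im
      simp only [Complex.I_re, Complex.I_im]; linarith
    · refine ⟨3, ?_⟩
      show -p.im + r < (-Complex.I).re * z.re + (-Complex.I).im * z.im
      simp only [Complex.neg_re, Complex.neg_im, Complex.I_re, Complex.I_im]; linarith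
  · rintro ⟨i, hi⟩ ⟨h1, h2⟩
    rw [abs_le] at h1 h2
    fin_cases i
    · have : p.re + r < (1 : ℂ).re * z.re + (1 : ℂ).im * z.im := hi
      simp only [Complex.one_re, Complex.one_im] at this; linarith
    · have : p.im + r < Complex.I.re * z.re + Complex.I.im * z.im := hi
      simp only [Complex.I_re, Complex.I_im] at this; linarith
    · have : -p.re + r < (-1 : ℂ).re * z.re + (-1 : ℂ).im * z.im := hi
      simp only [Complex.neg_re, Complex.neg_im, Complex.one_re, Complex.one_im] at this; linarith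
    · have : -p.im + r < (-Complex.I).re * z.re + (-Complex.I).im * z.im := hi
      simp only [Complex.neg_re, Complex.neg_im, Complex.I_re, Complex.I_im] at this; linarith

theorem connIn_sq_compl {X : Set ℂ} (hX : X.Finite) (p : ℂ) (r : ℝ)
    (hq : ∀ i : Fin 4, (X ∩ hpl p r i ∩ hpl p r (i + 1)).Nonempty) : ConnIn X (X \ Sq p r) := by
  have e : X \ Sq p r = ⋃ i, X ∩ hpl p r i := by
    rw [Set.sdiff_eq, sq_compl, inter_iUnion]
  rw [e]
  apply connIn_iUnion
  · intro i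
    fin_cases i
    · exact connIn_half hX 1 (p.re + r)
    · exact connIn_half hX Complex.I (p.im + r)
    · exact connIn_half hX (-1) (-p.re + r)
    · exact connIn_half hX (-Complex.I) (-p.im + r)
  · have step : ∀ i : Fin 4, Relation.ReflTransGen
        (fun i j : Fin 4 => (X ∩ hpl p r i ∩ (X ∩ hpl p r j)).Nonempty) i (i + 1) := by
      intro i
      refine Relation.ReflTransGen.single ?_
      obtain ⟨z, hz, hz'⟩ := hq i
      exact ⟨z, hz, hz.1, hz'⟩
    intro i j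
    have h4 : j = i ∨ j = i + 1 ∨ j = i + 1 + 1 ∨ j = i + 1 + 1 + 1 := by
      revert i j; decide
    rcases h4 with rfl | rfl | rfl | rfl
    · exact Relation.ReflTransGen.refl
    · exact step i
    · exact (step i).trans (step _)
    · exact ((step i).trans (step _)).trans (step _)

/-! ### the count -/

section count

variable {X : Set ℂ} {b : ZMod 3 → ℂ} (h : HullTri X b) {ι : Type*} [Inhabited ι]
  {O : ι → Set ℂ} (hd : Pairwise fun i j => Disjoint (O i) (O j)) (hc : ∀ j, ConnIn X (O j))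
  (hne : ∀ j, (O j).Nonempty)

/-- The vertices outside `K`, and the other contracted sets. -/
def Far (X : Set ℂ) (O : ι → Set ℂ) (j₀ : ι) (K : Set ℂ) : Set (CV X O) :=
  {v | (∃ x : Free X O, v = Sum.inr x ∧ x.1 ∉ K) ∨ ∃ j, j ≠ j₀ ∧ v = Sum.inl j}

omit [Inhabited ι] in
theorem not_far_j₀ {j₀ : ι} {K : Set ℂ} : (Sum.inl j₀ : CV X O) ∉ Far X O j₀ K := by
  rintro (⟨x, hx, -⟩ | ⟨j, hj, hj'⟩)
  · exact absurd hx (by simp)
  · exact hj (Sum.inl_injective hj').symm

/-- Paths of the Delaunay graph as walks of the contracted triangulation. -/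
theorem walk_of_path {V : Type*} {π : ℂ → V} (hπ : Fib X π) {R : Set ℂ} {x y : ℂ}
    (hp : Relation.ReflTransGen (fun a b => nbr X a b ∧ a ∈ R ∧ b ∈ R) x y) :
    ∃ l, (h.tri258 π hπ).Walk (π x) (π y) l ∧ ∀ g ∈ l, tail g ∈ R ∧ head g ∈ R := by
  induction hp with
  | refl => exact ⟨[], Tri.Walk.nil _, by simp⟩
  | tail _ hbc ih =>
    obtain ⟨l, h1, h2⟩ := ih
    rename_i a c _
    refine ⟨l ++ [h.dart hbc.1], h1.append ?_, ?_⟩
    · have h3 := Tri.Walk.single (T := h.tri258 π hπ) (h.dart hbc.1)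
      have e1 : (h.tri258 π hπ).src (h.dart hbc.1) = π a := by
        show π (tail (h.dart hbc.1)) = π a
        rw [h.tail_dart]
      have e2 : (h.tri258 π hπ).tgt (h.dart hbc.1) = π c := by
        show π (tail (h.rv (h.dart hbc.1))) = π c
        rw [h.tail_rv, h.head_dart]
      rwa [e1, e2] at h3
    · intro g hg
      rcases List.mem_append.1 hg with hg | hg
      · exact h2 g hg
      · rw [List.mem_singleton] at hg
        subst hg
        rw [h.tail_dart, h.head_dart]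
        exact hbc.2

/-- The contracted triangulation. -/
noncomputable abbrev TC : Tri (CV X O) (Fc X b × ZMod 3) :=
  h.tri258 (cmap X O) (fib_cmap hd hc hne)

theorem src_TC (q : Fc X b × ZMod 3) : (TC h hd hc hne).src q = cmap X O (tail q) := rfl

theorem tgt_TC (q : Fc X b × ZMod 3) : (TC h hd hc hne).tgt q = cmap X O (head q) := by
  show cmap X O (tail (h.rv q)) = _
  rw [h.tail_rv]

theorem apex_TC (q : Fc X b × ZMod 3) : (TC h hd hc hne).apex q = cmap X O (vc q.1 q.2) := by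
  show cmap X O (tail (q.1, q.2 + 1 + 1)) = _
  rw [z3_11, HullTri.tail_next2]

include hd in
theorem far_iff {j₀ : ι} {K : Set ℂ} {x : ℂ} (hx : x ∈ X)
    (hO : ∀ j ≠ j₀, O j ⊆ Kᶜ) : cmap X O x ∈ Far X O j₀ K ↔ x ∉ K ∧ x ∉ O j₀ := by
  constructor
  · rintro (⟨y, hy, hyK⟩ | ⟨j, hj, hj'⟩)
    · rw [eq_of_cmap hy]
      exact ⟨hyK, y.2.2 j₀⟩
    · have h1 := mem_of_cmap hx hj'
      refine ⟨hO j hj h1, fun h2 => ?_⟩
      have e1 := cmap_of_mem (X := X) hd h2
      rw [hj'] at e1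
      exact hj (Sum.inl_injective e1)
  · rintro ⟨h1, h2⟩
    by_cases hf : ∃ j, x ∈ O j
    · obtain ⟨j, hj⟩ := hf
      right
      exact ⟨j, fun hh => h2 (hh ▸ hj), cmap_of_mem hd hj⟩
    · push Not at hf
      left
      exact ⟨⟨x, hx, hf⟩, cmap_of_free hx hf, h1⟩

theorem fibConn_far {j₀ : ι} {K : Set ℂ} (hK : ConnIn X (X \ K)) (hO : ∀ j ≠ j₀, O j ⊆ Kᶜ)
    (hj₀ : (O j₀ \ K).Nonempty) :
    FibConn (TC h hd hc hne) (glue (Sum.inl j₀) (Far X O j₀ K)) := by
  -- the fibre of the far set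
  set R : Set ℂ := O j₀ ∪ (X \ K) with hR
  have hRc : ConnIn X R := by
    apply (hc j₀).union hK
    obtain ⟨x, hx, hx'⟩ := hj₀
    exact ⟨x, hx, (hc j₀).1 hx, hx'⟩
  have hin : ∀ x ∈ R, glue (Sum.inl j₀) (Far X O j₀ K) (cmap X O x) = Sum.inl j₀ := by
    intro x hx
    by_cases hxj : x ∈ O j₀
    · rw [cmap_of_mem hd hxj, glue_not not_far_j₀]
    · rcases hx with hx | hx
      · exact absurd hx hxj
      · exact glue_mem ((far_iff hd hx.1 hO).2 ⟨hx.2, hxj⟩)
  have hout : ∀ x ∈ X, x ∉ R → ∃ y : Free X O, cmap X O x = Sum.inr y ∧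
      glue (Sum.inl j₀) (Far X O j₀ K) (cmap X O x) = cmap X O x := by
    intro x hx hxR
    have hxj : x ∉ O j₀ := fun hh => hxR (Or.inl hh)
    have hxK : x ∈ K := by
      by_contra hh
      exact hxR (Or.inr ⟨hx, hh⟩)
    have hfree : ∀ j, x ∉ O j := by
      intro j hj
      by_cases hjj : j = j₀
      · subst hjj; exact hxj hj
      · exact hO j hjj hj hxK
    refine ⟨⟨x, hx, hfree⟩, cmap_of_free hx hfree, ?_⟩
    apply glue_not
    rw [far_iff hd hx hO]
    exact fun hh => hh.1 hxK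
  intro d e hde
  rw [src_TC, src_TC] at hde
  have hdX := (h.nbr_th d).1
  have heX := (h.nbr_th e).1
  by_cases h1 : tail d ∈ R
  · by_cases h2 : tail e ∈ R
    · obtain ⟨l, hl, hl2⟩ := walk_of_path h (fib_cmap hd hc hne) (hRc.2 _ h1 _ h2)
      refine ⟨l, hl, fun g hg => ?_⟩
      rw [src_TC, tgt_TC, src_TC, hin _ h1, hin _ (hl2 g hg).1, hin _ (hl2 g hg).2]
      exact ⟨rfl, rfl⟩
    · obtain ⟨y, hy, hy2⟩ := hout _ heX h2
      rw [hin _ h1, hy2, hy] at hde
      exact absurd hde (by simp)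
  · obtain ⟨y, hy, hy2⟩ := hout _ hdX h1
    by_cases h2 : tail e ∈ R
    · rw [hin _ h2, hy2, hy] at hde
      exact absurd hde (by simp)
    · obtain ⟨z, hz, hz2⟩ := hout _ heX h2
      rw [hy2, hz2] at hde
      refine ⟨[], ?_, by simp⟩
      rw [src_TC, src_TC, hde]
      exact Tri.Walk.nil _

open Classical in
/-- **Crossing count, Delaunay form.** -/
theorem cnt_box [Fintype (CV X O)] [Fintype (Fc X b × ZMod 3)] {j₀ : ι} {K : Set ℂ}
    (hK : ConnIn X (X \ K)) (hO : ∀ j ≠ j₀, O j ⊆ Kᶜ) (hj₀ : (O j₀ \ K).Nonempty)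
    (φ : ℂ → ℝ) (hφ : ∀ z ∉ K, 1 ≤ φ z) (near : Finset (Fc X b × ZMod 3))
    (hn : ∀ d ∈ near, φ (tail d) = 0 ∧ (head d ∈ K ∨ head d ∈ O j₀) ∧
      (vc d.1 d.2 ∈ K ∨ vc d.1 d.2 ∈ O j₀)) :
    ∑ σ : CV X O → Bool, ((near.filter (fun d =>
        Out (TC h hd hc hne) σ (Sum.inl j₀) (Far X O j₀ K) d)).card : ℝ) ≤
      2 ^ Fintype.card (CV X O) * (1 / 2 * ∑ d : Fc X b × ZMod 3, (φ (head d) - φ (tail d)) ^ 2) := by
  obtain ⟨ζ, hζ⟩ := exists_zeta
  set T := TC h hd hc hne with hT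
  set q : Fc X b × ZMod 3 → ℝ := fun d => φ (tail d) with hq
  have hnxt : ∀ d, q (T.nxt d) = φ (head d) := by
    intro d
    show φ (tail (d.1, d.2 + 1)) = φ (head d)
    rw [HullTri.tail_next]
  have hloc : ∀ x ∈ X, x ∈ K ∨ x ∈ O j₀ → cmap X O x ∉ Far X O j₀ K := by
    intro x hx hxK hfar
    rw [far_iff hd hx hO] at hfar
    rcases hxK with h1 | h1
    · exact hfar.1 h1
    · exact hfar.2 h1
  have h1 := out_count (T := T) (h.planar258 _ _) hζ (b := Sum.inl j₀) (Λ := Far X O j₀ K) not_far_j₀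
    (fibConn_far h hd hc hne hK hO hj₀) q
    (by
      intro d
      rw [hnxt]
      show φ (tail (h.rv d)) = φ (head d)
      rw [h.tail_rv])
    (by
      intro d e hde h2 h3
      have h4 : tail d ∉ O j₀ := by
        intro hh
        exact h2 (cmap_of_mem hd hh)
      have h5 : ¬ (tail d ∉ K ∧ tail d ∉ O j₀) := fun hh =>
        h3 ((far_iff hd (h.nbr_th d).1 hO).2 hh)
      have h6 : tail d ∈ K := by
        by_contra hh
        exact h5 ⟨hh, h4⟩
      have h7 : ∀ j, tail d ∉ O j := by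
        intro j hj
        by_cases hjj : j = j₀
        · subst hjj; exact h4 hj
        · exact hO j hjj hj h6
      have h8 : cmap X O (tail d) = Sum.inr ⟨tail d, (h.nbr_th d).1, h7⟩ :=
        cmap_of_free (h.nbr_th d).1 h7
      have h9 : cmap X O (tail e) = Sum.inr ⟨tail d, (h.nbr_th d).1, h7⟩ := by
        rw [← h8]; exact hde.symm
      show φ (tail d) = φ (tail e)
      rw [eq_of_cmap h9])
    (by
      intro d h2
      exact hφ _ ((far_iff hd (h.nbr_th d).1 hO).1 h2).1)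
    near
    (by
      intro d hd'
      obtain ⟨a1, a2, a3⟩ := hn d hd'
      refine ⟨a1, ?_, ?_⟩
      · rw [hT, tgt_TC]
        exact hloc _ (h.nbr_th d).2.1 a2
      · rw [hT, apex_TC]
        refine hloc _ ?_ a3
        have := (h.nbr_th (d.1, d.2 + 1)).2.1
        rwa [HullTri.head_next] at this)
  have h2 := sum_QG_le (tmap T (glue (Sum.inl j₀) (Far X O j₀ K))
    (fibConn_far h hd hc hne hK hO hj₀)) hζ q
  have h3 : ∀ d, (q ((tmap T (glue (Sum.inl j₀) (Far X O j₀ K))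
      (fibConn_far h hd hc hne hK hO hj₀)).nxt d) - q d) ^ 2 = (φ (head d) - φ (tail d)) ^ 2 := by
    intro d
    rw [tmap_nxt, hnxt]
  rw [Finset.sum_congr rfl (fun d _ => h3 d)] at h2
  have hpos : (0 : ℝ) < 2 ^ Fintype.card (CV X O) := by positivity
  have h4 := mul_le_mul_of_nonneg_left h2 hpos.le
  have h5 : 3 * ∑ σ : CV X O → Bool, ((near.filter (fun d =>
        Out (TC h hd hc hne) σ (Sum.inl j₀) (Far X O j₀ K) d)).card : ℝ) ≤
      2 ^ Fintype.card (CV X O) * (3 / 2 * ∑ d : Fc X b × ZMod 3,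
        (φ (head d) - φ (tail d)) ^ 2) := by
    refine le_trans (le_of_eq ?_) (h1.trans h4)
    refine congrArg (fun x : ℝ => 3 * x) (sum_inst _ _ fun σ => ?_)
    exact congrArg (fun s : Finset (Fc X b × ZMod 3) => (s.card : ℝ)) (filter_inst _ _ _)
  linarith

end count

end Vale.Agent.P148.R2.H609
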