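import Vale.Agent.P148.R2.H258.A4
import Vale.Agent.P148.R2.H258.A5

/-!
Number of excursions of all strands away from one vertex `b` (a contracted frozen set): the energy
identity bounds, for every fixed triangulation, the mean number of excursions whose end points are
macroscopically apart.
-/

namespace Vale.Agent.P148.R2.H609

open Function ComplexConjugate
open Vale.Agent.P148.R2.H258 Vale.Agent.P148.R2.H258.Tri

variable {V D : Type*} (T : Tri V D)

open Classical in
/-- Number of members of the class of `d`. -/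
noncomputable def ncl [Fintype D] (σ : V → Bool) (d : D) : ℝ :=
  ∑ e, if T.Rel σ e d then (1 : ℝ) else 0

theorem ncl_nonneg [Fintype D] (σ : V → Bool) (d : D) : 0 ≤ ncl T σ d :=
  Finset.sum_nonneg (fun e _ => by split_ifs <;> norm_num)

theorem rel_iff_of_rel [Finite D] {σ : V → Bool} {d e : D} (h : T.Rel σ d e) (f : D) :
    T.Rel σ f d ↔ T.Rel σ f e :=
  ⟨fun h1 => T.rel_trans h1 h, fun h1 => T.rel_trans h1 (T.rel_symm h)⟩

theorem cls_congr [Fintype D] {σ : V → Bool} {d e : D} (h : T.Rel σ d e) (Θ : D → ℂ) :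
    T.cls σ d Θ = T.cls σ e Θ := by
  unfold cls
  apply Finset.sum_congr rfl
  intro f _
  have := rel_iff_of_rel T h f
  by_cases hh : T.Rel σ f d
  · rw [if_pos hh, if_pos (this.1 hh)]
  · rw [if_neg hh, if_neg (fun h' => hh (this.2 h'))]

theorem ncl_congr [Fintype D] {σ : V → Bool} {d e : D} (h : T.Rel σ d e) :
    ncl T σ d = ncl T σ e := by
  unfold ncl
  apply Finset.sum_congr rfl
  intro f _
  have := rel_iff_of_rel T h f
  by_cases hh : T.Rel σ f d
  · rw [if_pos hh, if_pos (this.1 hh)]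
  · rw [if_neg hh, if_neg (fun h' => hh (this.2 h'))]

open Classical in
theorem ncl_pos [Fintype D] {σ : V → Bool} {d : D} (h : T.Rel σ d d) : 0 < ncl T σ d := by
  have : (1 : ℝ) ≤ ncl T σ d := by
    calc (1 : ℝ) = (if T.Rel σ d d then (1 : ℝ) else 0) := by rw [if_pos h]
      _ ≤ _ := Finset.single_le_sum (f := fun e => if T.Rel σ e d then (1 : ℝ) else 0)
          (fun e _ => by split_ifs <;> norm_num) (Finset.mem_univ d)
  linarith

open Classical in
/-- Total energy as a weighted sum over darts of the class values. -/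
theorem energy_eq_sum [Fintype D] (σ : V → Bool) (Θ : D → ℂ) :
    ∑ d, ∑ e, (if T.Rel σ d e then Θ d * conj (Θ e) else 0) =
      ((∑ d, (if T.Rel σ d d then ‖T.cls σ d Θ‖ ^ 2 / ncl T σ d else 0) : ℝ) : ℂ) := by
  set W : D → ℂ := fun d => T.cls σ d Θ with hW
  set n : D → ℝ := fun d => ncl T σ d with hn
  have hWc : ∀ d e, T.Rel σ d e → W d = W e := fun d e h => cls_congr T h Θ
  have hnc : ∀ d e, T.Rel σ d e → n d = n e := fun d e h => ncl_congr T h
  have hconj : ∀ d, conj (W d) = ∑ e, if T.Rel σ d e then conj (Θ e) else 0 := by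
    intro d
    simp only [hW, cls]
    rw [map_sum]
    apply Finset.sum_congr rfl
    intro e _
    by_cases hh : T.Rel σ d e
    · simp [hh, T.rel_symm hh]
    · have : ¬ T.Rel σ e d := fun h => hh (T.rel_symm h)
      simp [hh, this]
  have a1 : ∀ d, (((if T.Rel σ d d then ‖W d‖ ^ 2 / n d else 0) : ℝ) : ℂ) =
      ∑ e, (if T.Rel σ e d then Θ e * conj (W e) / (n e : ℂ) else 0) := by
    intro d
    by_cases hd : T.Rel σ d d
    · rw [if_pos hd]
      have : ((‖W d‖ ^ 2 : ℝ) : ℂ) = W d * conj (W d) := by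
        rw [Complex.mul_conj, Complex.normSq_eq_norm_sq]
      rw [Complex.ofReal_div, this]
      have e1 : W d = ∑ e, if T.Rel σ e d then Θ e else 0 := rfl
      conv_lhs => rw [show W d * conj (W d) / (n d : ℂ) = W d * (conj (W d) / (n d : ℂ)) by ring]
      conv_lhs => arg 1; rw [e1]
      rw [Finset.sum_mul]
      apply Finset.sum_congr rfl
      intro e _
      split_ifs with hh
      · rw [hWc e d hh, hnc e d hh]; ring
      · ring
    · rw [if_neg hd]
      have : ∀ e, ¬ T.Rel σ e d := fun e h => hd (T.rel_refl h.2.1)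
      simp [this]
  rw [Complex.ofReal_sum, Finset.sum_congr rfl (fun d _ => a1 d)]
  conv_rhs => rw [Finset.sum_comm]
  apply Finset.sum_congr rfl
  intro d _
  by_cases hd : T.Rel σ d d
  · have hnz : (n d : ℂ) ≠ 0 := by exact_mod_cast (ncl_pos T hd).ne'
    have b1 : ∑ e, (if T.Rel σ d e then Θ d * conj (W d) / (n d : ℂ) else 0) =
        (∑ e, if T.Rel σ e d then (1 : ℂ) else 0) * (Θ d * conj (W d) / (n d : ℂ)) := by
      rw [Finset.sum_mul]
      apply Finset.sum_congr rfl
      intro e _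
      by_cases hh : T.Rel σ d e
      · simp [hh, T.rel_symm hh]
      · have : ¬ T.Rel σ e d := fun h => hh (T.rel_symm h)
        simp [hh, this]
    have b2 : (∑ e, if T.Rel σ e d then (1 : ℂ) else 0) = (n d : ℂ) := by
      simp only [hn, ncl]
      push_cast
      apply Finset.sum_congr rfl
      intro e _
      split_ifs <;> simp
    rw [b1, b2, mul_div_assoc', mul_comm (n d : ℂ), mul_div_assoc, div_self hnz, mul_one,
      hconj, Finset.mul_sum]
    apply Finset.sum_congr rfl
    intro e _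
    split_ifs <;> simp
  · have : ∀ e, ¬ T.Rel σ d e := fun e h => hd (T.rel_refl h.1)
    simp [this]

open Classical in
/-- Sum over pairwise inequivalent darts of the squared class values. -/
theorem sum_cls_le [Fintype D] (σ : V → Bool) (Θ : D → ℂ) (F : Finset D)
    (hF : ∀ d ∈ F, ∀ e ∈ F, T.Rel σ d e → d = e) (hF' : ∀ d ∈ F, T.Mi σ d) :
    ∑ d ∈ F, ‖T.cls σ d Θ‖ ^ 2 ≤
      (∑ d, ∑ e, (if T.Rel σ d e then Θ d * conj (Θ e) else 0)).re := by
  rw [energy_eq_sum, Complex.ofReal_re]
  have h1 : ∀ d ∈ F, ‖T.cls σ d Θ‖ ^ 2 =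
      ∑ e, if T.Rel σ e d then ‖T.cls σ e Θ‖ ^ 2 / ncl T σ e else 0 := by
    intro d hd
    have hdd : T.Rel σ d d := T.rel_refl (hF' d hd)
    have : ∀ e, (if T.Rel σ e d then ‖T.cls σ e Θ‖ ^ 2 / ncl T σ e else 0) =
        (if T.Rel σ e d then (1 : ℝ) else 0) * (‖T.cls σ d Θ‖ ^ 2 / ncl T σ d) := by
      intro e
      split_ifs with hh
      · rw [cls_congr T hh, ncl_congr T hh, one_mul]
      · ring
    rw [Finset.sum_congr rfl (fun e _ => this e), ← Finset.sum_mul]
    change _ = ncl T σ d * _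
    rw [mul_div_assoc', mul_comm (ncl T σ d), mul_div_assoc, div_self (ncl_pos T hdd).ne', mul_one]
  rw [Finset.sum_congr rfl h1, Finset.sum_comm]
  apply Finset.sum_le_sum
  intro e _
  have hn0 : 0 ≤ ‖T.cls σ e Θ‖ ^ 2 / ncl T σ e := div_nonneg (by positivity) (ncl_nonneg T σ e)
  by_cases hex : ∃ d ∈ F, T.Rel σ e d
  · obtain ⟨d, hd, hed⟩ := hex
    have hee : T.Rel σ e e := T.rel_refl hed.1
    rw [if_pos hee]
    have : ∀ d' ∈ F, d' ≠ d → (if T.Rel σ e d' then ‖T.cls σ e Θ‖ ^ 2 / ncl T σ e else 0) = 0 := by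
      intro d' hd' hne
      rw [if_neg]
      intro h
      exact hne (hF d' hd' d hd (T.rel_trans (T.rel_symm h) hed))
    rw [Finset.sum_eq_single_of_mem d hd this, if_pos hed]
  · push Not at hex
    rw [Finset.sum_eq_zero (fun d hd => if_neg (hex d hd))]
    split_ifs
    · exact hn0
    · exact le_rfl

end Vale.Agent.P148.R2.H609
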