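import Vale.Agent.P148.R2.H609.NB1

/-!
Excursions of strands away from a vertex `b`. `q d` is the value of a real function at the actual
tail of the dart `d`; it may vary on the (contracted) fibre of `b`.
-/

namespace Vale.Agent.P148.R2.H609

open Function ComplexConjugate
open Vale.Agent.P148.R2.H258 Vale.Agent.P148.R2.H258.Tri

variable {V D : Type*} (T : Tri V D)

/-- The weight of a function given on darts by its values at actual tails. -/
noncomputable def QW (τ : ℂ) (q : D → ℝ) (d : D) : ℂ :=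
  (q (T.nxt d) : ℂ) + τ * (q (T.nxt (T.nxt d)) : ℂ) + τ ^ 2 * (q d : ℂ)

open Classical in
/-- The same weight, put to zero on darts of faces with a repeated corner. -/
noncomputable def QG (τ : ℂ) (q : D → ℝ) (d : D) : ℂ := if T.Good d then QW T τ q d else 0

theorem QW_nxt {τ : ℂ} (hτ : τ ^ 2 + τ + 1 = 0) (q : D → ℝ) (d : D) :
    QW T τ q (T.nxt d) = τ ^ 2 * QW T τ q d := by
  have h3 := tau_pow_three hτ
  unfold QW
  rw [T.nxt3]
  linear_combination (-(q (T.nxt (T.nxt d)) : ℂ) - τ * (q d : ℂ)) * h3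

theorem good_nxt_iff {d : D} : T.Good (T.nxt d) ↔ T.Good d := by
  constructor
  · intro h
    have := h.nxt.nxt
    rwa [T.nxt3] at this
  · exact fun h => h.nxt

theorem QG_nxt {τ : ℂ} (hτ : τ ^ 2 + τ + 1 = 0) (q : D → ℝ) (d : D) :
    QG T τ q (T.nxt d) = τ ^ 2 * QG T τ q d := by
  unfold QG
  by_cases h : T.Good d
  · rw [if_pos h, if_pos h.nxt, QW_nxt T hτ]
  · rw [if_neg h, if_neg (fun h' => h ((good_nxt_iff T).1 h')), mul_zero]

theorem QW_sub {τ : ℂ} (hτ : τ ^ 2 + τ + 1 = 0) (q : D → ℝ) (d : D) :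
    QW T τ q d - conj (QW T τ q d) = (τ - τ ^ 2) * ((q (T.nxt (T.nxt d)) : ℂ) - (q d : ℂ)) := by
  have hc := conj_tau hτ
  have h3 := tau_pow_three hτ
  unfold QW
  simp only [map_add, map_mul, map_pow, hc, Complex.conj_ofReal]
  linear_combination (-(q d : ℂ) * τ) * h3

theorem normSq_tau {τ : ℂ} (hτ : τ ^ 2 + τ + 1 = 0) : ‖τ - τ ^ 2‖ ^ 2 = 3 := by
  have hc := conj_tau hτ
  have h3 := tau_pow_three hτ
  have h : ((‖τ - τ ^ 2‖ ^ 2 : ℝ) : ℂ) = 3 := by
    have : ((‖τ - τ ^ 2‖ ^ 2 : ℝ) : ℂ) = (τ - τ ^ 2) * conj (τ - τ ^ 2) := by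
      rw [Complex.mul_conj, Complex.normSq_eq_norm_sq]
    rw [this, map_sub, map_pow, hc]
    linear_combination (2 - τ - τ ^ 2 + τ ^ 3) * h3 - hτ
  exact_mod_cast h

/-- Displacement of the class of `d`. -/
noncomputable def disp [Fintype D] (σ : V → Bool) (q : D → ℝ) (d : D) : ℝ :=
  open Classical in ∑ e, if T.Rel σ e d then q (T.nxt (T.nxt e)) - q e else 0

theorem good_of_rel [Finite D] (hP : T.Planar) {σ : V → Bool} {d e : D} (hd : T.Mi σ d)
    (hg : T.apex d ≠ T.src d) (h : T.Rel σ e d) : T.Good e := by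
  obtain ⟨m, f, -, -, -, -, -, h6, h7⟩ := T.class_cycle hP hd hg
  obtain ⟨i, hi, rfl⟩ := (h6 e).1 (T.rel_symm h)
  have hm : T.Mi σ (f i) := h.1
  refine ⟨fun hh => hm.1 (by rw [hh]), fun hh => hm.1 (by rw [hh, hm.2]), h7 i hi⟩

/-- The class value controls the displacement. -/
theorem disp_sq_le [Fintype D] (hP : T.Planar) {τ : ℂ} (hτ : τ ^ 2 + τ + 1 = 0) (q : D → ℝ)
    {σ : V → Bool} {d : D} (hd : T.Mi σ d) (hg : T.apex d ≠ T.src d) :
    3 * disp T σ q d ^ 2 ≤ 4 * ‖T.cls σ d (QG T τ q)‖ ^ 2 := by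
  classical
  have h1 : T.cls σ d (QG T τ q) - conj (T.cls σ d (QG T τ q)) = (τ - τ ^ 2) * disp T σ q d := by
    unfold cls disp
    rw [map_sum, ← Finset.sum_sub_distrib]
    push_cast
    rw [Finset.mul_sum]
    apply Finset.sum_congr rfl
    intro e _
    split_ifs with hh
    · have hG := good_of_rel T hP hd hg hh
      unfold QG
      rw [if_pos hG, QW_sub T hτ]
      push_cast; ring
    · simp
  have h2 : ‖(τ - τ ^ 2) * (disp T σ q d : ℂ)‖ ≤ 2 * ‖T.cls σ d (QG T τ q)‖ := by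
    rw [← h1]
    refine (norm_sub_le _ _).trans ?_
    rw [Complex.norm_conj]; linarith
  have h3 : ‖(τ - τ ^ 2) * (disp T σ q d : ℂ)‖ ^ 2 = 3 * disp T σ q d ^ 2 := by
    rw [norm_mul, mul_pow, normSq_tau hτ, Complex.norm_real, Real.norm_eq_abs, sq_abs]
  rw [← h3]
  have h4 := pow_le_pow_left₀ (norm_nonneg _) h2 2
  linarith [mul_pow (2 : ℝ) ‖T.cls σ d (QG T τ q)‖ 2]

/-- Displacement of the class of a dart leaving `b`, at the first return to `b`. -/
theorem disp_excursion [Fintype D] (hP : T.Planar) {σ : V → Bool} {b : V} {q : D → ℝ}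
    (hq1 : ∀ d, q (T.rev d) = q (T.nxt d)) (hq2 : ∀ d e, T.src d = T.src e → T.src d ≠ b → q d = q e)
    {d : D} (hd : T.Mi σ d) (hb : T.src d = b) (hg : T.apex d ≠ b) {n : ℕ} (hn1 : 1 ≤ n)
    (hn : T.src ((T.st σ)^[n] d) = b) (hmin : ∀ k, 1 ≤ k → k < n → T.src ((T.st σ)^[k] d) ≠ b) :
    disp T σ q d = q ((T.st σ)^[n] d) - q d := by
  classical
  obtain ⟨m, f, hm1, h0, hm, hstep, hinj, hrel, hna⟩ := T.class_cycle hP hd (by rwa [hb])
  have hset : ∀ g : D → ℝ, (∑ e, if T.Rel σ e d then g e else 0) = ∑ i ∈ Finset.range m, g (f i) := by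
    intro g
    have : (Finset.univ.filter (fun e => T.Rel σ e d)) = (Finset.range m).image f := by
      ext e
      simp only [Finset.mem_filter, Finset.mem_univ, true_and, Finset.mem_image, Finset.mem_range]
      constructor
      · intro h
        obtain ⟨i, hi, h2⟩ := (hrel e).1 (T.rel_symm h)
        exact ⟨i, hi, h2.symm⟩
      · rintro ⟨i, hi, rfl⟩
        exact T.rel_symm ((hrel _).2 ⟨i, hi, rfl⟩)
    rw [← Finset.sum_filter, this, Finset.sum_image]
    intro i hi k hk hik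
    have hi' : i < m := Finset.mem_range.1 hi
    have hk' : k < m := Finset.mem_range.1 hk
    exact hinj i hi' k hk' (by rw [show f i = f k from hik])
  have hns : ∀ i, 1 ≤ i → i < m → T.src (f i) ≠ b := by
    intro i hi1 hi hh
    have := hinj i hi 0 (by omega) (by rw [hh, h0, hb])
    omega
  have htel : ∀ k, k < m → ∑ i ∈ Finset.range k, (q (T.nxt (T.nxt (f i))) - q (f i)) =
      q (f k) - q (f 0) := by
    intro k
    induction k with
    | zero => intro _; simp
    | succ k ih =>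
      intro hk
      rw [Finset.sum_range_succ, ih (by omega)]
      have h1 : T.src (T.nxt (T.nxt (f k))) = T.src (f (k + 1)) := by
        rw [src_nxt2, hstep k (by omega)]
      have h2 := hq2 _ _ h1 (by rw [h1]; exact hns _ (by omega) hk)
      rw [h2]; ring
  unfold disp
  rw [hset, show m = (m - 1) + 1 by omega, Finset.sum_range_succ, htel (m - 1) (by omega), h0]
  -- the last member
  have hlast : T.Rel σ d (f (m - 1)) := (hrel _).2 ⟨m - 1, by omega, rfl⟩
  obtain ⟨-, hmi, p, hp, hpe, hdis⟩ := hlast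
  have hap : T.apex (f (m - 1)) = b := by
    have := hstep (m - 1) (by omega)
    rw [Nat.sub_add_cancel hm1, hm, hb] at this
    exact this.symm
  have hsp : T.src ((T.st σ)^[p + 1] d) = b := by
    rw [iterate_succ', comp_apply, hpe, T.src_st_mi hmi, hap]
  have hpn : n ≤ p + 1 := by
    by_contra hc
    push Not at hc
    exact hmin (p + 1) (by omega) hc hsp
  have hpn2 : p < n := by
    by_contra hc
    push Not at hc
    have := hdis n (minimalPeriod (T.st σ) d) hn1 hc hp le_rfl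
    rw [hn, iterate_minimalPeriod, hb] at this
    exact this rfl
  have hpn3 : n = p + 1 := by omega
  rw [hpn3, iterate_succ', comp_apply, hpe, T.st_mi hmi, hq1]
  ring

open Classical in
/-- Mean energy of the displacements of all excursions from `b`. -/
theorem excursion_energy [Fintype D] [Fintype V] (hP : T.Planar) {τ : ℂ}
    (hτ : τ ^ 2 + τ + 1 = 0) (b : V) (q : D → ℝ) :
    3 * ∑ σ : V → Bool, ∑ d ∈ Finset.univ.filter (fun d => T.Mi σ d ∧ T.src d = b ∧ T.apex d ≠ b),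
      disp T σ q d ^ 2 ≤ 2 ^ Fintype.card V * ∑ d, ‖QG T τ q d‖ ^ 2 := by
  have h1 : ∀ σ : V → Bool,
      3 * ∑ d ∈ Finset.univ.filter (fun d => T.Mi σ d ∧ T.src d = b ∧ T.apex d ≠ b),
        disp T σ q d ^ 2 ≤
      4 * (∑ d, ∑ e, (if T.Rel σ d e then QG T τ q d * conj (QG T τ q e) else 0)).re := by
    intro σ
    set F := Finset.univ.filter (fun d => T.Mi σ d ∧ T.src d = b ∧ T.apex d ≠ b) with hF
    have hF1 : ∀ d ∈ F, T.Mi σ d ∧ T.src d = b ∧ T.apex d ≠ b := by
      intro d hd; simpa [hF] using hd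
    have h2 := sum_cls_le T σ (QG T τ q) F ?_ (fun d hd => (hF1 d hd).1)
    · rw [Finset.mul_sum]
      calc ∑ d ∈ F, 3 * disp T σ q d ^ 2 ≤ ∑ d ∈ F, 4 * ‖T.cls σ d (QG T τ q)‖ ^ 2 := by
            apply Finset.sum_le_sum
            intro d hd
            obtain ⟨a1, a2, a3⟩ := hF1 d hd
            exact disp_sq_le T hP hτ q a1 (by rw [a2]; exact a3)
        _ = 4 * ∑ d ∈ F, ‖T.cls σ d (QG T τ q)‖ ^ 2 := by rw [Finset.mul_sum]
        _ ≤ _ := by linarith
    · intro d hd e he hde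
      obtain ⟨a1, a2, a3⟩ := hF1 d hd
      obtain ⟨c1, c2, c3⟩ := hF1 e he
      obtain ⟨m, f, hm1, h0, -, -, hinj, hrel, -⟩ := T.class_cycle hP a1 (by rwa [a2])
      obtain ⟨i, hi, rfl⟩ := (hrel e).1 hde
      have := hinj i hi 0 (by omega) (by rw [c2, h0, a2])
      rw [this, h0]
  have h3 := T.energy hP hτ (Θ := QG T τ q) (Θ' := QG T τ q) (QG_nxt T hτ q) (QG_nxt T hτ q)
    (fun d hd => by unfold QG; rw [if_neg hd])
  have h4 : (4 * ∑ σ : V → Bool, ∑ d, ∑ e,
      (if T.Rel σ d e then QG T τ q d * conj (QG T τ q e) else 0)).re =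
      2 ^ Fintype.card V * ∑ d, ‖QG T τ q d‖ ^ 2 := by
    rw [h3]
    have : (2 ^ Fintype.card V * ∑ d, QG T τ q d * conj (QG T τ q d) : ℂ) =
        ((2 ^ Fintype.card V * ∑ d, ‖QG T τ q d‖ ^ 2 : ℝ) : ℂ) := by
      push_cast
      congr 1
      apply Finset.sum_congr rfl
      intro d _
      rw [Complex.mul_conj, Complex.normSq_eq_norm_sq]
      push_cast; rfl
    rw [this, Complex.ofReal_re]
  rw [← h4, Finset.mul_sum]
  calc ∑ σ : V → Bool, 3 * ∑ d ∈ Finset.univ.filter (fun d => T.Mi σ d ∧ T.src d = b ∧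
        T.apex d ≠ b), disp T σ q d ^ 2
      ≤ ∑ σ : V → Bool, 4 * (∑ d, ∑ e,
        (if T.Rel σ d e then QG T τ q d * conj (QG T τ q e) else 0)).re :=
        Finset.sum_le_sum (fun σ _ => h1 σ)
    _ = _ := by
        rw [← Finset.mul_sum, ← Complex.re_sum]
        simp

end Vale.Agent.P148.R2.H609
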