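import Vale.Agent.P148.R2.H609.SfR
import Vale.Agent.P148.R2.H172.Sc2

/-!
# Rows sf and cnt from frames

* `cyP_base` : the vertices of the main cycle between two gates, from the loop based at another gate
* `ringV_of_frame` : the ring of arcs of a frame
* `hring_of_frame` : the hypothesis of `sf_rowV`, from frames with high probability
-/

set_option linter.unusedSectionVars false

open Set Metric Topology Filter Function
open scoped Classical ENNReal NNReal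

namespace Vale.Agent.P148.R2.H609

open H592 H184 H203 _root_.P148 _root_.P148.H729 Vale.Agent.P148.R2.H258
open Vale.Agent.P148.R2.H258.Tri
open Vale.Agent.P148.R2.H995 (nsup)
open Vale.Agent.P148.R2.H566 (W0 AScene Ev Asq)
open Vale.Agent.P148.R2.H871 (per src0)
open Vale.Agent.P148.R2.H659 (Loop)
open Vale.Agent.P148.R2.H172 (Frame nA ga)
open Vale.Agent.P148.R2.N (ms nc ms_pos)

universe u

variable {w : W0}

section Base

variable {x₀ : w.X} {col : w.X → Bool} {o : w.D} {n n' : ℕ} {c c' : ℕ → w.D} {t t' : ℕ → ℕ}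

/-- The vertices of the main cycle, by times. -/
theorem mem_cyP_iff (hL : Loop (TP w x₀) (piX w) w.O col o n c t) {a b : ℕ}
    (hb : b ≤ per (TP w x₀) col o) {x : ℂ} :
    x ∈ cyP c t n a b ↔ ∃ m, a ≤ m ∧ m < b ∧
      (TP w x₀).Rel col (c 0) (((TP w x₀).st col)^[m] o) ∧
        tail (((TP w x₀).st col)^[m] o) = x := by
  constructor
  · rintro ⟨k, hk, h1, h2, h3⟩
    exact ⟨t k, h1, h2, by rw [hL.hit k hk]; exact hL.mem k hk, by rw [hL.hit k hk]; exact h3⟩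
  · rintro ⟨m, h1, h2, h3, h4⟩
    obtain ⟨k, hk, hkm⟩ := hL.all m (h2.trans_le hb) h3
    refine ⟨k, hk, by rw [hkm]; exact h1, by rw [hkm]; exact h2, ?_⟩
    rw [← h4, ← hkm, hL.hit k hk]

/-- The loop based at a later time sees the same vertices. -/
theorem cyP_base (hL : Loop (TP w x₀) (piX w) w.O col o n c t) {s : ℕ}
    (hL' : Loop (TP w x₀) (piX w) w.O col (((TP w x₀).st col)^[s] o) n' c' t')
    (hrel : (TP w x₀).Rel col (c 0) (c' 0)) {a b : ℕ} (ha : s ≤ a)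
    (hb : b ≤ per (TP w x₀) col o) (hb' : b - s ≤ per (TP w x₀) col (((TP w x₀).st col)^[s] o)) :
    cyP c' t' n' (a - s) (b - s) = cyP c t n a b := by
  ext x
  rw [mem_cyP_iff hL hb, mem_cyP_iff hL' hb']
  constructor
  · rintro ⟨m, h1, h2, h3, h4⟩
    rw [← Function.iterate_add_apply] at h3 h4
    exact ⟨m + s, by omega, by omega, (TP w x₀).rel_trans hrel h3, h4⟩
  · rintro ⟨m, h1, h2, h3, h4⟩
    refine ⟨m - s, by omega, by omega, ?_, ?_⟩
    · rw [← Function.iterate_add_apply, Nat.sub_add_cancel (by omega)]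
      exact (TP w x₀).rel_trans ((TP w x₀).rel_symm hrel) h3
    · rw [← Function.iterate_add_apply, Nat.sub_add_cancel (by omega)]
      exact h4

end Base

/-- **The ring of arcs of a frame.** -/
theorem ringV_of_frame {N M : ℕ} {x₀ : w.X} {col : w.X → Bool} (F : Frame M w x₀ col)
    {κ' : Type*} {Arc : κ' → Set w.D} {T : Set Pt} {η : ℝ} (hM : 0 < M)
    (hN : 4 * (N + 1) ≤ 2 * M + 1) (hη : 12 / (N + 1) + 13 / 2 * ms M ≤ η)
    (agree : w.X ∩ ball 0 4 = pts T ∩ ball 0 4)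
    (free : ∀ x ∈ w.X, x ∈ Asq → x ∉ w.B) (out : (w.B \ ball 0 4).Nonempty)
    (hfree : ∀ x y, w.Free x → w.Free y →
      Relation.ReflTransGen (fun a b => nbr w.X a b ∧ a ∉ w.B ∧ b ∉ w.B) x y)
    (hArc : ∀ j < nA N, ∃ k, Arc k = Bq w (F.P (ga N M j) (ga N M (j + 1)))) :
    RingV w Arc T η := by
  refine ⟨agree, free, out, nA N, inferInstance, _, F.ringOK hM hN hfree hη, ?_, ?_⟩
  · intro j x hx
    obtain ⟨h1, h2⟩ := F.nsup_P hM hx
    have h2M : (M : ℝ) * ms M = 1 := Vale.Agent.P148.R2.N.M_mul_ms hM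
    have h4 := ms_pos hM
    have h5 : (2 : ℝ) ≤ M := by
      have : 2 ≤ M := by omega
      exact_mod_cast this
    have h3 : ms M ≤ 1 / 2 := by nlinarith
    constructor
    · linarith
    · linarith
  · intro j
    exact hArc j.val (ZMod.val_lt j)

/-- The facts about a world, besides its frame, which are used for rows sf and cnt. -/
structure WBase (w : W0) (T : Set Pt) : Prop where
  agree : w.X ∩ ball 0 4 = pts T ∩ ball 0 4
  free : ∀ x ∈ w.X, x ∈ Asq → x ∉ w.B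
  out : (w.B \ ball 0 4).Nonempty
  path : ∀ x y, w.Free x → w.Free y →
    Relation.ReflTransGen (fun a b => nbr w.X a b ∧ a ∉ w.B ∧ b ∉ w.B) x y

/-- The world `w` with arcs `Arc` has a frame whose arcs are in `Arc`. -/
def FrameV (N M : ℕ) (w : W0) {κ' : Type*} (Arc : κ' → Set w.D) (T : Set Pt) : Prop :=
  WBase w T ∧ ∃ (x₀ : w.X) (col : w.X → Bool) (F : Frame M w x₀ col),
    ∀ j < nA N, ∃ k, Arc k = Bq w (F.P (ga N M j) (ga N M (j + 1)))

theorem FrameV.ringV {N M : ℕ} {κ' : Type*} {Arc : κ' → Set w.D} {T : Set Pt}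
    (h : FrameV N M w Arc T) {η : ℝ} (hM : 0 < M) (hN : 4 * (N + 1) ≤ 2 * M + 1)
    (hη : 12 / (N + 1) + 13 / 2 * ms M ≤ η) : RingV w Arc T η := by
  obtain ⟨h1, x₀, col, F, h2⟩ := h
  exact ringV_of_frame F hM hN hη h1.agree h1.free h1.out h1.path h2

/-- **The hypothesis of row sf**, from frames. -/
theorem hring_of_frame {κ : ℕ → Type} {sc : ∀ N : ℕ, ℕ → Set Pt → AScene (κ N)}
    (h : ∀ N, ∀ᶠ M in atTop, Ev.{u} fun T =>
      ∀ i, (sc N M T).p i ≠ 0 → FrameV N M ((sc N M T).w i) ((sc N M T).Arc i) T) :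
    ∀ η : ℝ, 0 < η → ∃ N, ∀ᶠ M in atTop, Ev.{u} fun T =>
      ∀ i, (sc N M T).p i ≠ 0 → RingV ((sc N M T).w i) ((sc N M T).Arc i) T η := by
  intro η hη
  obtain ⟨N, hN⟩ := exists_nat_gt (24 / η)
  obtain ⟨M₀, hM₀⟩ := exists_nat_gt (13 / η)
  refine ⟨N, ?_⟩
  filter_upwards [h N, eventually_ge_atTop (max M₀ (4 * (N + 1)))] with M hM hMM
  refine hM.mono fun T hT i hi => ?_
  have h1 : M₀ ≤ M := (le_max_left _ _).trans hMM
  have h2 : 4 * (N + 1) ≤ M := (le_max_right _ _).trans hMM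
  have hM0 : 0 < M := by omega
  refine (hT i hi).ringV hM0 (by omega) ?_
  have h3 : (12 : ℝ) / (N + 1) ≤ η / 2 := by
    rw [div_lt_iff₀ hη] at hN
    rw [div_le_iff₀ (by positivity)]
    nlinarith
  have h4 : 13 / 2 * ms M ≤ η / 2 := by
    have h2M : (M : ℝ) * ms M = 1 := Vale.Agent.P148.R2.N.M_mul_ms hM0
    have h5 : (M₀ : ℝ) ≤ M := by exact_mod_cast h1
    rw [div_lt_iff₀ hη] at hM₀
    have h6 := ms_pos hM0
    have h7 : 13 * ms M ≤ (M : ℝ) * η * ms M :=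
      mul_le_mul_of_nonneg_right (hM₀.le.trans (mul_le_mul_of_nonneg_right h5 hη.le)) h6.le
    have h8 : (M : ℝ) * η * ms M = η := by
      calc (M : ℝ) * η * ms M = (M * ms M) * η := by ring
        _ = η := by rw [h2M, one_mul]
    linarith
  linarith

/-- **Row sf**, from frames. -/
theorem sf_of_frame {τ : ℂ} {κ₀ : ℝ} {Θ : Dt → ℂ} (hΘ : Wt τ κ₀ Θ)
    {κ : ℕ → Type} {sc : ∀ N : ℕ, ℕ → Set Pt → AScene (κ N)}
    (hsum : ∀ N, ∀ᶠ M in atTop, Ev.{u} fun T => ∑ i, (sc N M T).p i = 1)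
    (h : ∀ N, ∀ᶠ M in atTop, Ev.{u} fun T =>
      ∀ i, (sc N M T).p i ≠ 0 → FrameV N M ((sc N M T).w i) ((sc N M T).Arc i) T) :
    ∀ ε : ℝ, 0 < ε → ∃ N, ∀ᶠ M in atTop, Ev.{u} fun T =>
      (sc N M T).mnA (sc N M T).scl Θ ≤ ENNReal.ofReal ε :=
  sf_rowV hΘ κ sc hsum (hring_of_frame h)

/-- **Row cnt**, from frames. -/
theorem cnt_of_frame {κ : ℕ → Type} {sc : ∀ N : ℕ, ℕ → Set Pt → AScene (κ N)}
    (h : ∀ N, ∀ᶠ M in atTop, Ev.{u} fun T =>
      ∀ i, (sc N M T).p i ≠ 0 → FrameV N M ((sc N M T).w i) ((sc N M T).Arc i) T) :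
    ∀ N, ∃ C : ℝ≥0, ∀ᶠ M in atTop, Ev.{u} fun T => ∀ i, (sc N M T).p i ≠ 0 → ∀ J,
      ((sc N M T).w i).msum ((sc N M T).Arc i J) (fun _ _ => 1) ≤ C := by
  refine cnt_row κ sc fun N => ?_
  filter_upwards [h N, eventually_ge_atTop (4 * (N + 1))] with M hM hMM
  refine hM.mono fun T hT i hi => ?_
  exact ((hT i hi).ringV (by omega) (by omega) le_rfl).cnW

end Vale.Agent.P148.R2.H609
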