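import Vale.Agent.P148.R2.H609.Row
import Vale.Agent.P148.R2.H172.Sc4
import Vale.Agent.P148.R2.H678.Br2
import Vale.Agent.P148.R2.H112.Frame3

/-!
# The worlds of the scene of the comb have frames

`frameV_sc` : `FrameV` for every world of positive weight of `H172.sc`.
-/

set_option linter.unusedSectionVars false

open Set Metric Topology Filter Function
open scoped Classical ENNReal NNReal

namespace Vale.Agent.P148.R2.H609

open H592 H184 H203 _root_.P148 _root_.P148.H729 Vale.Agent.P148.R2.H258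
open Vale.Agent.P148.R2.H258.Tri
open Vale.Agent.P148.R2.H995 (nsup)
open Vale.Agent.P148.R2.H566 (W0 AScene Ev Asq)
open Vale.Agent.P148.R2.H291 (SiteOK site bR norm_bR nsup_bR)
open Vale.Agent.P148.R2.H172 (Frame nA ga sc fsc fscOf frm mc xb pw_ne combLaw arcO exists_frm)
open Vale.Agent.P148.R2.N (ms nc ms_pos)

universe u

variable {M : ℕ} {T : Set Pt}

theorem wbase_wd (hM0 : 0 < M) (hM : 2 ≤ M) (hS : SiteOK T 9 (ms M / 1000))
    [Fintype (site T 9)] {c₁ c₂ : site T 9 → Bool}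
    (hA : (combLaw hM0 (site T 9) (Subtype.val : site T 9 → ℂ)).A0 c₁ c₂) :
    WBase (H678.wd hS.hull M (H678.cw M c₁ c₂)) T := by
  have hF := H678.wd_site hS (by norm_num) hM0 hA
  have hms := ms_pos hM0
  have hms2 : ms M ≤ 1 / 2 := by
    have h3 : (M : ℝ) * ms M = 1 := Vale.Agent.P148.R2.N.M_mul_ms hM0
    have h4 : (2 : ℝ) ≤ M := by exact_mod_cast hM
    nlinarith
  refine ⟨?_, ?_, ?_, ?_⟩
  · exact hS.agree (ball_subset_ball (by norm_num))
  · intro x hx hxA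
    refine hF.ball_free (15 / 16) (by linarith) x hx ?_
    have h1 := nsup_Asq hxA
    have h2 : |x.re| ≤ 1 / 2 := (le_max_left _ _).trans h1
    have h3 : |x.im| ≤ 1 / 2 := (le_max_right _ _).trans h1
    rw [mem_ball_zero_iff]
    have h4 : ‖x‖ ^ 2 = x.re ^ 2 + x.im ^ 2 := by
      rw [Complex.sq_norm, Complex.normSq_apply]
      ring
    have h5 : x.re ^ 2 ≤ (1 / 2) ^ 2 := sq_le_sq' (by linarith [(abs_le.1 h2).1]) (abs_le.1 h2).2
    have h6 : x.im ^ 2 ≤ (1 / 2) ^ 2 := sq_le_sq' (by linarith [(abs_le.1 h3).1]) (abs_le.1 h3).2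
    nlinarith [norm_nonneg x]
  · refine ⟨bR 9 0, hF.hull 0, ?_⟩
    rw [mem_ball_zero_iff, norm_bR (by norm_num)]
    norm_num
  · intro x y hx hy
    exact hF.free_conn x hx.1 hx.2 y hy.1 hy.2

/-- **The worlds of positive weight of the scene of the comb have frames.** -/
theorem frameV_sc (hM : 8 ≤ M) (hS : SiteOK T 9 (ms M / 1000)) (N : ℕ) :
    ∀ i, (sc N M T).p i ≠ 0 → FrameV N M ((sc N M T).w i) ((sc N M T).Arc i) T := by
  have hM0 : 0 < M := by omega
  have e : sc N M T = (fscOf hM0 hS.hull).toA N := by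
    unfold sc
    rw [H172.fsc_eq hM0 hS]
  rw [e]
  intro i hi
  let _ : Fintype (site T 9) := H172.fX hS.hull
  have hA : (combLaw hM0 (site T 9) (Subtype.val : site T 9 → ℂ)).A0 i.1 i.2 := pw_ne _ hi
  have hb : ∀ j, 3 / 2 ≤ nsup (bR 9 j) := fun j => by
    have := nsup_bR (R := 9) (by norm_num) j
    linarith
  obtain ⟨F, hF0, hF⟩ := H112.frame_rf hM0 hS.hull hM hb (H678.center_site hS) hA (xb hS.hull)
  obtain ⟨F', hF'⟩ := exists_frm (h := hS.hull) (M := M) (σ := mc M (site T 9) i) ⟨F, hF⟩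
  refine ⟨wbase_wd hM0 (by omega) hS hA, xb hS.hull, mc M (site T 9) i, F', ?_⟩
  intro j hj
  refine ⟨⟨j, hj⟩, ?_⟩
  show arcO N j (frm hS.hull M (mc M (site T 9) i)) = _
  rw [hF']
  rfl

/-- Frames with high probability. -/
theorem frameV_ev : ∀ N, ∀ᶠ M in atTop, Ev.{u} fun T =>
    ∀ i, (sc N M T).p i ≠ 0 → FrameV N M ((sc N M T).w i) ((sc N M T).Arc i) T := by
  intro N
  filter_upwards [eventually_ge_atTop 8] with M hM
  have hM0 : 0 < M := by omega
  have hms := ms_pos hM0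
  have h1 : ms M ≤ 1 := Vale.Agent.P148.R2.N.ms_le_one
  exact (H291.ev_siteOK (R := 9) (s := ms M / 1000) (by norm_num) (by positivity)
    (by linarith)).mono fun T hT => frameV_sc hM hT N

/-- The weights have sum `1`. -/
theorem sum_p_ev : ∀ N, ∀ᶠ M in atTop, Ev.{u} fun T => ∑ i, (sc N M T).p i = 1 := by
  intro N
  obtain ⟨c, hc, h⟩ := H172.comb_law_site.{u, 0}
  filter_upwards [eventually_ge_atTop 1] with M hM
  have hM0 : 0 < M := by omega
  have hms := ms_pos hM0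
  have h1 : ms M ≤ 1 := Vale.Agent.P148.R2.N.ms_le_one
  refine ((H291.ev_siteOK (R := 9) (s := ms M / 1000) (by norm_num) (by positivity)
    (by linarith)).and (h M hM0 9 (by norm_num))).mono ?_
  rintro T ⟨hS, hT⟩
  have e : sc N M T = (fscOf hM0 hS.hull).toA N := by
    unfold sc
    rw [H172.fsc_eq hM0 hS]
  rw [e]
  let _ : Fintype (site T 9) := H172.fX hS.hull
  obtain ⟨h2, h3⟩ := hT (site T 9) Subtype.val Subtype.val_injective (by
    rw [Subtype.range_coe]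
    exact hS.agree (ball_subset_ball (by norm_num)))
  exact H172.sum_pw (H172.gX hM0 (site T 9)) hc h2 h3

/-- **Row sf.** -/
theorem row_sf {τ : ℂ} {κ₀ : ℝ} {Θ : Dt → ℂ} (hΘ : Wt τ κ₀ Θ) :
    ∀ ε : ℝ, 0 < ε → ∃ N, ∀ᶠ M in atTop, Ev.{u} fun T =>
      (sc N M T).mnA (sc N M T).scl Θ ≤ ENNReal.ofReal ε :=
  sf_of_frame hΘ sum_p_ev frameV_ev

/-- **Row cnt.** -/
theorem row_cnt : ∀ N, ∃ C : ℝ≥0, ∀ᶠ M in atTop, Ev.{u} fun T => ∀ i, (sc N M T).p i ≠ 0 →
    ∀ J, ((sc N M T).w i).msum ((sc N M T).Arc i J) (fun _ _ => 1) ≤ C :=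
  cnt_of_frame frameV_ev

end Vale.Agent.P148.R2.H609
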