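import Vale.Agent.P148.R2.H609.NB3
import Vale.Agent.P148.R2.H838.X3

/-!
# Small footprint, part 1: a strand explored from its start in both directions

`d` is a dart; its strand is explored forward and backward (= the strand of `rev d`) until it looks
at the far set `Λ`.  The explored left vertices are glued to `src d`, the explored right vertices to
`tgt d`.  In the contraction the far part of the class of `d` is one class; hence the conditional
energy bound.
-/

namespace Vale.Agent.P148.R2.H609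

open Function ComplexConjugate
open Vale.Agent.P148.R2.H258 Vale.Agent.P148.R2.H258.Tri Vale.Agent.P148.R2.H532
open Vale.Agent.P148.R2.H838

variable {V D : Type*} {T : Tri V D}

/-- The strand of `rev d` is the reversed strand of `d`. -/
theorem rev_iter [Finite D] (σ : V → Bool) (d : D) {j : ℕ} (hj : j ≤ minimalPeriod (T.st σ) d) :
    (T.st σ)^[j] (T.rev d) = T.rev ((T.st σ)^[minimalPeriod (T.st σ) d - j] d) := by
  induction j with
  | zero => rw [Nat.sub_zero, iterate_minimalPeriod]; rfl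
  | succ j ih =>
    rw [iterate_succ', comp_apply, ih (by omega)]
    have e : minimalPeriod (T.st σ) d - j = (minimalPeriod (T.st σ) d - (j + 1)) + 1 := by omega
    rw [e, iterate_succ', comp_apply, T.st_rev_st]

/-- Walks along a sequence of consecutive neighbours. -/
theorem seq_joined {σ : V → Bool} {c : Bool} {x : ℕ → V} {F : Set V}
    (hadj : ∀ k, x (k + 1) = x k ∨ ∃ g, T.src g = x (k + 1) ∧ T.tgt g = x k)
    (hc : ∀ k, σ (x k) = c) {t : ℕ} (hF : ∀ k ≤ t, x k ∈ F) :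
    ∀ k ≤ t, Joined T σ c F (x k) (x 0) := by
  intro k
  induction k with
  | zero => intro h; exact H838.Joined.refl (hF 0 h) (hc 0)
  | succ k ih =>
    intro h
    have h1 := ih (by omega)
    rcases hadj k with h2 | ⟨g, h2, h3⟩
    · rw [h2]; exact h1
    · exact h1.cons h2 h3 (hF _ h) (hc _)

variable (T)

/-- Explored left vertices. -/
def BL (σ : V → Bool) (d : D) (t s : ℕ) : Set V :=
  {v | (∃ i ≤ t, T.src ((T.st σ)^[i] d) = v) ∨ ∃ j ≤ s, T.tgt ((T.st σ)^[j] (T.rev d)) = v}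

/-- Explored right vertices. -/
def BR (σ : V → Bool) (d : D) (t s : ℕ) : Set V :=
  {v | (∃ i ≤ t, T.tgt ((T.st σ)^[i] d) = v) ∨ ∃ j ≤ s, T.src ((T.st σ)^[j] (T.rev d)) = v}

open Classical in
/-- The contraction of the two explored sides. -/
noncomputable def pm (σ : V → Bool) (d : D) (t s : ℕ) (v : V) : V :=
  if v ∈ BL T σ d t s then T.src d else if v ∈ BR T σ d t s then T.tgt d else v

variable {T}

theorem old_union (σ : V → Bool) (d : D) (t s : ℕ) :
    Old T σ d t ∪ Old T σ (T.rev d) s = BL T σ d t s ∪ BR T σ d t s := by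
  ext v
  simp only [Set.mem_union, Old, BL, BR, Set.mem_ofPred_eq]
  constructor
  · rintro (⟨i, hi, h | h⟩ | ⟨i, hi, h | h⟩)
    · exact Or.inl (Or.inl ⟨i, hi, h⟩)
    · exact Or.inr (Or.inl ⟨i, hi, h⟩)
    · exact Or.inr (Or.inr ⟨i, hi, h⟩)
    · exact Or.inl (Or.inr ⟨i, hi, h⟩)
  · rintro ((⟨i, hi, h⟩ | ⟨i, hi, h⟩) | (⟨i, hi, h⟩ | ⟨i, hi, h⟩))
    · exact Or.inl ⟨i, hi, Or.inl h⟩
    · exact Or.inr ⟨i, hi, Or.inr h⟩
    · exact Or.inl ⟨i, hi, Or.inr h⟩
    · exact Or.inr ⟨i, hi, Or.inl h⟩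

section

variable {σ : V → Bool} {d : D} {t s : ℕ}

theorem src_mem_BL : T.src d ∈ BL T σ d t s := Or.inl ⟨0, Nat.zero_le _, rfl⟩

theorem tgt_mem_BR : T.tgt d ∈ BR T σ d t s := Or.inl ⟨0, Nat.zero_le _, rfl⟩

theorem col_BL {v : V} (h : v ∈ BL T σ d t s) : σ v = σ (T.src d) := by
  rcases h with ⟨i, -, rfl⟩ | ⟨i, -, rfl⟩
  · exact T.col_src_iter σ d i
  · rw [T.col_tgt_iter σ, T.tgt_rev]

theorem col_BR {v : V} (h : v ∈ BR T σ d t s) : σ v = σ (T.tgt d) := by
  rcases h with ⟨i, -, rfl⟩ | ⟨i, -, rfl⟩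
  · exact T.col_tgt_iter σ d i
  · rw [T.col_src_iter σ, T.src_rev]

theorem not_BR_of_BL (hb : T.Bi σ d) {v : V} (h : v ∈ BL T σ d t s) : v ∉ BR T σ d t s :=
  fun h' => hb ((col_BL h).symm.trans (col_BR h'))

theorem joined_BL (hb : T.Bi σ d) {v : V} (h : v ∈ BL T σ d t s) :
    Joined T σ (σ (T.src d)) (BL T σ d t s) v (T.src d) := by
  have hb' : T.Bi σ (T.rev d) := T.bi_rev.2 hb
  rcases h with ⟨i, hi, rfl⟩ | ⟨i, hi, rfl⟩
  · exact seq_joined (x := fun k => T.src ((T.st σ)^[k] d)) (left_adj hb)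
      (fun k => T.col_src_iter σ d k) (t := t) (fun k hk => Or.inl ⟨k, hk, rfl⟩) i hi
  · have := seq_joined (σ := σ) (x := fun k => T.tgt ((T.st σ)^[k] (T.rev d))) (c := σ (T.src d))
      (right_adj hb') (fun k => by rw [T.col_tgt_iter σ, T.tgt_rev]) (t := s)
      (F := BL T σ d t s) (fun k hk => Or.inr ⟨k, hk, rfl⟩) i hi
    simpa [T.tgt_rev] using this

theorem joined_BR (hb : T.Bi σ d) {v : V} (h : v ∈ BR T σ d t s) :
    Joined T σ (σ (T.tgt d)) (BR T σ d t s) v (T.tgt d) := by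
  have hb' : T.Bi σ (T.rev d) := T.bi_rev.2 hb
  rcases h with ⟨i, hi, rfl⟩ | ⟨i, hi, rfl⟩
  · exact seq_joined (x := fun k => T.tgt ((T.st σ)^[k] d)) (right_adj hb)
      (fun k => T.col_tgt_iter σ d k) (t := t) (fun k hk => Or.inl ⟨k, hk, rfl⟩) i hi
  · have := seq_joined (σ := σ) (x := fun k => T.src ((T.st σ)^[k] (T.rev d))) (c := σ (T.tgt d))
      (left_adj hb') (fun k => by rw [T.col_src_iter σ, T.src_rev]) (t := s)
      (F := BR T σ d t s) (fun k hk => Or.inr ⟨k, hk, rfl⟩) i hi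
    simpa [T.src_rev] using this

theorem pm_BL {v : V} (h : v ∈ BL T σ d t s) : pm T σ d t s v = T.src d := by
  simp [pm, h]

theorem pm_BR (hb : T.Bi σ d) {v : V} (h : v ∈ BR T σ d t s) : pm T σ d t s v = T.tgt d := by
  have : v ∉ BL T σ d t s := fun h' => not_BR_of_BL hb h' h
  simp [pm, h, this]

theorem pm_not {v : V} (h : v ∉ BL T σ d t s) (h' : v ∉ BR T σ d t s) :
    pm T σ d t s v = v := by
  simp [pm, h, h']

theorem pm_col (hb : T.Bi σ d) (v : V) : σ (pm T σ d t s v) = σ v := by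
  by_cases h : v ∈ BL T σ d t s
  · rw [pm_BL h, col_BL h]
  · by_cases h' : v ∈ BR T σ d t s
    · rw [pm_BR hb h', col_BR h']
    · rw [pm_not h h']

theorem pm_comp (hb : T.Bi σ d) : σ ∘ pm T σ d t s = σ := funext (pm_col hb)

/-- Where the contraction identifies. -/
theorem pm_inj (hb : T.Bi σ d) {u v : V} (h : pm T σ d t s u = pm T σ d t s v) :
    u = v ∨ (u ∈ BL T σ d t s ∧ v ∈ BL T σ d t s) ∨ (u ∈ BR T σ d t s ∧ v ∈ BR T σ d t s) := by
  have hne : T.src d ≠ T.tgt d := fun hh => hb (by rw [hh])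
  by_cases h1 : u ∈ BL T σ d t s
  · rw [pm_BL h1] at h
    by_cases h2 : v ∈ BL T σ d t s
    · exact Or.inr (Or.inl ⟨h1, h2⟩)
    · by_cases h3 : v ∈ BR T σ d t s
      · rw [pm_BR hb h3] at h; exact absurd h hne
      · rw [pm_not h2 h3] at h; exact absurd (h ▸ src_mem_BL) h2
  · by_cases h1' : u ∈ BR T σ d t s
    · rw [pm_BR hb h1'] at h
      by_cases h2 : v ∈ BL T σ d t s
      · rw [pm_BL h2] at h; exact absurd h.symm hne
      · by_cases h3 : v ∈ BR T σ d t s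
        · exact Or.inr (Or.inr ⟨h1', h3⟩)
        · rw [pm_not h2 h3] at h; exact absurd (h ▸ tgt_mem_BR) h3
    · rw [pm_not h1 h1'] at h
      by_cases h2 : v ∈ BL T σ d t s
      · rw [pm_BL h2] at h; exact absurd (h ▸ src_mem_BL) h1
      · by_cases h3 : v ∈ BR T σ d t s
        · rw [pm_BR hb h3] at h; exact absurd (h ▸ tgt_mem_BR) h1'
        · rw [pm_not h2 h3] at h; exact Or.inl h

theorem fibConn_pm (hb : T.Bi σ d) : FibConn T (pm T σ d t s) := by
  intro e f hef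
  rcases pm_inj hb hef with h | ⟨h1, h2⟩ | ⟨h1, h2⟩
  · refine ⟨[], ?_, by simp⟩
    rw [h]; exact Walk.nil _
  · obtain ⟨-, -, l, hl, hl2⟩ := (joined_BL hb h1).trans (joined_BL hb h2).symm
    refine ⟨l, hl, fun g hg => ?_⟩
    rw [pm_BL h1, pm_BL (hl2 g hg).1.2, pm_BL (hl2 g hg).2.2]
    exact ⟨rfl, rfl⟩
  · obtain ⟨-, -, l, hl, hl2⟩ := (joined_BR hb h1).trans (joined_BR hb h2).symm
    refine ⟨l, hl, fun g hg => ?_⟩
    rw [pm_BR hb h1, pm_BR hb (hl2 g hg).1.2, pm_BR hb (hl2 g hg).2.2]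
    exact ⟨rfl, rfl⟩

end

/-- The times at which the strand looks at `Λ` for the first time, in the two directions. -/
structure Looks (T : Tri V D) (σ : V → Bool) (Λ : Set V) (d : D) (t s : ℕ) : Prop where
  src : T.src d ∉ Λ
  tgt : T.tgt d ∉ Λ
  fwd : ∀ k < t, T.apex ((T.st σ)^[k] d) ∉ Λ
  fwd' : T.apex ((T.st σ)^[t] d) ∈ Λ
  bwd : ∀ k < s, T.apex ((T.st σ)^[k] (T.rev d)) ∉ Λ
  bwd' : T.apex ((T.st σ)^[s] (T.rev d)) ∈ Λ

section

variable {σ : V → Bool} {d : D} {t s : ℕ} {Λ : Set V}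

theorem Looks.old (h : Looks T σ Λ d t s) (hb : T.Bi σ d) {v : V} (hv : v ∈ Λ) :
    v ∉ BL T σ d t s ∧ v ∉ BR T σ d t s := by
  have hb' : T.Bi σ (T.rev d) := T.bi_rev.2 hb
  have h1 := not_far hb h.src h.tgt h.fwd
  have h2 := not_far hb' (Λ := Λ) (by rw [T.src_rev]; exact h.tgt) (by rw [T.tgt_rev]; exact h.src)
    h.bwd
  constructor
  · rintro (⟨i, hi, rfl⟩ | ⟨i, hi, rfl⟩)
    · exact (h1 i hi).1 hv
    · exact (h2 i hi).2 hv
  · rintro (⟨i, hi, rfl⟩ | ⟨i, hi, rfl⟩)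
    · exact (h1 i hi).2 hv
    · exact (h2 i hi).1 hv

/-- A member of the strand whose face has a corner in `Λ` comes after the forward exploration. -/
theorem Looks.t_le (h : Looks T σ Λ d t s) (hb : T.Bi σ d) {m : ℕ}
    (hm : T.src ((T.st σ)^[m] d) ∈ Λ ∨ T.tgt ((T.st σ)^[m] d) ∈ Λ ∨ T.apex ((T.st σ)^[m] d) ∈ Λ) :
    t ≤ m := by
  by_contra hc
  push Not at hc
  have h1 := not_far hb h.src h.tgt h.fwd m hc.le
  rcases hm with h2 | h2 | h2
  · exact h1.1 h2
  · exact h1.2 h2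
  · exact h.fwd m hc h2

/-- The face of `st f` reversed is the face of `f`. -/
theorem corners_step {f : D} (hb : T.Bi σ f) {P : V → Prop} (h : P (T.src f) ∨ P (T.tgt f) ∨ P (T.apex f)) :
    P (T.src (T.rev (T.st σ f))) ∨ P (T.tgt (T.rev (T.st σ f))) ∨ P (T.apex (T.rev (T.st σ f))) := by
  by_cases hm : T.Mi σ f
  · rw [T.st_mi hm, T.rev_rev, src_nxt', tgt_nxt, apex_nxt]
    tauto
  · rw [T.st_nmi hb hm, T.rev_rev, src_nxt2, tgt_nxt2, apex_nxt2]
    tauto

theorem Looks.le_s [Finite D] (h : Looks T σ Λ d t s) (hb : T.Bi σ d) {m : ℕ}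
    (hmL : m < minimalPeriod (T.st σ) d)
    (hm : T.src ((T.st σ)^[m] d) ∈ Λ ∨ T.tgt ((T.st σ)^[m] d) ∈ Λ ∨ T.apex ((T.st σ)^[m] d) ∈ Λ) :
    m + 1 + s ≤ minimalPeriod (T.st σ) d := by
  by_contra hc
  push Not at hc
  set L := minimalPeriod (T.st σ) d with hL
  have hb' : T.Bi σ (T.rev d) := T.bi_rev.2 hb
  have hbm : T.Bi σ ((T.st σ)^[m] d) := (T.bi_iter m).2 hb
  have h1 := corners_step hbm (P := fun v => v ∈ Λ) hm
  have h2 := rev_iter (T := T) σ d (j := L - (m + 1)) (by omega)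
  rw [← hL, show L - (L - (m + 1)) = m + 1 by omega, iterate_succ', comp_apply] at h2
  rw [← h2] at h1
  have h3 := not_far hb' (Λ := Λ) (by rw [T.src_rev]; exact h.tgt) (by rw [T.tgt_rev]; exact h.src)
    h.bwd (L - (m + 1)) (by omega)
  rcases h1 with h4 | h4 | h4
  · exact h3.1 h4
  · exact h3.2 h4
  · exact h.bwd (L - (m + 1)) (by omega) h4

/-- Two far members of the class of `d` are in the same class of the contraction. -/
theorem Looks.rel_far [Finite D] (h : Looks T σ Λ d t s) {m m' : ℕ} (hmm : m ≤ m')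
    (hr : T.Rel σ d ((T.st σ)^[m] d)) (hr' : T.Rel σ d ((T.st σ)^[m'] d))
    (hmL : m < minimalPeriod (T.st σ) d) (hmL' : m' < minimalPeriod (T.st σ) d)
    (hm : T.src ((T.st σ)^[m] d) ∈ Λ ∨ T.tgt ((T.st σ)^[m] d) ∈ Λ ∨ T.apex ((T.st σ)^[m] d) ∈ Λ)
    (hm' : T.src ((T.st σ)^[m'] d) ∈ Λ ∨ T.tgt ((T.st σ)^[m'] d) ∈ Λ ∨
      T.apex ((T.st σ)^[m'] d) ∈ Λ) :
    (tmap T (pm T σ d t s) (fibConn_pm hr.1.bi)).Rel σ ((T.st σ)^[m] d) ((T.st σ)^[m'] d) := by
  have hb := hr.1.bi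
  have hd1 := T.rel_pos hmL hr
  have hd2 := T.rel_pos hmL' hr'
  have a1 := h.t_le hb hm
  have a2 := h.t_le hb hm'
  have a3 := h.le_s hb hmL hm
  have a4 := h.le_s hb hmL' hm'
  set L := minimalPeriod (T.st σ) d with hL
  set T1 := tmap T (pm T σ d t s) (fibConn_pm hb) with hT1
  have hst : T1.st σ = T.st σ := by rw [hT1, tmap_st, pm_comp hb]
  have hmi : ∀ e, T1.Mi σ e ↔ T.Mi σ e := by
    intro e; rw [hT1, tmap_mi, pm_comp hb]
  refine ⟨(hmi _).2 hr.2.1, (hmi _).2 hr'.2.1, m' - m, ?_, ?_, ?_⟩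
  · rw [hst, T.period_iter]; omega
  · rw [hst, ← iterate_add_apply, Nat.sub_add_cancel hmm]
  · intro i j hi1 hi2 hj1 hj2
    rw [hst, T.period_iter, ← hL] at hj2
    rw [hst, ← iterate_add_apply, ← iterate_add_apply]
    change pm T σ d t s (T.src _) ≠ pm T σ d t s (T.src _)
    -- in `T` the two vertices are different
    have hne : T.src ((T.st σ)^[i + m] d) ≠ T.src ((T.st σ)^[j + m] d) := by
      rcases le_or_gt (j + m) L with h1 | h1
      · exact hd2 (i + m) (j + m) (by omega) (by omega) (by omega) h1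
      · have e1 : (T.st σ)^[j + m] d = (T.st σ)^[j + m - L] d := by
          conv_lhs => rw [show j + m = (j + m - L) + L by omega, iterate_add_apply, hL,
            iterate_minimalPeriod]
        rw [e1]
        exact (hd1 (j + m - L) (i + m) (by omega) (by omega) (by omega) (by omega)).symm
    intro heq
    rcases pm_inj hb heq with h1 | ⟨h1, -⟩ | ⟨h1, -⟩
    · exact hne h1
    · rcases h1 with ⟨y, hy, h1⟩ | ⟨y, hy, h1⟩
      · rcases Nat.eq_zero_or_pos y with rfl | hy0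
        · have : T.src ((T.st σ)^[i + m] d) = T.src ((T.st σ)^[L] d) := by
            rw [hL, iterate_minimalPeriod]; exact h1.symm
          exact hd2 (i + m) L (by omega) (by omega) (by omega) le_rfl this
        · exact hd1 y (i + m) hy0 (by omega) (by omega) (by omega) h1
      · rw [rev_iter σ d (by omega), T.tgt_rev] at h1
        exact hd2 (i + m) (L - y) (by omega) (by omega) (by omega) (by omega) h1.symm
    · have := (T.col_src_iter σ d (i + m)).symm.trans (col_BR h1)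
      exact hb this

open Classical in
/-- **The far part of the class of `d` is a class of the contraction.** -/
theorem Looks.cls_eq [Fintype D] (h : Looks T σ Λ d t s) (hb : T.Bi σ d) {Θ : D → ℂ}
    (hΘ : ∀ e, Θ e ≠ 0 → T.src e ∈ Λ ∧ T.tgt e ∈ Λ ∧ T.apex e ∈ Λ) {e₀ : D}
    (h₀ : T.Rel σ e₀ d) (h₀' : Θ e₀ ≠ 0) :
    T.cls σ d Θ = (tmap T (pm T σ d t s) (fibConn_pm hb)).cls σ e₀ Θ := by
  set T1 := tmap T (pm T σ d t s) (fibConn_pm hb) with hT1
  unfold Tri.cls
  apply Finset.sum_congr rfl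
  intro e _
  by_cases hz : Θ e = 0
  · simp [hz]
  have hiff : T.Rel σ e d ↔ T1.Rel σ e e₀ := by
    constructor
    · intro hr
      obtain ⟨_, _, m, hm, rfl, _⟩ := T.rel_symm h₀
      obtain ⟨_, _, m', hm', rfl, _⟩ := T.rel_symm hr
      have c1 := hΘ _ h₀'
      have c2 := hΘ _ hz
      rcases le_total m m' with hle | hle
      · exact T1.rel_symm (h.rel_far hle (T.rel_symm h₀) (T.rel_symm hr) hm hm' (Or.inl c1.1)
          (Or.inl c2.1))
      · exact h.rel_far hle (T.rel_symm hr) (T.rel_symm h₀) hm' hm (Or.inl c2.1) (Or.inl c1.1)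
    · intro hr
      have := tmap_rel hr
      rw [pm_comp hb] at this
      exact T.rel_trans this h₀
  simp only [hiff]

open Classical in
theorem Looks.cls_le [Fintype D] (h : Looks T σ Λ d t s) (hb : T.Bi σ d) {Θ : D → ℂ}
    (hΘ : ∀ e, Θ e ≠ 0 → T.src e ∈ Λ ∧ T.tgt e ∈ Λ ∧ T.apex e ∈ Λ) :
    ‖T.cls σ d Θ‖ ^ 2 ≤ (∑ e, ∑ f, (if (tmap T (pm T σ d t s) (fibConn_pm hb)).Rel σ e f
      then Θ e * conj (Θ f) else 0)).re := by
  by_cases hex : ∃ e₀, T.Rel σ e₀ d ∧ Θ e₀ ≠ 0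
  · obtain ⟨e₀, h1, h2⟩ := hex
    rw [h.cls_eq hb hΘ h1 h2]
    exact Tri.cls_le _ _ _ _
  · push Not at hex
    have : T.cls σ d Θ = 0 := by
      unfold Tri.cls
      apply Finset.sum_eq_zero
      intro e _
      split_ifs with hh
      · exact hex e hh
      · rfl
    rw [this]
    have h1 := Tri.cls_le (tmap T (pm T σ d t s) (fibConn_pm hb)) σ d Θ
    refine le_trans ?_ h1
    rw [norm_zero, zero_pow two_ne_zero]
    positivity

end

end Vale.Agent.P148.R2.H609
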