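import Vale.Agent.P148.R2.H609.SF1

/-!
# Small footprint, part 2: conditional energy bound given both explorations
-/

namespace Vale.Agent.P148.R2.H609

open Function ComplexConjugate
open Vale.Agent.P148.R2.H258 Vale.Agent.P148.R2.H258.Tri Vale.Agent.P148.R2.H532
open Vale.Agent.P148.R2.H838

variable {V D : Type*}

section prob

variable [Fintype V]

open Classical in
/-- Stopping sets: if, whatever has been explored, `h` has conditional mean at most `K`, then the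
mean of `f h` is at most `K` times the mean of the explored quantity `f`. -/
theorem stop_mix {A : (V → Bool) → Set V}
    (hA : ∀ σ σ', (∀ v ∈ A σ, σ' v = σ v) → A σ' = A σ)
    {f : (V → Bool) → ℝ} (hf0 : ∀ σ, 0 ≤ f σ) (hf : ∀ σ σ', (∀ v ∈ A σ, σ' v = σ v) → f σ' = f σ)
    {h : (V → Bool) → ℝ} {K : ℝ}
    (hK : ∀ σ, f σ ≠ 0 → ∑ τ : V → Bool, h (mix (A σ) σ τ) ≤ K * 2 ^ Fintype.card V) :
    ∑ σ : V → Bool, f σ * h σ ≤ K * ∑ σ : V → Bool, f σ := by
  have h1 := stop_upper hA hf0 hf (g := fun σ τ => h (mix (A σ) σ τ)) ?_ ?_ hK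
  · refine le_trans (le_of_eq ?_) h1
    apply Finset.sum_congr rfl
    intro σ _
    have : mix (A σ) σ σ = σ := by funext v; simp [mix]
    simp only [this]
  · intro σ₀ σ₀' τ hσ
    have h2 := hA σ₀ σ₀' hσ
    have : mix (A σ₀') σ₀' τ = mix (A σ₀) σ₀ τ := by
      rw [h2]
      funext v
      by_cases hv : v ∈ A σ₀
      · rw [mix_mem hv, mix_mem hv, hσ v hv]
      · rw [mix_not_mem hv, mix_not_mem hv]
    simp only [this]
  · intro σ₀ τ τ' hτ
    have : mix (A σ₀) σ₀ τ' = mix (A σ₀) σ₀ τ := by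
      funext v
      by_cases hv : v ∈ A σ₀
      · rw [mix_mem hv, mix_mem hv]
      · rw [mix_not_mem hv, mix_not_mem hv, hτ v hv]
    simp only [this]

open Classical in
/-- Conditioning on one colour which is not looked at. -/
theorem sum_half (u : V) (c : Bool) (g : (V → Bool) → ℝ)
    (hg : ∀ τ τ' : V → Bool, (∀ v, v ≠ u → τ' v = τ v) → g τ' = g τ) :
    ∑ τ : V → Bool, g τ = 2 * ∑ τ : V → Bool, if τ u = c then g τ else 0 := by
  set φ : (V → Bool) → (V → Bool) := fun τ => Function.update τ u (!τ u) with hφ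
  have hinv : Function.Involutive φ := by
    intro τ
    funext v
    by_cases hv : v = u
    · subst hv; simp [hφ]
    · simp [hφ, hv]
  have h1 : ∑ τ : V → Bool, (if φ τ u = c then g (φ τ) else 0) =
      ∑ τ : V → Bool, if τ u = c then g τ else 0 :=
    Equiv.sum_comp (hinv.toPerm) (fun τ : V → Bool => if τ u = c then g τ else 0)
  have h2 : ∀ τ : V → Bool, g τ = (if τ u = c then g τ else 0) +
      (if φ τ u = c then g (φ τ) else 0) := by
    intro τ
    have e1 : g (φ τ) = g τ := hg _ _ (fun v hv => by simp [hφ, hv])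
    have e2 : φ τ u = !τ u := by simp [hφ]
    rw [e1, e2]
    by_cases hc : τ u = c
    · have : ¬ ((!τ u) = c) := by rw [hc]; cases c <;> decide
      simp [hc]
    · have : (!τ u) = c := by
        revert hc
        generalize τ u = x
        cases x <;> cases c <;> simp
      simp [hc, this]
  rw [Finset.sum_congr rfl (fun τ _ => h2 τ), Finset.sum_add_distrib, h1, two_mul]

end prob

open Classical in
/-- Total energy of a weight. -/
noncomputable def En [Fintype D] (T : Tri V D) (σ : V → Bool) (Θ : D → ℂ) : ℝ :=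
  (∑ e, ∑ f, (if T.Rel σ e f then Θ e * conj (Θ f) else 0)).re

theorem En_nonneg [Fintype D] (T : Tri V D) (σ : V → Bool) (Θ : D → ℂ) : 0 ≤ En T σ Θ := by
  have := sum_cls_le T σ Θ ∅ (by simp) (by simp)
  simpa [En] using this

open Classical in
theorem sum_En [Fintype D] [Fintype V] {T : Tri V D} (hP : T.Planar) {τ : ℂ}
    (hτ : τ ^ 2 + τ + 1 = 0) {Θ : D → ℂ} (hrot : ∀ d, Θ (T.nxt d) = τ ^ 2 * Θ d)
    (hg : ∀ d, ¬ T.Good d → Θ d = 0) :
    4 * ∑ σ : V → Bool, En T σ Θ = 2 ^ Fintype.card V * ∑ d, ‖Θ d‖ ^ 2 := by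
  classical
  have h3 := T.energy hP hτ (Θ := Θ) (Θ' := Θ) hrot hrot hg
  have h4 : (4 * ∑ σ : V → Bool, ∑ d, ∑ e,
      (if T.Rel σ d e then Θ d * conj (Θ e) else 0)).re =
      2 ^ Fintype.card V * ∑ d, ‖Θ d‖ ^ 2 := by
    rw [h3]
    have : (2 ^ Fintype.card V * ∑ d, Θ d * conj (Θ d) : ℂ) =
        ((2 ^ Fintype.card V * ∑ d, ‖Θ d‖ ^ 2 : ℝ) : ℂ) := by
      push_cast
      congr 1
      apply Finset.sum_congr rfl
      intro d _
      rw [Complex.mul_conj, Complex.normSq_eq_norm_sq]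
      push_cast; rfl
    rw [this, Complex.ofReal_re]
  rw [← h4]
  unfold En
  rw [← Complex.re_sum]
  simp

theorem tmap_congr {V1 : Type*} {T : Tri V D} {π π' : V → V1} (h : FibConn T π)
    (h' : FibConn T π') (e : π = π') : tmap T π h = tmap T π' h' := by
  subst e; rfl

theorem tmap_rel_comp {V1 : Type*} {T : Tri V D} {π : V → V1} (h : FibConn T π)
    {σ σ' : V1 → Bool} (e : σ ∘ π = σ' ∘ π) (a b : D) :
    (tmap T π h).Rel σ a b ↔ (tmap T π h).Rel σ' a b := by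
  unfold Tri.Rel Tri.Disj
  rw [tmap_mi, tmap_mi, tmap_mi, tmap_mi, tmap_st, tmap_st, e]

theorem En_comp {V1 : Type*} [Fintype D] {T : Tri V D} {π : V → V1} (h : FibConn T π)
    {σ σ' : V1 → Bool} (e : σ ∘ π = σ' ∘ π) (Θ : D → ℂ) :
    En (tmap T π h) σ Θ = En (tmap T π h) σ' Θ := by
  classical
  unfold En
  simp only [tmap_rel_comp h e]

variable {T : Tri V D} {σ σ' : V → Bool} {d : D} {t s : ℕ} {Λ : Set V}

theorem BL_congr (h : ∀ v ∈ Old T σ d t ∪ Old T σ (T.rev d) s, σ' v = σ v) :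
    BL T σ' d t s = BL T σ d t s := by
  have h1 := iter_congr T (σ := σ) (σ' := σ') (d := d) (t := t) (fun v hv => h v (Or.inl hv))
  have h2 := iter_congr T (σ := σ) (σ' := σ') (d := T.rev d) (t := s)
    (fun v hv => h v (Or.inr hv))
  ext v
  unfold BL
  constructor
  · rintro (⟨i, hi, h3⟩ | ⟨i, hi, h3⟩)
    · rw [h1 i hi] at h3; exact Or.inl ⟨i, hi, h3⟩
    · rw [h2 i hi] at h3; exact Or.inr ⟨i, hi, h3⟩
  · rintro (⟨i, hi, h3⟩ | ⟨i, hi, h3⟩)
    · rw [← h1 i hi] at h3; exact Or.inl ⟨i, hi, h3⟩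
    · rw [← h2 i hi] at h3; exact Or.inr ⟨i, hi, h3⟩

theorem BR_congr (h : ∀ v ∈ Old T σ d t ∪ Old T σ (T.rev d) s, σ' v = σ v) :
    BR T σ' d t s = BR T σ d t s := by
  have h1 := iter_congr T (σ := σ) (σ' := σ') (d := d) (t := t) (fun v hv => h v (Or.inl hv))
  have h2 := iter_congr T (σ := σ) (σ' := σ') (d := T.rev d) (t := s)
    (fun v hv => h v (Or.inr hv))
  ext v
  unfold BR
  constructor
  · rintro (⟨i, hi, h3⟩ | ⟨i, hi, h3⟩)
    · rw [h1 i hi] at h3; exact Or.inl ⟨i, hi, h3⟩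
    · rw [h2 i hi] at h3; exact Or.inr ⟨i, hi, h3⟩
  · rintro (⟨i, hi, h3⟩ | ⟨i, hi, h3⟩)
    · rw [← h1 i hi] at h3; exact Or.inl ⟨i, hi, h3⟩
    · rw [← h2 i hi] at h3; exact Or.inr ⟨i, hi, h3⟩

theorem pm_congr (h : ∀ v ∈ Old T σ d t ∪ Old T σ (T.rev d) s, σ' v = σ v) :
    pm T σ' d t s = pm T σ d t s := by
  funext v
  unfold pm
  rw [BL_congr h, BR_congr h]

theorem Looks.congr (hl : Looks T σ Λ d t s)
    (h : ∀ v ∈ Old T σ d t ∪ Old T σ (T.rev d) s, σ' v = σ v) : Looks T σ' Λ d t s := by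
  have h1 := iter_congr T (σ := σ) (σ' := σ') (d := d) (t := t) (fun v hv => h v (Or.inl hv))
  have h2 := iter_congr T (σ := σ) (σ' := σ') (d := T.rev d) (t := s)
    (fun v hv => h v (Or.inr hv))
  refine ⟨hl.src, hl.tgt, ?_, ?_, ?_, ?_⟩
  · intro k hk; rw [h1 k hk.le]; exact hl.fwd k hk
  · rw [h1 t le_rfl]; exact hl.fwd'
  · intro k hk; rw [h2 k hk.le]; exact hl.bwd k hk
  · rw [h2 s le_rfl]; exact hl.bwd'

open Classical in
/-- **Conditional energy bound** for the class of `d`, given both explorations. -/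
theorem cond_energy [Fintype V] [Fintype D] (hP : T.Planar) {ζ : ℂ} (hζ : ζ ^ 2 + ζ + 1 = 0)
    (hl : Looks T σ Λ d t s) (hb : T.Bi σ d) {Θ : D → ℂ}
    (hrot : ∀ d, Θ (T.nxt d) = ζ ^ 2 * Θ d) (hg : ∀ d, ¬ T.Good d → Θ d = 0)
    (hΘ : ∀ e, Θ e ≠ 0 → T.src e ∈ Λ ∧ T.tgt e ∈ Λ ∧ T.apex e ∈ Λ) :
    ∑ τ : V → Bool, ‖T.cls (mix (Old T σ d t ∪ Old T σ (T.rev d) s) σ τ) d Θ‖ ^ 2 ≤
      (∑ e, ‖Θ e‖ ^ 2) * 2 ^ Fintype.card V := by
  set A : Set V := Old T σ d t ∪ Old T σ (T.rev d) s with hA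
  have hAB : A = BL T σ d t s ∪ BR T σ d t s := old_union σ d t s
  set T1 := tmap T (pm T σ d t s) (fibConn_pm hb) with hT1
  have hsA : T.src d ∈ A := by rw [hAB]; exact Or.inl src_mem_BL
  have htA : T.tgt d ∈ A := by rw [hAB]; exact Or.inr tgt_mem_BR
  -- one colouring
  have h1 : ∀ τ : V → Bool, ‖T.cls (mix A σ τ) d Θ‖ ^ 2 ≤ En T1 (mix A σ τ) Θ := by
    intro τ
    have hag : ∀ v ∈ Old T σ d t ∪ Old T σ (T.rev d) s, mix A σ τ v = σ v :=
      fun v hv => mix_mem hv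
    have hb' : T.Bi (mix A σ τ) d := by
      unfold Tri.Bi; rw [mix_mem hsA, mix_mem htA]; exact hb
    have h2 := (hl.congr hag).cls_le hb' hΘ
    rw [tmap_congr (fibConn_pm hb') (fibConn_pm hb) (pm_congr hag)] at h2
    exact h2
  have h2 : ∀ τ : V → Bool, τ (T.tgt d) = σ (T.tgt d) → τ (T.src d) = σ (T.src d) →
      En T1 (mix A σ τ) Θ = En T1 τ Θ := by
    intro τ a1 a2
    apply En_comp
    funext v
    simp only [comp_apply]
    by_cases hv : v ∈ BL T σ d t s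
    · rw [pm_BL hv, mix_mem hsA, a2]
    · by_cases hv' : v ∈ BR T σ d t s
      · rw [pm_BR hb hv', mix_mem htA, a1]
      · rw [pm_not hv hv', mix_not_mem]
        rw [hAB]
        rintro (h | h)
        · exact hv h
        · exact hv' h
  have hgi : ∀ τ τ' : V → Bool, (∀ v ∉ A, τ' v = τ v) → mix A σ τ' = mix A σ τ := by
    intro τ τ' h
    funext v
    by_cases hv : v ∈ A
    · rw [mix_mem hv, mix_mem hv]
    · rw [mix_not_mem hv, mix_not_mem hv, h v hv]
  have hne : T.src d ≠ T.tgt d := fun hh => hb (by rw [hh])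
  have h3 : ∑ τ : V → Bool, En T1 (mix A σ τ) Θ =
      4 * ∑ τ : V → Bool, (if τ (T.tgt d) = σ (T.tgt d) then
        (if τ (T.src d) = σ (T.src d) then En T1 (mix A σ τ) Θ else 0) else 0) := by
    rw [sum_half (T.src d) (σ (T.src d)) (fun τ => En T1 (mix A σ τ) Θ), sum_half (T.tgt d)
      (σ (T.tgt d)) (fun τ => if τ (T.src d) = σ (T.src d) then En T1 (mix A σ τ) Θ else 0)]
    · ring
    · intro τ τ' h
      have e1 := hgi τ τ' (fun v hv => h v (fun hh => hv (hh ▸ htA)))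
      simp only [e1, h _ hne]
    · intro τ τ' h
      have e1 := hgi τ τ' (fun v hv => h v (fun hh => hv (hh ▸ hsA)))
      simp only [e1]
  have h4 : ∑ τ : V → Bool, (if τ (T.tgt d) = σ (T.tgt d) then
        (if τ (T.src d) = σ (T.src d) then En T1 (mix A σ τ) Θ else 0) else 0) ≤
      ∑ τ : V → Bool, En T1 τ Θ := by
    apply Finset.sum_le_sum
    intro τ _
    split_ifs with a1 a2
    · rw [h2 τ a1 a2]
    · exact En_nonneg _ _ _
    · exact En_nonneg _ _ _
  have hgood1 : ∀ e, ¬ T1.Good e → Θ e = 0 := by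
    intro e he
    by_contra hne0
    obtain ⟨c1, c2, c3⟩ := hΘ e hne0
    have hG : T.Good e := by
      by_contra hG
      exact hne0 (hg e hG)
    apply he
    have p1 : pm T σ d t s (T.src e) = T.src e := pm_not (hl.old hb c1).1 (hl.old hb c1).2
    have p2 : pm T σ d t s (T.tgt e) = T.tgt e := pm_not (hl.old hb c2).1 (hl.old hb c2).2
    have p3 : pm T σ d t s (T.apex e) = T.apex e := pm_not (hl.old hb c3).1 (hl.old hb c3).2
    refine ⟨?_, ?_, ?_⟩
    · change pm T σ d t s (T.src e) ≠ pm T σ d t s (T.tgt e)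
      rw [p1, p2]; exact hG.1
    · change pm T σ d t s (T.tgt e) ≠ pm T σ d t s (T.apex e)
      rw [p2, p3]; exact hG.2.1
    · change pm T σ d t s (T.apex e) ≠ pm T σ d t s (T.src e)
      rw [p1, p3]; exact hG.2.2
  have h5 := sum_En (T := T1) (planar_tmap hP) hζ (Θ := Θ) (by intro e; exact hrot e) hgood1
  calc ∑ τ : V → Bool, ‖T.cls (mix A σ τ) d Θ‖ ^ 2 ≤ ∑ τ : V → Bool, En T1 (mix A σ τ) Θ :=
        Finset.sum_le_sum (fun τ _ => h1 τ)
    _ ≤ 4 * ∑ τ : V → Bool, En T1 τ Θ := by rw [h3]; linarith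
    _ = _ := by rw [h5]; ring

end Vale.Agent.P148.R2.H609
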