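import Vale.Agent.P148.R2.H400.Flip3

/-!
# Excursions which face no arc of the frozen boundary have a small footprint

`T` real triangulation, `T1` its contraction, `O` the frozen vertex, `P i` (`i : ZMod M`) a ring of
connected disjoint sets of real frozen vertices which contains the tails of all darts leaving `O`.
An excursion from `O` which does not pass entirely over any arc meets `O` only in the arc of its start
and the two neighbouring arcs.
-/

namespace Vale.Agent.P148.R2.H609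

open Function Vale.Agent.P148.R2.H258 Vale.Agent.P148.R2.H258.Tri
open Vale.Agent.P148.R2.H838 (OutD tour tour_pos tour_neg tour_out tour_iter_out face_tour foot)
open Vale.Agent.P148.R2.H871 (Contr)
open Vale.Agent.P148.R2.H400 (InjOff lift_walk Facing Start)

variable {V V1 D : Type*} {T : Tri V D} {T1 : Tri V1 D} {π : V → V1}

/-- The targets of the darts of a tour are joined off `O`. -/
theorem tour_walk {O : V} {e : D} (he : OutD T O e) (j : ℕ) :
    ∃ l, T.Walk (T.tgt e) (T.tgt ((tour T O)^[j] e)) l ∧ ∀ g ∈ l, T.src g ≠ O ∧ T.tgt g ≠ O := by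
  induction j with
  | zero => exact ⟨[], Walk.nil _, by simp⟩
  | succ j ih =>
    obtain ⟨l, h1, h2⟩ := ih
    have ho := tour_iter_out he j
    set f := (tour T O)^[j] e with hf
    rw [iterate_succ', comp_apply, ← hf]
    by_cases ha : T.apex (T.rev f) = O
    · rw [tour_pos ha, T.tgt_nxt2, T.src_rev]
      exact ⟨l, h1, h2⟩
    · rw [tour_neg ha, T.tgt_nxt]
      refine ⟨l ++ [T.rev (T.nxt (T.nxt (T.rev f)))], h1.append ?_, ?_⟩
      · have h3 := Walk.single (T := T) (T.rev (T.nxt (T.nxt (T.rev f))))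
        rw [T.src_rev, T.tgt_nxt2, T.src_rev, T.tgt_rev, src_nxt2] at h3
        exact h3
      · intro g hg
        rw [List.mem_append, List.mem_singleton] at hg
        rcases hg with hg | rfl
        · exact h2 g hg
        · rw [T.src_rev, T.tgt_nxt2, T.src_rev, T.tgt_rev, src_nxt2]
          exact ⟨ho.2, ha⟩

/-- A set of vertices joined by walks inside itself. -/
def Wc (T : Tri V D) (U : Set V) : Prop :=
  ∀ x ∈ U, ∀ y ∈ U, ∃ l, T.Walk x y l ∧ ∀ e ∈ l, T.src e ∈ U ∧ T.tgt e ∈ U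

theorem Wc.union {U U' : Set V} (h : Wc T U) (h' : Wc T U')
    (hn : ∃ e, T.src e ∈ U ∧ T.tgt e ∈ U') : Wc T (U ∪ U') := by
  obtain ⟨e, he1, he2⟩ := hn
  have key : ∀ x ∈ U, ∀ y ∈ U', ∃ l, T.Walk x y l ∧ ∀ e ∈ l, T.src e ∈ U ∪ U' ∧ T.tgt e ∈ U ∪ U' := by
    intro x hx y hy
    obtain ⟨l1, h1, h2⟩ := h x hx _ he1
    obtain ⟨l2, h3, h4⟩ := h' _ he2 y hy
    refine ⟨l1 ++ ([e] ++ l2), h1.append ((Walk.single e).append h3), ?_⟩
    intro f hf
    rw [List.mem_append, List.mem_append, List.mem_singleton] at hf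
    rcases hf with hf | rfl | hf
    · exact ⟨Or.inl (h2 f hf).1, Or.inl (h2 f hf).2⟩
    · exact ⟨Or.inl he1, Or.inr he2⟩
    · exact ⟨Or.inr (h4 f hf).1, Or.inr (h4 f hf).2⟩
  rintro x (hx | hx) y (hy | hy)
  · obtain ⟨l, h1, h2⟩ := h x hx y hy
    exact ⟨l, h1, fun f hf => ⟨Or.inl (h2 f hf).1, Or.inl (h2 f hf).2⟩⟩
  · exact key x hx y hy
  · obtain ⟨l, h1, h2⟩ := key y hy x hx
    refine ⟨_, h1.reverse, ?_⟩
    intro f hf
    rw [List.mem_reverse, List.mem_map] at hf
    obtain ⟨g, hg, rfl⟩ := hf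
    rw [T.src_rev, T.tgt_rev]
    exact ⟨(h2 g hg).2, (h2 g hg).1⟩
  · obtain ⟨l, h1, h2⟩ := h' x hx y hy
    exact ⟨l, h1, fun f hf => ⟨Or.inr (h2 f hf).1, Or.inr (h2 f hf).2⟩⟩

/-- **The tour does not alternate** between two disjoint connected sets of frozen vertices. -/
theorem no_alt (hP : T.Planar) (hC : Contr T T1 π) {O : V1} (hinj : InjOff π O) {d : D}
    (hd : OutD T1 O d) {N : ℕ}
    (hdist : ∀ i j, i < j → j < N → (tour T1 O)^[i] d ≠ (tour T1 O)^[j] d)
    {U U' : Set V} (hUO : ∀ v ∈ U, π v = O) (hUO' : ∀ v ∈ U', π v = O) (hdis : Disjoint U U')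
    (hU : Wc T U) (hU' : Wc T U') {a x b y : ℕ} (hax : a < x) (hxb : x < b) (hby : b < y)
    (hyN : y < N) (ha : T.src ((tour T1 O)^[a] d) ∈ U) (hb : T.src ((tour T1 O)^[b] d) ∈ U)
    (hx : T.src ((tour T1 O)^[x] d) ∈ U') (hy : T.src ((tour T1 O)^[y] d) ∈ U') : False := by
  classical
  set e : ℕ → D := fun k => (tour T1 O)^[k] d with he
  have ho : ∀ k, OutD T1 O (e k) := fun k => tour_iter_out hd k
  have hs : ∀ k, π (T.src (e k)) = O := fun k => by rw [← hC.src]; exact (ho k).1
  have ht : ∀ k, π (T.tgt (e k)) ≠ O := fun k => by rw [← hC.tgt]; exact (ho k).2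
  have hne : ∀ k, T.src (e k) ≠ T.tgt (e k) := fun k hh => ht k (by rw [← hh]; exact hs k)
  have hinj' : ∀ i j, i < N → j < N → e i = e j → i = j := by
    intro i j hi hj hij
    rcases lt_trichotomy i j with h1 | h1 | h1
    · exact absurd hij (hdist i j h1 hj)
    · exact h1
    · exact absurd hij.symm (hdist j i h1 hi)
  -- the free part of the walk
  obtain ⟨l, hl, hlO⟩ := tour_walk (T := T1) (ho a) (b - a)
  rw [← iterate_add_apply, show b - a + a = b by omega] at hl
  have hlT : T.Walk (T.tgt (e a)) (T.tgt (e b)) l :=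
    lift_walk hC hinj hl hlO (hC.tgt _).symm (hC.tgt _).symm (ho a).2
  obtain ⟨lU, hlU, hlU2⟩ := hU _ hb _ ha
  have hW : T.Walk (T.src (e a)) (T.src (e a)) ([e a] ++ (l ++ ([T.rev (e b)] ++ lU))) := by
    refine (Walk.single (e a)).append (hlT.append (Walk.append ?_ hlU))
    have := Walk.single (T := T) (T.rev (e b))
    rwa [T.src_rev, T.tgt_rev] at this
  obtain ⟨N0, hN0, -⟩ := T.exists_pot hP hW d
  -- the multiplicities on the tour
  have hmu : ∀ k < N, T.mu ([e a] ++ (l ++ ([T.rev (e b)] ++ lU))) (e k) =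
      (if k = a then 1 else 0) + (if k = b then 1 else 0) := by
    intro k hk
    rw [T.mu_append, T.mu_append, T.mu_append]
    have z1 : T.mu l (e k) = 0 := by
      apply T.mu_zero
      · intro h; exact (hlO _ h).1 (ho k).1
      · intro h
        have := (hlO _ h).2
        rw [← hC.rev, T1.tgt_rev] at this
        exact this (ho k).1
    have z2 : T.mu lU (e k) = 0 := by
      apply T.mu_zero
      · intro h; exact ht k (hUO _ (hlU2 _ h).2)
      · intro h
        have := (hlU2 _ h).1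
        rw [T.src_rev] at this
        exact ht k (hUO _ this)
    have z3 : T.mu [e a] (e k) = if k = a then 1 else 0 := by
      unfold mu
      have h1 : List.count (T.rev (e k)) [e a] = 0 := by
        apply List.count_eq_zero_of_not_mem
        intro h
        rw [List.mem_singleton] at h
        apply ht k
        rw [← T.src_rev, h]; exact hs a
      rw [h1]
      by_cases h2 : k = a
      · rw [if_pos h2, h2]; simp
      · rw [if_neg h2, List.count_eq_zero_of_not_mem]
        · simp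
        · intro h
          rw [List.mem_singleton] at h
          exact h2 (hinj' k a hk (by omega) h)
    have z4 : T.mu [T.rev (e b)] (e k) = if k = b then 1 else 0 := by
      unfold mu
      have h1 : List.count (e k) [T.rev (e b)] = 0 := by
        apply List.count_eq_zero_of_not_mem
        intro h
        rw [List.mem_singleton] at h
        apply ht b
        rw [← T.src_rev, ← h]; exact hs k
      rw [h1]
      by_cases h2 : k = b
      · rw [if_pos h2, h2]; simp
      · rw [if_neg h2, List.count_eq_zero_of_not_mem]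
        · simp
        · intro h
          rw [List.mem_singleton] at h
          have := congrArg T.rev h
          rw [T.rev_rev, T.rev_rev] at this
          exact h2 (hinj' k b hk (by omega) this)
    rw [z1, z2, z3, z4]
    ring
  have hstep : ∀ k < N, N0 (e (k + 1)) = N0 (e k) + ((if k = a then 1 else 0) +
      (if k = b then 1 else 0)) := by
    intro k hk
    have h1 : N0 (e (k + 1)) = N0 (T.rev (e k)) := by
      simp only [he]
      rw [iterate_succ', comp_apply, face_tour (T := T1) (N := N0) (by intro f; rw [hC.nxt]; exact hN0.1 f) O,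
        hC.rev]
    have h2 := hN0.2 (e k) (Or.inl (hne k))
    rw [hmu k hk] at h2
    rw [h1, ← h2]
    generalize N0 (T.rev (e k)) = u
    generalize N0 (e k) = v
    revert u v; decide
  have hmid : ∀ k, a < k → k ≤ b → N0 (e k) = N0 (e a) + 1 := by
    intro k hk1 hk2
    induction k with
    | zero => omega
    | succ k ih =>
      rw [hstep k (by omega)]
      by_cases h1 : k = a
      · rw [if_pos h1, if_neg (by omega : ¬ k = b), h1, add_zero]
      · rw [if_neg h1, if_neg (by omega : ¬ k = b), add_zero, add_zero, ih (by omega) (by omega)]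
  have hend : ∀ k, b < k → k < N → N0 (e k) = N0 (e a) := by
    intro k hk1 hk2
    induction k with
    | zero => omega
    | succ k ih =>
      rw [hstep k (by omega)]
      by_cases h1 : k = b
      · rw [if_pos h1, if_neg (by omega : ¬ k = a), h1, hmid b (by omega) le_rfl]
        generalize N0 (e a) = u
        revert u; decide
      · rw [if_neg h1, if_neg (by omega : ¬ k = a), add_zero, add_zero, ih (by omega) (by omega)]
  -- the connection through `U'`
  have hsrcW : ∀ f ∈ ([e a] ++ (l ++ ([T.rev (e b)] ++ lU)) : List D), T.src f ∉ U' := by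
    intro f hf hU'f
    simp only [List.mem_append, List.mem_singleton] at hf
    rcases hf with rfl | hf | rfl | hf
    · exact Set.disjoint_left.1 hdis ha hU'f
    · have h1 := (hlO f hf).1
      rw [hC.src] at h1
      exact h1 (hUO' _ hU'f)
    · rw [T.src_rev] at hU'f
      exact ht b (hUO' _ hU'f)
    · exact Set.disjoint_left.1 hdis (hlU2 f hf).1 hU'f
  obtain ⟨q, hq, hq2⟩ := hU' _ hx _ hy
  have h1 := T.pot_walk hW hN0 hq (fun f hf hh => hsrcW f hf (by rw [hh]; exact hx))
    (fun g hg f hf hh => hsrcW f hf (by rw [hh]; exact (hq2 g hg).2)) (a := e x) (b := e y) rfl rfl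
  rw [hmid x hax hxb.le, hend y hby hyN] at h1
  revert h1
  generalize N0 (e a) = u
  revert u; decide

/-- A ring of connected disjoint sets of vertices. -/
structure Arcs {V D : Type*} (T : Tri V D) {M : ℕ} (P : ZMod M → Set V) : Prop where
  disj : ∀ i j, i ≠ j → Disjoint (P i) (P j)
  conn : ∀ i, Wc T (P i)
  next : ∀ i, ∃ e, T.src e ∈ P i ∧ T.tgt e ∈ P (i + 1)

/-- The union of the arcs `i, i + 1, …, i + n` is connected. -/
theorem Arcs.wc {M : ℕ} {P : ZMod M → Set V} (h : Arcs T P) (i : ZMod M) (n : ℕ) :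
    Wc T (⋃ k ∈ Finset.range (n + 1), P (i + (k : ZMod M))) := by
  induction n with
  | zero => simpa using h.conn i
  | succ n ih =>
    have e : (⋃ k ∈ Finset.range (n + 1 + 1), P (i + (k : ZMod M))) =
        (⋃ k ∈ Finset.range (n + 1), P (i + (k : ZMod M))) ∪ P (i + ((n + 1 : ℕ) : ZMod M)) := by
      rw [Finset.range_add_one, Finset.set_biUnion_insert, Set.union_comm]
    rw [e]
    refine ih.union (h.conn _) ?_
    obtain ⟨f, hf1, hf2⟩ := h.next (i + (n : ZMod M))
    refine ⟨f, ?_, ?_⟩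
    · rw [Set.mem_iUnion₂]
      exact ⟨n, by simp, hf1⟩
    · rw [Nat.cast_add, Nat.cast_one, ← add_assoc]; exact hf2

/-- **Excursions which face no arc.** -/
theorem nonfacing [Finite D] (hP : T.Planar) (hP1 : T1.Planar) (hC : Contr T T1 π) {O : V1}
    (hinj : InjOff π O) {M : ℕ} [NeZero M] {P : ZMod M → Set V} (hA : Arcs T P)
    (hPO : ∀ i, ∀ v ∈ P i, π v = O)
    (hfree : ∀ e f, OutD T1 O e → OutD T1 O f → H838.WalkOff T1 O (T1.tgt e) (T1.tgt f))
    (hring : ∀ e, OutD T1 O e → ∃ i, T.src e ∈ P i) {σ : V1 → Bool} {d : D}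
    (hs : T1.src d = O) (hd : Start T1 σ d)
    (hF : ∀ i, ¬ Facing T1 {e | OutD T1 O e ∧ T.src e ∈ P i} σ d) {i₀ : ZMod M}
    (hi₀ : T.src d ∈ P i₀) {k : ℕ} (hk : T1.src ((T1.st σ)^[k] d) = O) :
    ∃ i, (i = i₀ ∨ i = i₀ + 1 ∨ i + 1 = i₀) ∧ T.src ((T1.st σ)^[k] d) ∈ P i := by
  classical
  subst hs
  obtain ⟨f, m, N, -, -, hmN, hN, hdist, -, hpot, -, hstr⟩ := foot hP1 hd.1 hd.2
  set O := T1.src d with hO
  have hdO : OutD T1 O d := ⟨rfl, fun hh => hd.1.1 (by rw [hh])⟩
  obtain ⟨j, hjm, hj⟩ := hstr k hk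
  have hoj : OutD T1 O ((tour T1 O)^[j] d) := tour_iter_out hdO j
  obtain ⟨i₁, hi₁⟩ := hring _ hoj
  rw [← hj]
  refine ⟨i₁, ?_, hi₁⟩
  by_contra hcon
  push Not at hcon
  obtain ⟨hc1, hc2, hc3⟩ := hcon
  -- a dart of the arc `i` outside the interval
  have hout : ∀ i, ∃ u, m ≤ u ∧ u < N ∧ T.src ((tour T1 O)^[u] d) ∈ P i := by
    intro i
    have h1 := hF i
    unfold Facing at h1
    push Not at h1
    obtain ⟨b, ⟨hb1, hb2⟩, hb3⟩ := h1
    obtain ⟨t, ht⟩ := H838.tour_orbit hP1 hdO hb1 (hfree _ _ hdO hb1)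
    have hN0 : 0 < N := by omega
    have hper : IsPeriodicPt (tour T1 O) N d := hN
    have hu : (tour T1 O)^[t % N] d = b := by rw [hper.iterate_mod_apply]; exact ht
    have huN := Nat.mod_lt t hN0
    refine ⟨t % N, ?_, huN, by rw [hu]; exact hb2⟩
    by_contra hlt
    push Not at hlt
    have h2 := hb3 (t % N) hu.symm
    have h3 : T1.pot σ d ((tour T1 O)^[t % N + 1] d) = 0 := by
      rw [hpot _ (by omega), if_pos (by omega)]
    exact hdist 0 (t % N + 1) (by omega) (by omega) (h2 h3).symm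
  obtain ⟨u, hu1, hu2, hu3⟩ := hout (i₀ + 1)
  obtain ⟨v, hv1, hv2, hv3⟩ := hout (i₀ - 1)
  have hne : ∀ {s t : ℕ} {i i' : ZMod M}, T.src ((tour T1 O)^[s] d) ∈ P i →
      T.src ((tour T1 O)^[t] d) ∈ P i' → i ≠ i' → s ≠ t := by
    intro s t i i' h1 h2 h3 h4
    rw [h4] at h1
    exact Set.disjoint_left.1 (hA.disj i i' h3) h1 h2
  have hc3' : i₁ ≠ i₀ - 1 := fun hh => hc3 (by rw [hh]; ring)
  have hju : j ≠ u := hne hi₁ hu3 hc2
  have hjv : j ≠ v := hne hi₁ hv3 hc3'
  have h0j : 0 ≠ j := hne (s := 0) (t := j) (i := i₀) (i' := i₁) hi₀ hi₁ (Ne.symm hc1)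
  -- residues
  have hM4 : 3 < M := by
    by_contra hM
    push Not at hM
    have hMp := NeZero.pos M
    interval_cases M
    · exact hc1 (Subsingleton.elim _ _)
    · have : ∀ a b : ZMod 2, b ≠ a → b ≠ a + 1 → b + 1 ≠ a → False := by decide
      exact this _ _ hc1 hc2 hc3
    · have : ∀ a b : ZMod 3, b ≠ a → b ≠ a + 1 → b + 1 ≠ a → False := by decide
      exact this _ _ hc1 hc2 hc3
  -- `i₁ = i₀ + r` with `2 ≤ r ≤ M - 2`
  obtain ⟨r, hr, hrM⟩ : ∃ r : ℕ, i₁ = i₀ + (r : ZMod M) ∧ r < M := by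
    refine ⟨(i₁ - i₀).val, ?_, ZMod.val_lt _⟩
    rw [ZMod.natCast_zmod_val]; ring
  have hr0 : r ≠ 0 := by rintro rfl; exact hc1 (by rw [hr]; simp)
  have hr1 : r ≠ 1 := by rintro rfl; exact hc2 (by rw [hr]; simp)
  have hcast : ∀ s t : ℕ, s < M → t < M → ((s : ZMod M) = (t : ZMod M)) → s = t := by
    intro s t h1 h2 h3
    have := congrArg ZMod.val h3
    rwa [ZMod.val_cast_of_lt h1, ZMod.val_cast_of_lt h2] at this
  have hM1 : ((M - 1 : ℕ) : ZMod M) = -1 := by
    rw [Nat.cast_sub (by omega)]; simp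
  have hr2 : r ≠ M - 1 := by
    rintro rfl
    apply hc3'
    rw [hr, hM1]; ring
  -- the two pairs of connected sets
  have hUa : Wc T (⋃ k ∈ Finset.range (1 + 1), P (i₀ + (k : ZMod M))) := hA.wc i₀ 1
  have hUb : Wc T (⋃ k ∈ Finset.range (M - 1 - r + 1), P (i₁ + (k : ZMod M))) :=
    hA.wc i₁ (M - 1 - r)
  have hUc : Wc T (⋃ k ∈ Finset.range (r - 1 + 1), P ((i₀ + 1) + (k : ZMod M))) :=
    hA.wc (i₀ + 1) (r - 1)
  have hUd : Wc T (⋃ k ∈ Finset.range (1 + 1), P ((i₀ - 1) + (k : ZMod M))) := hA.wc (i₀ - 1) 1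
  have hPO' : ∀ (i : ZMod M) (n : ℕ), ∀ v ∈ (⋃ k ∈ Finset.range n, P (i + (k : ZMod M))),
      π v = O := by
    intro i n v hv
    rw [Set.mem_iUnion₂] at hv
    obtain ⟨k, -, hk⟩ := hv
    exact hPO _ v hk
  rcases lt_or_gt_of_ne (hne hu3 hv3 (by
      intro hh
      have h2 : (2 : ZMod M) = 0 := by
        have := sub_eq_zero.2 hh
        rw [← this]; ring
      have h3 := hcast 2 0 (by omega) (by omega) (by simpa using h2)
      omega) : u ≠ v) with huv | huv
  · -- order 0 (i₀), j (i₁), u (i₀+1), v (i₀-1)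
    refine no_alt hP hC hinj hdO hdist (hPO' _ _) (hPO' _ _) ?_ hUa hUb (a := 0) (x := j) (b := u)
      (y := v) (by omega) (by omega) huv hv2 ?_ ?_ ?_ ?_
    · rw [Set.disjoint_left]
      intro z hz1 hz2
      rw [Set.mem_iUnion₂] at hz1 hz2
      obtain ⟨s, hs, hs'⟩ := hz1
      obtain ⟨t, ht, ht'⟩ := hz2
      rw [Finset.mem_range] at hs ht
      refine Set.disjoint_left.1 (hA.disj _ _ ?_) hs' ht'
      intro hh
      rw [hr, add_assoc, add_right_inj] at hh
      have h3 := hcast s (r + t) (by omega) (by omega) (by push_cast; exact hh)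
      omega
    · rw [Set.mem_iUnion₂]; exact ⟨0, by simp, by simpa using hi₀⟩
    · rw [Set.mem_iUnion₂]; exact ⟨1, by simp, by simpa using hu3⟩
    · rw [Set.mem_iUnion₂]; exact ⟨0, by simp, by simpa using hi₁⟩
    · rw [Set.mem_iUnion₂]
      refine ⟨M - 1 - r, by simp, ?_⟩
      have : i₁ + ((M - 1 - r : ℕ) : ZMod M) = i₀ - 1 := by
        rw [Nat.cast_sub (by omega), hM1, hr]; ring
      rw [this]; exact hv3
  · -- order 0 (i₀), j (i₁), v (i₀-1), u (i₀+1)
    refine no_alt hP hC hinj hdO hdist (hPO' _ _) (hPO' _ _) ?_ hUd hUc (a := 0) (x := j) (b := v)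
      (y := u) (by omega) (by omega) huv hu2 ?_ ?_ ?_ ?_
    · rw [Set.disjoint_left]
      intro z hz1 hz2
      rw [Set.mem_iUnion₂] at hz1 hz2
      obtain ⟨s, hs, hs'⟩ := hz1
      obtain ⟨t, ht, ht'⟩ := hz2
      rw [Finset.mem_range] at hs ht
      refine Set.disjoint_left.1 (hA.disj _ _ ?_) hs' ht'
      intro hh
      have h4 : ((s : ℕ) : ZMod M) = ((t + 2 : ℕ) : ZMod M) := by
        push_cast
        have := congrArg (fun z => z - i₀ + 1) hh
        ring_nf at this ⊢
        exact this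
      have h3 := hcast s (t + 2) (by omega) (by omega) h4
      omega
    · rw [Set.mem_iUnion₂]; exact ⟨1, by simp, by simpa using hi₀⟩
    · rw [Set.mem_iUnion₂]; exact ⟨0, by simp, by simpa using hv3⟩
    · rw [Set.mem_iUnion₂]
      refine ⟨r - 1, by simp, ?_⟩
      have : (i₀ + 1) + ((r - 1 : ℕ) : ZMod M) = i₁ := by
        rw [Nat.cast_sub (by omega), hr]; push_cast; ring
      rw [this]; exact hi₁
    · rw [Set.mem_iUnion₂]; exact ⟨0, by simp, by simpa using hu3⟩

end Vale.Agent.P148.R2.H609
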