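import Vale.Agent.P148.R2.H609.Cn
import Vale.Agent.P148.R2.H609.SFA4

/-!
# Row sf for arcs in `{3/4 ≤ nsup ≤ 3/2}`

The frozen boundary of world 0 is in `{1 - a/8 < nsup < 1 + 5a/8}` (regions of the tubes), so the
arcs are only asked to be in `{3/4 ≤ nsup ≤ 3/2}`.
-/

set_option linter.unusedSectionVars false

open MeasureTheory Set Metric Filter ProbabilityTheory Topology
open scoped ENNReal NNReal

namespace Vale.Agent.P148.R2.H609

open H592 H184 H203 _root_.P148 _root_.P148.H729 Vale.Agent.P148.R2.H258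
open Vale.Agent.P148.R2.H995 (nsup)
open Vale.Agent.P148.R2.H400 (Facing Start)
open Vale.Agent.P148.R2.H566 (W0 Asq Asq_subset Ev Scene AScene)
open Vale.Agent.P148.R2.H291
open Vale.Agent.P148.R2.F (whp ArmStmt)

universe u

/-- The world `w` has a ring of arcs of diameter `η`, contained in `{3/4 ≤ nsup ≤ 3/2}`. -/
structure RingV (w : W0) {κ' : Type*} (Arc : κ' → Set w.D) (T : Set Pt) (η : ℝ) : Prop where
  agree : w.X ∩ ball 0 4 = pts T ∩ ball 0 4
  free : ∀ x ∈ w.X, x ∈ Asq → x ∉ w.B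
  out : (w.B \ ball 0 4).Nonempty
  ring : ∃ (M : ℕ) (_ : NeZero M) (P : ZMod M → Set ℂ), RingOK w P η ∧
    (∀ j, ∀ x ∈ P j, 3 / 4 ≤ nsup x ∧ nsup x ≤ 3 / 2) ∧ ∀ j, ∃ k, Arc k = Bq w (P j)

theorem RingV.cnW {w : W0} {κ' : Type*} {Arc : κ' → Set w.D} {T : Set Pt} {η : ℝ}
    (h : RingV w Arc T η) : CnW w T := by
  refine ⟨h.agree, h.free, h.out, fun x y hxy hx hy => ?_⟩
  obtain ⟨M, _, P, h1, h2, -⟩ := h.ring
  obtain ⟨i, hi⟩ := h1.ring x y hxy hx hy
  exact h2 i x hi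

theorem _root_.Vale.Agent.P148.R2.H291.RingW.ringV {w : W0} {κ' : Type*} {Arc : κ' → Set w.D}
    {T : Set Pt} {η : ℝ} (h : RingW w Arc T η) : RingV w Arc T η := by
  refine ⟨h.agree, h.free, h.out, ?_⟩
  obtain ⟨M, hM, P, h1, h2, h3⟩ := h.ring
  exact ⟨M, hM, P, h1, fun j x hx => ⟨by linarith [(h2 j x hx).1], (h2 j x hx).2⟩, h3⟩

/-- **Row sf, one world.** -/
theorem exists_sfV {τ : ℂ} {κ : ℝ} {Θ : Dt → ℂ} (hΘ : Wt τ κ Θ) {ε : ℝ} (hε : 0 < ε) :
    ∃ η > 0, Ev.{u} fun T => ∀ w : W0, ∀ {κ' : Type} (Arc : κ' → Set w.D), RingV w Arc T η →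
      w.En (w.SmC Asq Arc) (rs (w.Lo Asq) (w.th Θ)) ≤ ENNReal.ofReal ε := by
  classical
  set E : ℝ := max 0 (675 * κ ^ 2 * CD 2 3 * 1 ^ 2) with hE
  have hE0 : 0 ≤ E := le_max_left _ _
  set C : ℝ := 8 * C0 * (netI.card : ℝ) with hC
  have hC0 : 0 ≤ C := by
    have := C0_nonneg
    positivity
  set ω : ℝ := ε / (4 * (C + 1) * (E + 1)) with hω
  have hω0 : 0 < ω := by positivity
  obtain ⟨η, hη, μ, hμ, hημ, hR⟩ := exists_ringEnv.{u} F.armStmt (r := 1 / 8) (by norm_num) hω0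
  refine ⟨η, hη, ?_⟩
  have h1 : Ev.{u} fun T => RingEnv (pts T) netI netP (1 / 8) μ η ω := ev_of_whp (hR netI netP)
  have h2 : Ev.{u} fun T => EQ (pts T) Asq Θ ≤ ENNReal.ofReal (675 * κ ^ 2 * CD 2 3 * 1 ^ 2) :=
    ev_of_whp (whp_EQ hΘ 0 (r := 1) one_pos (Q := Asq) Asq_subset)
  refine (h1.and h2).mono ?_
  rintro T ⟨h1, h2⟩ w κ' Arc hw
  obtain ⟨M, _, P, hP, hPn, hArc⟩ := hw.ring
  have hsub : ∀ i ∈ netI, closedBall (netP i) (3 * (1 / 8)) ⊆ ball 0 4 := by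
    intro i hi z hz
    rw [mem_closedBall] at hz
    rw [mem_ball]
    have h3 := dist_triangle z (netP i) 0
    rw [dist_zero_right (netP i)] at h3
    have h1 := (net_mem hi).2
    have h2 := Complex.norm_le_abs_re_add_abs_im (netP i)
    have h4 := le_max_left |(netP i).re| |(netP i).im|
    have h5 := le_max_right |(netP i).re| |(netP i).im|
    unfold nsup at h1
    linarith
  have hX : ∀ i ∈ netI, pts T ∩ closedBall (netP i) (3 * (1 / 8)) =
      w.X ∩ closedBall (netP i) (3 * (1 / 8)) := fun i hi => inter_sub (hsub i hi) hw.agree.symm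
  have hbox : ∀ i ∈ netI, BoxOK w.X (fun _ : Unit => w.B) () (netP i) (1 / 8) μ := by
    intro i hi
    refine h1.boxOK (by norm_num) hμ.le hημ hη.le hX hi
      (fun j hj => absurd (Subsingleton.elim j ()) hj) ?_
    obtain ⟨x, hx1, hx2⟩ := hw.out
    refine ⟨x, hx1, fun hx3 => hx2 (hsub i hi ?_)⟩
    rw [mem_closedBall]
    have := norm_le_of_sq hx3
    linarith
  have hsum := h1.sum_edE w.hull (by norm_num) hX
  have key := sfa_gen (ω := ω) netI netP hbox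
    (fun j x hx => net_cover (hPn j x hx).1 (hPn j x hx).2) hη.le hημ
    (fun i hi z hz => (h1 w.X hX).2 _ (fun x hx => hx.1)
      (w.hull.fin.subset fun x hx => hx.1) i hi z hz)
    (A := Asq) (fun i hi => by
      rw [Set.disjoint_left]
      intro z hz hz'
      have h3 := (nsup_of_sq hz').1
      have h4 := nsup_Asq hz
      have h5 := (net_mem hi).1
      linarith) hw.free hΘ (S := w.SmC Asq Arc) (fun σ => H566.W0.smC_sat)
    (fun σ e he _ => small_of_SmC hP hArc he)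
  have hXA : pts T ∩ Asq = w.X ∩ Asq :=
    inter_sub (Asq_subset.trans (closedBall_subset_ball (by norm_num))) hw.agree.symm
  have hQt : w.Qt (rs (w.Lo Asq) (w.th Θ)) ≤ ENNReal.ofReal E :=
    (Qt_Lo hXA hw.free Θ).trans (h2.trans (ENNReal.ofReal_le_ofReal (le_max_right _ _)))
  refine key.trans ?_
  calc _ ≤ ENNReal.ofReal (4 * ω * C) * ENNReal.ofReal E := by
        refine mul_le_mul' (ENNReal.ofReal_le_ofReal ?_) hQt
        exact mul_le_mul_of_nonneg_left hsum (by positivity)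
    _ = ENNReal.ofReal (4 * ω * C * E) := (ENNReal.ofReal_mul (by positivity)).symm
    _ ≤ ENNReal.ofReal ε := by
        apply ENNReal.ofReal_le_ofReal
        have e1 : 4 * ω * C * E ≤ 4 * ω * (C + 1) * (E + 1) := by
          have : C * E ≤ (C + 1) * (E + 1) := by nlinarith
          calc 4 * ω * C * E = 4 * ω * (C * E) := by ring
            _ ≤ 4 * ω * ((C + 1) * (E + 1)) := mul_le_mul_of_nonneg_left this (by positivity)
            _ = _ := by ring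
        refine e1.trans (le_of_eq ?_)
        rw [hω]
        field_simp

/-- **Row sf** of the middle assembly, arcs in `{3/4 ≤ nsup ≤ 3/2}`. -/
theorem sf_rowV {τ : ℂ} {κ₀ : ℝ} {Θ : Dt → ℂ} (hΘ : Wt τ κ₀ Θ)
    (κ : ℕ → Type) (sc : ∀ N : ℕ, ℕ → Set Pt → AScene (κ N))
    (hsum : ∀ N, ∀ᶠ M in atTop, Ev.{u} fun T => ∑ i, (sc N M T).p i = 1)
    (hring : ∀ η : ℝ, 0 < η → ∃ N, ∀ᶠ M in atTop, Ev.{u} fun T =>
      ∀ i, (sc N M T).p i ≠ 0 → RingV ((sc N M T).w i) ((sc N M T).Arc i) T η) :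
    ∀ ε : ℝ, 0 < ε → ∃ N, ∀ᶠ M in atTop, Ev.{u} fun T =>
      (sc N M T).mnA (sc N M T).scl Θ ≤ ENNReal.ofReal ε := by
  intro ε hε
  obtain ⟨η, hη, h⟩ := exists_sfV hΘ hε
  obtain ⟨N, hN⟩ := hring η hη
  refine ⟨N, ?_⟩
  filter_upwards [hN, hsum N] with M hM hs
  refine ((h.and hM).and hs).mono ?_
  rintro T ⟨⟨h1, h2⟩, h3⟩
  calc (sc N M T).mnA (sc N M T).scl Θ
      ≤ ∑ i, (sc N M T).p i * ENNReal.ofReal ε := by
        refine Finset.sum_le_sum fun i _ => ?_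
        by_cases hi : (sc N M T).p i = 0
        · rw [hi, zero_mul, zero_mul]
        · gcongr
          exact h1 _ _ (h2 i hi)
    _ = ENNReal.ofReal ε := by rw [← Finset.sum_mul, h3, one_mul]

/-- Row cnt from `RingV`. -/
theorem cnt_rowV (κ : ℕ → Type) (sc : ∀ N : ℕ, ℕ → Set Pt → AScene (κ N)) {η : ℕ → ℝ}
    (hring : ∀ N, ∀ᶠ M in atTop, Ev.{u} fun T =>
      ∀ i, (sc N M T).p i ≠ 0 → RingV ((sc N M T).w i) ((sc N M T).Arc i) T (η N)) :
    ∀ N, ∃ C : ℝ≥0, ∀ᶠ M in atTop, Ev.{u} fun T => ∀ i, (sc N M T).p i ≠ 0 → ∀ J,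
      ((sc N M T).w i).msum ((sc N M T).Arc i J) (fun _ _ => 1) ≤ C := by
  refine cnt_row κ sc fun N => ?_
  filter_upwards [hring N] with M hM
  exact hM.mono fun T hT i hi => (hT i hi).cnW

end Vale.Agent.P148.R2.H609
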